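import Vale.Agent.Lib.P252.Hess12
import Vale.Agent.Lib.P252.CertAux

/-!
The sum of squares certificate for the exponents Cert21.
-/

namespace Vale.Agent.Lib.P252

namespace Cert21

/-- The polynomial form. -/
noncomputable def psi (A : Atoms) (s : ℝ) : ℝ :=
  (-171/125)*A.Aqqq*A.G + (637/1000)*A.Aqqq*A.H + (-591/500)*A.Aqqq*A.T + (984057/500000)*A.Aqqx*A.G + (-251/500)*A.Aqqx*A.H + (1196/625)*A.Aqqx*A.T + (-743/500)*A.Aqqx*s + (-50343/25000)*A.Aqxx*A.G + (637/1000)*A.Aqxx*A.H + (-45731/25000)*A.Aqxx*A.T + (38/25)*A.Aqxx*s + (12971/12500)*A.Axxx*A.G + (-251/500)*A.Axxx*A.H + (24571/25000)*A.Axxx*A.T + (-29/25)*A.Axxx*s + (4577/20000)*A.G^3 + (-218871/250000)*A.G^2*A.H + (176097/250000)*A.G^2*A.T + (-161/100)*A.G^2*s + (635089/1000000)*A.G*A.H^2 + (-78873/50000)*A.G*A.H*A.T + (84/25)*A.G*A.H*s + 1*A.G*A.HH + (-743/500)*A.G*A.HM + (19/25)*A.G*A.HN + (743/1000)*A.G*A.MM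 + (-19/25)*A.G*A.MN + (29/50)*A.G*A.NN + (314113/500000)*A.G*A.T^2 + (-10413/5000)*A.G*A.T*s + (1993/1000)*A.G*A.pqq + (-10271/5000)*A.G*A.pqx + (19163/125000)*A.G*A.pxx + (636363/1000000)*A.H^2*A.T + (-637/500)*A.H^2*s + (-3503/5000)*A.H*A.T^2 + (248/125)*A.H*A.T*s + (-637/500)*A.H*A.pqq + (251/250)*A.H*A.pqx + 1*A.HH*A.T + (-743/500)*A.HM*A.T + (19/25)*A.HN*A.T + (743/1000)*A.MM*A.T + (-19/25)*A.MN*A.T + (29/50)*A.NN*A.T + (191/1250)*A.T^3 + (-2923/5000)*A.T^2*s + (1621/1000)*A.T*A.pqq + (-9721/5000)*A.T*A.pqx + (19221/125000)*A.T*A.pxx + 2*A.b11 + (-58/125)*A.b12 + (-1243/500)*A.bc11 + (38/25)*A.bc12 + (-54/25)*A.bc13 + (29/125)*A.bc21 + (29/125)*A.bc23 + (743/1000)*A.c11 + (-19/25)*A.c12 + (1323/1000)*A.c13 + (-19/25)*A.c23 + (29/50)*A.c33 + 2*A.pqx*s + (-58/125)*A.pxx*s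

/-- The scalar remainder. -/
noncomputable def rem (A : Atoms) (s : ℝ) : ℝ :=
  (110047/400000000)*A.G^3 + (969/312500000)*A.G^2*A.H + (121596189/100000000000)*A.G^2*A.T + (-2962407467/2500000000)*A.G^2*s + (11578079/20000000000)*A.G*A.H^2 + (10877837/50000000000)*A.G*A.H*A.T + (2732375297/1250000000)*A.G*A.H*s + (5209127/10000000000)*A.G*A.T^2 + (-94946003/62500000)*A.G*A.T*s + (-61467316371/1250000000)*A.G*s^2 + (-568723/10000000000)*A.H^3 + (7335079/10000000000)*A.H^2*A.T + (-306235603/625000000)*A.H^2*s + (-1630367/25000000000)*A.H*A.T^2 + (7369194521/5000000000)*A.H*A.T*s + (16465667/25000000000)*A.T^3 + (-2923/5000)*A.T^2*s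

noncomputable def nf0 (A : Atoms) (s : ℝ) : ℝ :=
  (-948079731/1250000000)*A.Aqqq*A.G + (-3068364463/5000000000)*A.Aqqq*A.H + (-76018759/2500000000)*A.Aqqq*A.T + (8424477101/10000000000)*A.Aqqx*A.G + (9888045381/5000000000)*A.Aqqx*A.H + (438038411/1000000000)*A.Aqqx*A.T + (-1819862511/10000000000)*A.Aqxx*A.G + (-2837402367/2000000000)*A.Aqxx*A.H + (-2987678243/2500000000)*A.Aqxx*A.T + (-33399289/5000000000)*A.Axxx*A.G + (1885278963/10000000000)*A.Axxx*A.H + (1724724537/2500000000)*A.Axxx*A.T + (7337603/10000000000)*A.G^3 + (24203067/5000000000)*A.G^2*A.H + (17764277463/100000000000)*A.G^2*A.T + (-3548626249/20000000000)*A.G*A.H^2 + (-3638326763/5000000000)*A.G*A.H*A.T + (1395479673/2500000000)*A.G*A.HH + (-515077689/625000000)*A.G*A.HM + (835849077/2500000000)*A.G*A.HN + (152099449/500000000)*A.G*A.MM + (-308674373/1250000000)*A.G*A.MN + (504318721/10000000000)*A.G*A.NN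 + (22787112339/100000000000)*A.G*A.T^2 + (4981507423/5000000000)*A.G*A.pqq + (-189773773/312500000)*A.G*A.pqx + (-62078541/2500000000)*A.G*A.pxx + (3074502743/5000000000)*A.H^3 + (-42939937131/100000000000)*A.H^2*A.T + (1656988977/2500000000)*A.H*A.HH + (-731977203/625000000)*A.H*A.HM + (5813768669/5000000000)*A.H*A.HN + (314568941/625000000)*A.H*A.MM + (-1144506751/1250000000)*A.H*A.MN + (180205449/625000000)*A.H*A.NN + (266381447/12500000000)*A.H*A.T^2 + (5962826191/10000000000)*A.H*A.pqq + (-13127583163/10000000000)*A.H*A.pqx + (3161987871/5000000000)*A.H*A.pxx + (78902561/400000000)*A.HH*A.T + (-1015204343/2500000000)*A.HM*A.T + (717278131/1250000000)*A.HN*A.T + (104500997/500000000)*A.MM*A.T + (-369108867/625000000)*A.MN*A.T + (4175173633/10000000000)*A.NN*A.T + (44625503/5000000000)*A.T^3 + (147394233/5000000000)*A.T*A.pqq + (-3703607549/10000000000)*A.T*A.pqx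 + (6424559053/10000000000)*A.T*A.pxx + (-123102709/625000000)*A.b11 + (-414776607/625000000)*A.b12 + (-174243069/312500000)*A.b22 + (25334521/62500000)*A.bc11 + (547142947/5000000000)*A.bc12 + (-482677041/500000000)*A.bc13 + (1224794631/2500000000)*A.bc21 + (1560427/2500000)*A.bc22 + (-103946661/312500000)*A.bc23 + (-16292703/78125000)*A.c11 + (215200913/2500000000)*A.c12 + (890693333/1250000000)*A.c13 + (-645529609/1250000000)*A.c22 + (-216515723/5000000000)*A.c23 + (-12310233/250000000)*A.c33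

lemma chunk0 (A : Atoms) (s : ℝ) (ht : ∀ a1 a2 a3 a4 a5 a6 a7 b1 b2 b3 b4 b5 b6 b7 c1 c2 c3 c4 c5 c6 c7 d1 d2 d3 d4 d5 d6 d7 : ℝ,
      0 ≤ A.fTens a1 a2 a3 a4 a5 a6 a7 b1 b2 b3 b4 b5 b6 b7 c1 c2 c3 c4 c5 c6 c7 d1 d2 d3 d4 d5 d6 d7)
    (hv : ∀ z1 z2 z3 z4 z5 z6 z7 : ℝ, 0 ≤ A.fPV z1 z2 z3 z4 z5 z6 z7 z1 z2 z3 z4 z5 z6 z7) :
    0 ≤ nf0 A s := by
  have e : 1 * (A.fTens (4031/12500) (-1043/3125) (45927/100000) (947/100000) (-569/100000) (35083/100000) ((-47/2000)*A.T+(-4123/100000)*A.H+(-3173/50000)*A.G) (6447/12500) (-18917/50000) (703/5000) (8553/20000) (2711/100000) (-21/1250) ((-9929/100000)*A.T+(4423/100000)*A.H+(1519/100000)*A.G) (-30539/100000) (15621/50000) (-11363/25000) 0 0 (-6969/20000) ((459/20000)*A.T+(1039/25000)*A.H+(313/5000)*A.G) (-27027/50000) (10033/25000) (-17511/100000) (-43749/100000) 0 0 ((10111/100000)*A.T+(-4183/100000)*A.H+(-28/3125)*A.G))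 = nf0 A s := by
    unfold nf0 Atoms.fTens Atoms.fIP Atoms.fPV
    ring
  rw [← e]
  exact mul_nonneg (by norm_num) (ht _ _ _ _ _ _ _ _ _ _ _ _ _ _ _ _ _ _ _ _ _ _ _ _ _ _ _ _)

noncomputable def nf1 (A : Atoms) (s : ℝ) : ℝ :=
  (-102469/2500000000)*A.Aqqq*A.G + (-58353/156250000)*A.Aqqq*A.H + (3070683/2500000000)*A.Aqqq*A.T + (5749189/10000000000)*A.Aqqx*A.G + (139659/156250000)*A.Aqqx*A.H + (7473/15625000)*A.Aqqx*A.T + (2838917/10000000000)*A.Aqxx*A.G + (-818911/5000000000)*A.Aqxx*A.H + (6559573/5000000000)*A.Aqxx*A.T + (2183931/5000000000)*A.Axxx*A.G + (2327759/2000000000)*A.Axxx*A.H + (-1609131/10000000000)*A.Axxx*A.T + (443969/10000000000)*A.G^3 + (-124359/625000000)*A.G^2*A.H + (1918763/100000000000)*A.G^2*A.T + (-23548847/20000000000)*A.G*A.H^2 + (-2165767/50000000000)*A.G*A.H*A.T + (3171257/10000000000)*A.G*A.HH + (-1352859/5000000000)*A.G*A.HM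 + (-8443399/5000000000)*A.G*A.HN + (117409/2000000000)*A.G*A.MM + (3607077/5000000000)*A.G*A.MN + (22483001/10000000000)*A.G*A.NN + (6770849/50000000000)*A.G*A.T^2 + (-870163/5000000000)*A.G*A.pqq + (2385747/10000000000)*A.G*A.pqx + (-819333/5000000000)*A.G*A.pxx + (-319561/2000000000)*A.H^3 + (-25355149/12500000000)*A.H^2*A.T + (-4961871/5000000000)*A.H*A.HH + (-4387407/5000000000)*A.H*A.HM + (2449561/1250000000)*A.H*A.HN + (54027/100000000)*A.H*A.MM + (18677287/5000000000)*A.H*A.MN + (9056179/5000000000)*A.H*A.NN + (451229/12500000000)*A.H*A.T^2 + (-345919/1250000000)*A.H*A.pqq + (12662577/10000000000)*A.H*A.pqx + (-4380141/10000000000)*A.H*A.pxx + (155313/200000000)*A.HH*A.T + (1014903/500000000)*A.HM*A.T + (2655447/2500000000)*A.HN*A.T + (696501/500000000)*A.MM*A.T + (3770169/2500000000)*A.MN*A.T + (417157/1000000000)*A.NN*A.T + (-72443273/50000000000)*A.T^3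 + (5012703/5000000000)*A.T*A.pqq + (-2150431/2500000000)*A.T*A.pqx + (-611657/10000000000)*A.T*A.pxx + (-3863223/5000000000)*A.b11 + (4945041/5000000000)*A.b12 + (-24719/78125000)*A.b22 + (-5163021/2500000000)*A.bc11 + (547611/2500000000)*A.bc12 + (3491659/5000000000)*A.bc13 + (-2086269/5000000000)*A.bc21 + (-11816217/5000000000)*A.bc22 + (131531/78125000)*A.bc23 + (-410337/312500000)*A.c11 + (-4796769/2500000000)*A.c12 + (-309299/1000000000)*A.c13 + (-19514593/5000000000)*A.c22 + (-12880031/5000000000)*A.c23 + (-3499/1562500)*A.c33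

lemma chunk1 (A : Atoms) (s : ℝ) (ht : ∀ a1 a2 a3 a4 a5 a6 a7 b1 b2 b3 b4 b5 b6 b7 c1 c2 c3 c4 c5 c6 c7 d1 d2 d3 d4 d5 d6 d7 : ℝ,
      0 ≤ A.fTens a1 a2 a3 a4 a5 a6 a7 b1 b2 b3 b4 b5 b6 b7 c1 c2 c3 c4 c5 c6 c7 d1 d2 d3 d4 d5 d6 d7)
    (hv : ∀ z1 z2 z3 z4 z5 z6 z7 : ℝ, 0 ≤ A.fPV z1 z2 z3 z4 z5 z6 z7 z1 z2 z3 z4 z5 z6 z7) :
    0 ≤ nf1 A s := by
  have e : 1 * (A.fTens (1869/100000) (381/12500) (1823/100000) (-179/50000) (-93/12500) (13/20000) ((-1313/100000)*A.T+(541/100000)*A.H+(19/50000)*A.G) (-38/3125) (223/50000) (4/125) (63/50000) (289/100000) (13/100000) ((3/2500)*A.T+(-999/100000)*A.H+(-191/50000)*A.G) (-2067/100000) (-1077/50000) (-921/100000) 0 0 (11/6250) ((149/12500)*A.T+(-599/100000)*A.H+(-123/100000)*A.G) (1301/100000) (-623/100000) (-3499/100000) (29/50000) 0 0 ((-13/20000)*A.T+(63/6250)*A.H+(133/50000)*A.G)) = nf1 A s := by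
    unfold nf1 Atoms.fTens Atoms.fIP Atoms.fPV
    ring
  rw [← e]
  exact mul_nonneg (by norm_num) (ht _ _ _ _ _ _ _ _ _ _ _ _ _ _ _ _ _ _ _ _ _ _ _ _ _ _ _ _)

noncomputable def nf2 (A : Atoms) (s : ℝ) : ℝ :=
  (-1022368571/10000000000)*A.Aqqq*A.G + (1714705159/5000000000)*A.Aqqq*A.H + (-1187460871/5000000000)*A.Aqqq*A.T + (591969711/1250000000)*A.Aqqx*A.G + (-9878518709/10000000000)*A.Aqqx*A.H + (1412477967/5000000000)*A.Aqqx*A.T + (-450869597/625000000)*A.Aqxx*A.G + (132534757/156250000)*A.Aqxx*A.H + (-877767241/5000000000)*A.Aqxx*A.T + (162960077/500000000)*A.Axxx*A.G + (-364785167/1250000000)*A.Axxx*A.H + (143453519/5000000000)*A.Axxx*A.T + (105251801/2000000000)*A.G^3 + (-376075367/1250000000)*A.G^2*A.H + (2138738161/25000000000)*A.G^2*A.T + (4004571673/10000000000)*A.G*A.H^2 + (-11354495619/50000000000)*A.G*A.H*A.T + (636378133/5000000000)*A.G*A.HH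 + (-1203397871/5000000000)*A.G*A.HM + (1663480217/5000000000)*A.G*A.HN + (227599217/2000000000)*A.G*A.MM + (-156955561/500000000)*A.G*A.MN + (17877797/80000000)*A.G*A.NN + (3827622559/100000000000)*A.G*A.T^2 + (219458021/2000000000)*A.G*A.pqq + (-1691826059/5000000000)*A.G*A.pqx + (576331653/2500000000)*A.G*A.pxx + (-2805494839/10000000000)*A.H^3 + (34855986259/100000000000)*A.H^2*A.T + (-1440704191/5000000000)*A.H*A.HH + (1397081309/2500000000)*A.H*A.HM + (-109822107/250000000)*A.H*A.HN + (-674693373/2500000000)*A.H*A.MM + (2245220909/5000000000)*A.H*A.MN + (-268332547/2500000000)*A.H*A.NN + (-3880996673/25000000000)*A.H*A.T^2 + (-3497994797/10000000000)*A.H*A.pqq + (252293323/400000000)*A.H*A.pqx + (-1959674811/5000000000)*A.H*A.pxx + (1735103437/10000000000)*A.HH*A.T + (-802132379/2500000000)*A.HM*A.T + (103617893/1250000000)*A.HN*A.T + (1602781297/10000000000)*A.MM*A.T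 + (-222096019/2500000000)*A.MN*A.T + (32530361/2500000000)*A.NN*A.T + (1181924733/25000000000)*A.T^3 + (1081100689/5000000000)*A.T*A.pqq + (-359478659/2000000000)*A.T*A.pqx + (315086513/5000000000)*A.T*A.pxx + (27249453/2500000000)*A.b11 + (-454112741/5000000000)*A.b12 + (67417111/1000000000)*A.b22 + (-555209883/5000000000)*A.bc11 + (1049120221/5000000000)*A.bc12 + (-29795829/500000000)*A.bc13 + (51585263/625000000)*A.bc21 + (-47715823/156250000)*A.bc22 + (1116640651/5000000000)*A.bc23 + (57875067/625000000)*A.c11 + (-1077255759/5000000000)*A.c12 + (139226413/2500000000)*A.c13 + (164027747/500000000)*A.c22 + (-1490785919/5000000000)*A.c23 + (108447339/625000000)*A.c33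

lemma chunk2 (A : Atoms) (s : ℝ) (ht : ∀ a1 a2 a3 a4 a5 a6 a7 b1 b2 b3 b4 b5 b6 b7 c1 c2 c3 c4 c5 c6 c7 d1 d2 d3 d4 d5 d6 d7 : ℝ,
      0 ≤ A.fTens a1 a2 a3 a4 a5 a6 a7 b1 b2 b3 b4 b5 b6 b7 c1 c2 c3 c4 c5 c6 c7 d1 d2 d3 d4 d5 d6 d7)
    (hv : ∀ z1 z2 z3 z4 z5 z6 z7 : ℝ, 0 ≤ A.fPV z1 z2 z3 z4 z5 z6 z7 z1 z2 z3 z4 z5 z6 z7) :
    0 ≤ nf2 A s := by
  have e : 1 * (A.fTens (-20817/50000) (38151/100000) (-977/10000) (-11397/50000) (3517/20000) (-1953/25000) ((4799/100000)*A.T+(-343/10000)*A.H+(619/100000)*A.G) (6859/20000) (-16271/50000) (42679/100000) (14849/100000) (-24429/50000) (31291/100000) ((-1243/50000)*A.T+(-197/12500)*A.H+(-7187/100000)*A.G) (-1309/100000) (1517/12500) (-184/3125) 0 0 (973/100000) ((-2607/100000)*A.T+(1373/50000)*A.H+(1771/100000)*A.G) (9829/100000) (-8889/100000) (2541/12500) (7/250) 0 0 ((-479/100000)*A.T+(-1487/50000)*A.H+(-4589/100000)*A.G))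 = nf2 A s := by
    unfold nf2 Atoms.fTens Atoms.fIP Atoms.fPV
    ring
  rw [← e]
  exact mul_nonneg (by norm_num) (ht _ _ _ _ _ _ _ _ _ _ _ _ _ _ _ _ _ _ _ _ _ _ _ _ _ _ _ _)

noncomputable def nf3 (A : Atoms) (s : ℝ) : ℝ :=
  (86052511/5000000000)*A.Aqqq*A.G + (1265349/10000000)*A.Aqqq*A.H + (-845377317/5000000000)*A.Aqqq*A.T + (2271075961/10000000000)*A.Aqqx*A.G + (-1258658669/2500000000)*A.Aqqx*A.H + (513512637/2500000000)*A.Aqqx*A.T + (-660010539/2000000000)*A.Aqxx*A.G + (368290779/2000000000)*A.Aqxx*A.H + (167648633/2500000000)*A.Aqxx*A.T + (237278611/2500000000)*A.Axxx*A.G + (1105724057/10000000000)*A.Axxx*A.H + (-94882941/2500000000)*A.Axxx*A.T + (36593011/2500000000)*A.G^3 + (-224900577/2500000000)*A.G^2*A.H + (7737166217/100000000000)*A.G^2*A.T + (979479093/20000000000)*A.G*A.H^2 + (-2271238629/25000000000)*A.G*A.H*A.T + (216253777/2000000000)*A.G*A.HH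 + (-1026917743/5000000000)*A.G*A.HM + (26898257/100000000)*A.G*A.HN + (975330737/10000000000)*A.G*A.MM + (-319213397/1250000000)*A.G*A.MN + (335861693/2000000000)*A.G*A.NN + (1481154751/20000000000)*A.G*A.T^2 + (-131850837/5000000000)*A.G*A.pqq + (-1340297823/5000000000)*A.G*A.pqx + (22340967/312500000)*A.G*A.pxx + (-251485593/2500000000)*A.H^3 + (16356988773/100000000000)*A.H^2*A.T + (-1208025117/2500000000)*A.H*A.HH + (775077939/1000000000)*A.H*A.HM + (-3354546053/5000000000)*A.H*A.HN + (-1499044953/5000000000)*A.H*A.MM + (1163161933/2500000000)*A.H*A.MN + (-123149981/1250000000)*A.H*A.NN + (-1334637793/12500000000)*A.H*A.T^2 + (-1694681691/10000000000)*A.H*A.pqq + (5740259043/10000000000)*A.H*A.pqx + (31580233/500000000)*A.H*A.pxx + (229750601/400000000)*A.HH*A.T + (-1808115291/2500000000)*A.HM*A.T + (222958797/1250000000)*A.HN*A.T + (2325576357/10000000000)*A.MM*A.T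 + (-145033329/1250000000)*A.MN*A.T + (4549753/312500000)*A.NN*A.T + (229121163/25000000000)*A.T^3 + (1228818583/5000000000)*A.T*A.pqq + (-378029549/2000000000)*A.T*A.pqx + (-3362625441/10000000000)*A.T*A.pxx + (-677771567/1250000000)*A.b11 + (415842939/1000000000)*A.b12 + (-182116949/2500000000)*A.b22 + (3239045793/5000000000)*A.bc11 + (-244698903/625000000)*A.bc12 + (68620273/1250000000)*A.bc13 + (-1982188257/5000000000)*A.bc21 + (1588068771/2500000000)*A.bc22 + (-844289551/5000000000)*A.bc23 + (-470797317/2500000000)*A.c11 + (786025803/2500000000)*A.c12 + (-65561369/1250000000)*A.c13 + (-1773277097/5000000000)*A.c22 + (1126823029/5000000000)*A.c23 + (-121115757/1250000000)*A.c33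

lemma chunk3 (A : Atoms) (s : ℝ) (ht : ∀ a1 a2 a3 a4 a5 a6 a7 b1 b2 b3 b4 b5 b6 b7 c1 c2 c3 c4 c5 c6 c7 d1 d2 d3 d4 d5 d6 d7 : ℝ,
      0 ≤ A.fTens a1 a2 a3 a4 a5 a6 a7 b1 b2 b3 b4 b5 b6 b7 c1 c2 c3 c4 c5 c6 c7 d1 d2 d3 d4 d5 d6 d7)
    (hv : ∀ z1 z2 z3 z4 z5 z6 z7 : ℝ, 0 ≤ A.fPV z1 z2 z3 z4 z5 z6 z7 z1 z2 z3 z4 z5 z6 z7) :
    0 ≤ nf3 A s := by
  have e : 1 * (A.fTens (-10967/25000) (21921/100000) (-1159/25000) (1191/12500) (-7311/100000) (11989/50000) ((1927/20000)*A.T+(-61/800)*A.H+(-851/50000)*A.G) (11879/100000) (-11449/100000) (3101/25000) (-3977/50000) (20711/100000) (-3301/25000) ((-31/6250)*A.T+(501/25000)*A.H+(-593/50000)*A.G) (61801/100000) (-21477/50000) (557/5000) 0 0 (-2641/12500) ((-10543/100000)*A.T+(7911/100000)*A.H+(141/20000)*A.G) (-15331/50000) (908/3125) (-39057/100000) (87/20000) 0 0 ((111/6250)*A.T+(-93/100000)*A.H+(769/12500)*A.G))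 = nf3 A s := by
    unfold nf3 Atoms.fTens Atoms.fIP Atoms.fPV
    ring
  rw [← e]
  exact mul_nonneg (by norm_num) (ht _ _ _ _ _ _ _ _ _ _ _ _ _ _ _ _ _ _ _ _ _ _ _ _ _ _ _ _)

noncomputable def nf4 (A : Atoms) (s : ℝ) : ℝ :=
  (28987/500000000)*A.Aqqq*A.G + (32837/1000000000)*A.Aqqq*A.H + (-18807/2500000000)*A.Aqqq*A.T + (367541/2500000000)*A.Aqqx*A.G + (-23281/1250000000)*A.Aqqx*A.H + (-119373/1000000000)*A.Aqqx*A.T + (734937/5000000000)*A.Aqxx*A.G + (2353/500000000)*A.Aqxx*A.H + (-571369/5000000000)*A.Aqxx*A.T + (-347579/2500000000)*A.Axxx*A.G + (7099/1000000000)*A.Axxx*A.H + (463103/5000000000)*A.Axxx*A.T + (1242037/2000000000)*A.G^3 + (894397/2500000000)*A.G^2*A.H + (-62933481/50000000000)*A.G^2*A.T + (2233751/10000000000)*A.G*A.H^2 + (-2662021/5000000000)*A.G*A.H*A.T + (76913/2000000000)*A.G*A.HH + (80353/1250000000)*A.G*A.HM + (-122339/2500000000)*A.G*A.HN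 + (268789/10000000000)*A.G*A.MM + (-12787/312500000)*A.G*A.MN + (38933/2500000000)*A.G*A.NN + (3354067/6250000000)*A.G*A.T^2 + (32839/625000000)*A.G*A.pqq + (303983/2500000000)*A.G*A.pqx + (1092753/5000000000)*A.G*A.pxx + (5013/5000000000)*A.H^3 + (-4285023/25000000000)*A.H^2*A.T + (31463/1250000000)*A.H*A.HH + (167241/2500000000)*A.H*A.HM + (-5417/312500000)*A.H*A.HN + (9581/250000000)*A.H*A.MM + (-150589/5000000000)*A.H*A.MN + (93/125000000)*A.H*A.NN + (67211/390625000)*A.H*A.T^2 + (90223/5000000000)*A.H*A.pqq + (-21019/1000000000)*A.H*A.pqx + (-28929/2500000000)*A.H*A.pxx + (41197/10000000000)*A.HH*A.T + (18767/1250000000)*A.HM*A.T + (-477/1000000000)*A.HN*A.T + (136789/10000000000)*A.MM*A.T + (-531/625000000)*A.MN*A.T + (4437/10000000000)*A.NN*A.T + (161363/12500000000)*A.T^3 + (-10317/2500000000)*A.T*A.pqq + (-361997/5000000000)*A.T*A.pqx + (-733269/5000000000)*A.T*A.pxx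 + (-10293/2500000000)*A.b11 + (-125847/5000000000)*A.b12 + (-96141/2500000000)*A.b22 + (-75033/5000000000)*A.bc11 + (-56853/1250000000)*A.bc12 + (6531/5000000000)*A.bc13 + (-26307/1250000000)*A.bc21 + (-241331/5000000000)*A.bc22 + (15293/312500000)*A.bc23 + (-6837/500000000)*A.c11 + (-94071/2500000000)*A.c12 + (393/312500000)*A.c13 + (863/312500000)*A.c22 + (49943/1250000000)*A.c23 + (-9727/625000000)*A.c33

lemma chunk4 (A : Atoms) (s : ℝ) (ht : ∀ a1 a2 a3 a4 a5 a6 a7 b1 b2 b3 b4 b5 b6 b7 c1 c2 c3 c4 c5 c6 c7 d1 d2 d3 d4 d5 d6 d7 : ℝ,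
      0 ≤ A.fTens a1 a2 a3 a4 a5 a6 a7 b1 b2 b3 b4 b5 b6 b7 c1 c2 c3 c4 c5 c6 c7 d1 d2 d3 d4 d5 d6 d7)
    (hv : ∀ z1 z2 z3 z4 z5 z6 z7 : ℝ, 0 ≤ A.fPV z1 z2 z3 z4 z5 z6 z7 z1 z2 z3 z4 z5 z6 z7) :
    0 ≤ nf4 A s := by
  have e : 1 * (A.fTens (-141/100000) (-129/50000) (-39/100000) (1/10000) (13/25000) (7/100000) ((-19/25000)*A.T+(51/50000)*A.H+(259/100000)*A.G) (-219/50000) (-3/800) (71/25000) (-41/20000) 0 (11/100000) ((-411/50000)*A.T+(-31/100000)*A.H+(623/50000)*A.G) (73/50000) (53/20000) (-27/50000) 0 0 (-33/50000) ((17/25000)*A.T+(-9/10000)*A.H+(-239/100000)*A.G) (439/100000) (179/50000) (-137/50000) (41/20000) 0 0 ((413/50000)*A.T+(7/25000)*A.H+(-623/50000)*A.G)) = nf4 A s := by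
    unfold nf4 Atoms.fTens Atoms.fIP Atoms.fPV
    ring
  rw [← e]
  exact mul_nonneg (by norm_num) (ht _ _ _ _ _ _ _ _ _ _ _ _ _ _ _ _ _ _ _ _ _ _ _ _ _ _ _ _)

noncomputable def nf5 (A : Atoms) (s : ℝ) : ℝ :=
  (-561593939/5000000000)*A.Aqqq*A.G + (-506464651/5000000000)*A.Aqqq*A.H + (-29690147/1250000000)*A.Aqqq*A.T + (-69221613/1000000000)*A.Aqqx*A.G + (-30136351/200000000)*A.Aqqx*A.H + (-6195669/200000000)*A.Aqqx*A.T + (860386707/5000000000)*A.Aqxx*A.G + (-63874907/5000000000)*A.Aqxx*A.H + (225818809/5000000000)*A.Aqxx*A.T + (511044681/5000000000)*A.Axxx*A.G + (-1700909/100000000)*A.Axxx*A.H + (143629589/5000000000)*A.Axxx*A.T + (173433049/5000000000)*A.G^3 + (-132000441/5000000000)*A.G^2*A.H + (2425058831/50000000000)*A.G^2*A.T + (-1296295519/10000000000)*A.G*A.H^2 + (93237769/6250000000)*A.G*A.H*A.T + (154299301/1000000000)*A.G*A.HH + (-1080951457/5000000000)*A.G*A.HM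 + (-340710571/2500000000)*A.G*A.HN + (758195201/10000000000)*A.G*A.MM + (476777711/5000000000)*A.G*A.MN + (150656273/5000000000)*A.G*A.NN + (358396413/12500000000)*A.G*A.T^2 + (200879009/1250000000)*A.G*A.pqq + (-35015593/2500000000)*A.G*A.pqx + (-1156401759/5000000000)*A.G*A.pxx + (-2261777/200000000)*A.H^3 + (421536969/50000000000)*A.H^2*A.T + (318433903/5000000000)*A.H*A.HH + (-87702799/625000000)*A.H*A.HM + (-30747199/1000000000)*A.H*A.HN + (13390493/200000000)*A.H*A.MM + (221395399/5000000000)*A.H*A.MN + (2712507/2500000000)*A.H*A.NN + (813387541/25000000000)*A.H*A.T^2 + (132747231/1250000000)*A.H*A.pqq + (804191087/5000000000)*A.H*A.pqx + (-69613619/5000000000)*A.H*A.pxx + (65828297/10000000000)*A.HH*A.T + (-98603111/5000000000)*A.HM*A.T + (-149709/250000000)*A.HN*A.T + (148285561/10000000000)*A.MM*A.T + (982569/1250000000)*A.MN*A.T + (164493/2500000000)*A.NN*A.T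 + (236417019/50000000000)*A.T^3 + (19774323/1250000000)*A.T*A.pqq + (55574821/2500000000)*A.T*A.pqx + (-165666739/2500000000)*A.T*A.pxx + (8173591/1250000000)*A.b11 + (317822617/5000000000)*A.b12 + (771071463/5000000000)*A.b22 + (-24665861/1250000000)*A.bc11 + (-480601593/5000000000)*A.bc12 + (-6173307/2500000000)*A.bc13 + (-55517691/1250000000)*A.bc21 + (-609914699/2500000000)*A.bc22 + (-340925397/2500000000)*A.bc23 + (926733/62500000)*A.c11 + (33897097/500000000)*A.c12 + (3964317/2500000000)*A.c13 + (117634441/1000000000)*A.c22 + (483628219/5000000000)*A.c23 + (30109539/1000000000)*A.c33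

lemma chunk5 (A : Atoms) (s : ℝ) (ht : ∀ a1 a2 a3 a4 a5 a6 a7 b1 b2 b3 b4 b5 b6 b7 c1 c2 c3 c4 c5 c6 c7 d1 d2 d3 d4 d5 d6 d7 : ℝ,
      0 ≤ A.fTens a1 a2 a3 a4 a5 a6 a7 b1 b2 b3 b4 b5 b6 b7 c1 c2 c3 c4 c5 c6 c7 d1 d2 d3 d4 d5 d6 d7)
    (hv : ∀ z1 z2 z3 z4 z5 z6 z7 : ℝ, 0 ≤ A.fPV z1 z2 z3 z4 z5 z6 z7 z1 z2 z3 z4 z5 z6 z7) :
    0 ≤ nf5 A s := by
  have e : 1 * (A.fTens (6059/100000) (-1713/20000) (-189/25000) (6539/100000) (-139/10000) (-1053/100000) ((219/100000)*A.T+(73/25000)*A.H+(-9/25000)*A.G) (28233/100000) (-20449/100000) (-12039/100000) (2941/20000) (-169/6250) (-25093/100000) ((-5717/100000)*A.T+(4617/100000)*A.H+(527/12500)*A.G) (1349/25000) (-541/6250) (147/50000) 0 0 (69/6250) ((497/100000)*A.T+(7/100000)*A.H+(-127/50000)*A.G) (27311/100000) (-461/2500) (-2501/20000) (7489/50000) 0 0 ((-1483/25000)*A.T+(2271/50000)*A.H+(4329/100000)*A.G))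 = nf5 A s := by
    unfold nf5 Atoms.fTens Atoms.fIP Atoms.fPV
    ring
  rw [← e]
  exact mul_nonneg (by norm_num) (ht _ _ _ _ _ _ _ _ _ _ _ _ _ _ _ _ _ _ _ _ _ _ _ _ _ _ _ _)

noncomputable def nf6 (A : Atoms) (s : ℝ) : ℝ :=
  (132629327/10000000000)*A.Aqqq*A.G + (72997729/10000000000)*A.Aqqq*A.H + (-2646699/625000000)*A.Aqqq*A.T + (-8785231/100000000)*A.Aqqx*A.G + (356438657/5000000000)*A.Aqqx*A.H + (-614231343/10000000000)*A.Aqqx*A.T + (-287516421/10000000000)*A.Aqxx*A.G + (65024419/5000000000)*A.Aqxx*A.H + (277202997/2000000000)*A.Aqxx*A.T + (26012951/2500000000)*A.Axxx*A.G + (-504008093/10000000000)*A.Axxx*A.H + (78695709/625000000)*A.Axxx*A.T + (11731169/2500000000)*A.G^3 + (-28532393/1250000000)*A.G^2*A.H + (4548967251/100000000000)*A.G^2*A.T + (123088673/20000000000)*A.G*A.H^2 + (-536076431/10000000000)*A.G*A.H*A.T + (8718421/2000000000)*A.G*A.HH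 + (-43290069/1000000000)*A.G*A.HM + (67324417/5000000000)*A.G*A.HN + (4884021/40000000)*A.G*A.MM + (-2340501/31250000)*A.G*A.MN + (57510721/5000000000)*A.G*A.NN + (-376803451/20000000000)*A.G*A.T^2 + (-181595059/10000000000)*A.G*A.pqq + (341029897/10000000000)*A.G*A.pqx + (6031291/1000000000)*A.G*A.pxx + (492164697/10000000000)*A.H^3 + (-555560553/4000000000)*A.H^2*A.T + (86741379/5000000000)*A.H*A.HH + (-33821391/312500000)*A.H*A.HM + (-7001381/1000000000)*A.H*A.HN + (24186141/1000000000)*A.H*A.MM + (1075611579/5000000000)*A.H*A.MN + (-85143971/1250000000)*A.H*A.NN + (1429447469/25000000000)*A.H*A.T^2 + (-264738761/10000000000)*A.H*A.pqq + (314155131/5000000000)*A.H*A.pqx + (-11614393/400000000)*A.H*A.pxx + (232582181/10000000000)*A.HH*A.T + (-57476573/5000000000)*A.HM*A.T + (-240168997/2500000000)*A.HN*A.T + (16132133/10000000000)*A.MM*A.T + (56127601/2500000000)*A.MN*A.T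 + (126696557/1250000000)*A.NN*A.T + (-169171471/50000000000)*A.T^3 + (20015181/1250000000)*A.T*A.pqq + (-35576043/2000000000)*A.T*A.pqx + (-798748389/10000000000)*A.T*A.pxx + (-11313853/500000000)*A.b11 + (-48107691/2500000000)*A.b12 + (-917393/312500000)*A.b22 + (6377599/625000000)*A.bc11 + (127543241/1250000000)*A.bc12 + (94834609/2500000000)*A.bc13 + (106424271/1000000000)*A.bc21 + (20625963/2500000000)*A.bc22 + (-61559273/5000000000)*A.bc23 + (-2380523/2500000000)*A.c11 + (-244565153/5000000000)*A.c12 + (-27693363/125000000)*A.c13 + (-535721343/2500000000)*A.c22 + (177073279/1250000000)*A.c23 + (-56343329/5000000000)*A.c33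

lemma chunk6 (A : Atoms) (s : ℝ) (ht : ∀ a1 a2 a3 a4 a5 a6 a7 b1 b2 b3 b4 b5 b6 b7 c1 c2 c3 c4 c5 c6 c7 d1 d2 d3 d4 d5 d6 d7 : ℝ,
      0 ≤ A.fTens a1 a2 a3 a4 a5 a6 a7 b1 b2 b3 b4 b5 b6 b7 c1 c2 c3 c4 c5 c6 c7 d1 d2 d3 d4 d5 d6 d7)
    (hv : ∀ z1 z2 z3 z4 z5 z6 z7 : ℝ, 0 ≤ A.fPV z1 z2 z3 z4 z5 z6 z7 z1 z2 z3 z4 z5 z6 z7) :
    0 ≤ nf6 A s := by
  have e : 1 * (A.fTens (5983/50000) (-1909/50000) (-10917/50000) (313/25000) (-1369/100000) (-7689/50000) ((-1861/50000)*A.T+(603/12500)*A.H+(1983/50000)*A.G) (149/6250) (-4623/20000) (6781/100000) (-1127/50000) (1953/100000) (-21/6250) ((6679/100000)*A.T+(199/50000)*A.H+(-3331/100000)*A.G) (-1891/20000) (1247/100000) (2317/10000) 0 0 (159/1000) ((3487/100000)*A.T+(-2399/50000)*A.H+(-4133/100000)*A.G) (-6157/100000) (5241/20000) (-8309/100000) (109/25000) 0 0 ((-3077/50000)*A.T+(-69/12500)*A.H+(703/20000)*A.G))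 = nf6 A s := by
    unfold nf6 Atoms.fTens Atoms.fIP Atoms.fPV
    ring
  rw [← e]
  exact mul_nonneg (by norm_num) (ht _ _ _ _ _ _ _ _ _ _ _ _ _ _ _ _ _ _ _ _ _ _ _ _ _ _ _ _)

noncomputable def nf7 (A : Atoms) (s : ℝ) : ℝ :=
  (22573953/5000000000)*A.Aqqq*A.G + (2298537/250000000)*A.Aqqq*A.H + (-637107/25000000)*A.Aqqq*A.T + (-7566379/1000000000)*A.Aqqx*A.G + (238171207/5000000000)*A.Aqqx*A.H + (295836141/5000000000)*A.Aqqx*A.T + (-145018531/5000000000)*A.Aqxx*A.G + (-433365969/5000000000)*A.Aqxx*A.H + (-7138247/200000000)*A.Aqxx*A.T + (966551/39062500)*A.Axxx*A.G + (51875731/2500000000)*A.Axxx*A.H + (3231997/2500000000)*A.Axxx*A.T + (11158441/2500000000)*A.G^3 + (-35316709/2500000000)*A.G^2*A.H + (329132919/50000000000)*A.G^2*A.T + (-23922851/1000000000)*A.G*A.H^2 + (34084557/5000000000)*A.G*A.H*A.T + (741421/2500000000)*A.G*A.HH + (-724927/1250000000)*A.G*A.HM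 + (6917663/2500000000)*A.G*A.HN + (181153/500000000)*A.G*A.MM + (-10571141/2500000000)*A.G*A.MN + (69070457/5000000000)*A.G*A.NN + (183645207/25000000000)*A.G*A.T^2 + (-2559353/625000000)*A.G*A.pqq + (-38860963/5000000000)*A.G*A.pqx + (6131981/2500000000)*A.G*A.pxx + (13042419/500000000)*A.H^3 + (6485557/10000000000)*A.H^2*A.T + (129361/39062500)*A.H*A.HH + (-19888363/2500000000)*A.H*A.HM + (181654273/5000000000)*A.H*A.HN + (10868809/2500000000)*A.H*A.MM + (-161115367/5000000000)*A.H*A.MN + (29457701/1250000000)*A.H*A.NN + (-34230759/1562500000)*A.H*A.T^2 + (-66245277/5000000000)*A.H*A.pqq + (-151932819/5000000000)*A.H*A.pqx + (87217279/2500000000)*A.H*A.pxx + (7941029/400000000)*A.HH*A.T + (-84499109/2500000000)*A.HM*A.T + (70590689/2500000000)*A.HN*A.T + (143939569/10000000000)*A.MM*A.T + (-60563063/2500000000)*A.MN*A.T + (13992161/1250000000)*A.NN*A.T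 + (14992783/3125000000)*A.T^3 + (7482827/250000000)*A.T*A.pqq + (-220015507/5000000000)*A.T*A.pqx + (-4715909/5000000000)*A.T*A.pxx + (49580129/2500000000)*A.b11 + (8673667/2500000000)*A.b12 + (-861/125000000)*A.b22 + (-169001389/5000000000)*A.bc11 + (64388999/2500000000)*A.bc12 + (2061699/1250000000)*A.bc13 + (-2570589/500000000)*A.bc21 + (32796609/1000000000)*A.bc22 + (1444851/500000000)*A.bc23 + (449811/31250000)*A.c11 + (-9936293/500000000)*A.c12 + (-4109329/1250000000)*A.c13 + (-93576199/5000000000)*A.c22 + (9797473/500000000)*A.c23 + (13801701/1000000000)*A.c33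

lemma chunk7 (A : Atoms) (s : ℝ) (ht : ∀ a1 a2 a3 a4 a5 a6 a7 b1 b2 b3 b4 b5 b6 b7 c1 c2 c3 c4 c5 c6 c7 d1 d2 d3 d4 d5 d6 d7 : ℝ,
      0 ≤ A.fTens a1 a2 a3 a4 a5 a6 a7 b1 b2 b3 b4 b5 b6 b7 c1 c2 c3 c4 c5 c6 c7 d1 d2 d3 d4 d5 d6 d7)
    (hv : ∀ z1 z2 z3 z4 z5 z6 z7 : ℝ, 0 ≤ A.fPV z1 z2 z3 z4 z5 z6 z7 z1 z2 z3 z4 z5 z6 z7) :
    0 ≤ nf7 A s := by
  have e : 1 * (A.fTens (-4867/50000) (8487/100000) (-4689/50000) (-2211/25000) (3557/25000) (-221/20000) ((153/12500)*A.T+(201/50000)*A.H+(141/12500)*A.G) (-861/50000) (847/50000) (-8133/100000) (2943/100000) (539/5000) (-219/2500) ((41/50000)*A.T+(413/50000)*A.H+(1091/100000)*A.G) (-10187/100000) (53/625) (-2449/50000) 0 0 (-3773/100000) ((361/25000)*A.T+(-459/100000)*A.H+(413/100000)*A.G) (1/5000) (217/25000) (-1697/20000) (-1909/100000) 0 0 ((-29/5000)*A.T+(147/12500)*A.H+(1549/100000)*A.G)) = nf7 A s :=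 by
    unfold nf7 Atoms.fTens Atoms.fIP Atoms.fPV
    ring
  rw [← e]
  exact mul_nonneg (by norm_num) (ht _ _ _ _ _ _ _ _ _ _ _ _ _ _ _ _ _ _ _ _ _ _ _ _ _ _ _ _)

noncomputable def nf8 (A : Atoms) (s : ℝ) : ℝ :=
  (5383/156250000)*A.Aqqq*A.G + (93269/5000000000)*A.Aqqq*A.H + (-124099/5000000000)*A.Aqqq*A.T + (740043/10000000000)*A.Aqqx*A.G + (-109059/2500000000)*A.Aqqx*A.H + (-419113/5000000000)*A.Aqqx*A.T + (-322141/5000000000)*A.Aqxx*A.G + (584801/10000000000)*A.Aqxx*A.H + (127097/5000000000)*A.Aqxx*A.T + (41841/1250000000)*A.Axxx*A.G + (-30821/1000000000)*A.Axxx*A.H + (-1937/1250000000)*A.Axxx*A.T + (1774773/2500000000)*A.G^3 + (401421/2500000000)*A.G^2*A.H + (-109275401/100000000000)*A.G^2*A.T + (3654771/20000000000)*A.G*A.H^2 + (-17317519/50000000000)*A.G*A.H*A.T + (14033/10000000000)*A.G*A.HH + (501/1000000000)*A.G*A.HM + (-6143/2500000000)*A.G*A.HN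 + (657/10000000000)*A.G*A.MM + (-1083/2500000000)*A.G*A.MN + (269/250000000)*A.G*A.NN + (2674671/6250000000)*A.G*A.T^2 + (37329/1250000000)*A.G*A.pqq + (768547/10000000000)*A.G*A.pqx + (-191799/5000000000)*A.G*A.pxx + (-217289/10000000000)*A.H^3 + (-679887/5000000000)*A.H^2*A.T + (-37389/5000000000)*A.H*A.HH + (-53741/5000000000)*A.H*A.HM + (3041/250000000)*A.H*A.HN + (-2361/1250000000)*A.H*A.MM + (2851/312500000)*A.H*A.MN + (-493/100000000)*A.H*A.NN + (1135657/6250000000)*A.H*A.T^2 + (66513/5000000000)*A.H*A.pqq + (-297127/10000000000)*A.H*A.pqx + (394183/10000000000)*A.H*A.pxx + (21177/2000000000)*A.HH*A.T + (64581/2500000000)*A.HM*A.T + (-1221/78125000)*A.HN*A.T + (157673/10000000000)*A.MM*A.T + (-95563/5000000000)*A.MN*A.T + (11633/2000000000)*A.NN*A.T + (322207/50000000000)*A.T^3 + (-50727/2500000000)*A.T*A.pqq + (-182113/2500000000)*A.T*A.pqx +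 (-22007/10000000000)*A.T*A.pxx + (26199/2500000000)*A.b11 + (-19173/2500000000)*A.b12 + (1649/1250000000)*A.b22 + (128337/5000000000)*A.bc11 + (-6251/250000000)*A.bc12 + (28031/5000000000)*A.bc13 + (-3663/2500000000)*A.bc21 + (729/100000000)*A.bc22 + (-5737/2500000000)*A.bc23 + (19631/1250000000)*A.c11 + (-104807/5000000000)*A.c12 + (5679/5000000000)*A.c13 + (547/39062500)*A.c22 + (-169/31250000)*A.c23 + (1247/1250000000)*A.c33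

lemma chunk8 (A : Atoms) (s : ℝ) (ht : ∀ a1 a2 a3 a4 a5 a6 a7 b1 b2 b3 b4 b5 b6 b7 c1 c2 c3 c4 c5 c6 c7 d1 d2 d3 d4 d5 d6 d7 : ℝ,
      0 ≤ A.fTens a1 a2 a3 a4 a5 a6 a7 b1 b2 b3 b4 b5 b6 b7 c1 c2 c3 c4 c5 c6 c7 d1 d2 d3 d4 d5 d6 d7)
    (hv : ∀ z1 z2 z3 z4 z5 z6 z7 : ℝ, 0 ≤ A.fPV z1 z2 z3 z4 z5 z6 z7 z1 z2 z3 z4 z5 z6 z7) :
    0 ≤ nf8 A s := by
  have e : 1 * (A.fTens (-123/50000) (-293/100000) (167/100000) (-9/12500) (109/50000) (59/20000) ((3/1000)*A.T+(-229/100000)*A.H+(-151/50000)*A.G) (17/25000) (3/12500) (-29/50000) (43/100000) (-121/100000) (-3/1000) ((363/50000)*A.T+(37/50000)*A.H+(-171/20000)*A.G) (-213/100000) (-67/25000) (87/50000) 0 0 (169/50000) ((287/100000)*A.T+(-7/3125)*A.H+(-153/50000)*A.G) (97/100000) (9/100000) (-43/50000) (-39/100000) 0 0 ((739/100000)*A.T+(77/100000)*A.H+(-873/100000)*A.G)) = nf8 A s := by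
    unfold nf8 Atoms.fTens Atoms.fIP Atoms.fPV
    ring
  rw [← e]
  exact mul_nonneg (by norm_num) (ht _ _ _ _ _ _ _ _ _ _ _ _ _ _ _ _ _ _ _ _ _ _ _ _ _ _ _ _)

noncomputable def nf9 (A : Atoms) (s : ℝ) : ℝ :=
  (-61514387/2500000000)*A.Aqqq*A.G + (40184549/625000000)*A.Aqqq*A.H + (149435463/2500000000)*A.Aqqq*A.T + (-34662287/200000000)*A.Aqqx*A.G + (1221664481/10000000000)*A.Aqqx*A.H + (-145271051/5000000000)*A.Aqqx*A.T + (-3122941/40000000)*A.Aqxx*A.G + (739744107/5000000000)*A.Aqxx*A.H + (-1650001383/10000000000)*A.Aqxx*A.T + (15937603/250000000)*A.Axxx*A.G + (109178811/1250000000)*A.Axxx*A.H + (-376345723/5000000000)*A.Axxx*A.T + (268213571/10000000000)*A.G^3 + (-65785347/1250000000)*A.G^2*A.H + (565978033/25000000000)*A.G^2*A.T + (-145071417/5000000000)*A.G*A.H^2 + (6784130189/50000000000)*A.G*A.H*A.T + (201702857/10000000000)*A.G*A.HH + (-4620413/500000000)*A.G*A.HM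 + (-95469221/1250000000)*A.G*A.HN + (2973673/2500000000)*A.G*A.MM + (10191983/625000000)*A.G*A.MN + (187480189/2500000000)*A.G*A.NN + (3383749763/100000000000)*A.G*A.T^2 + (220683963/5000000000)*A.G*A.pqq + (136036787/5000000000)*A.G*A.pqx + (-160506529/5000000000)*A.G*A.pxx + (-133922701/2000000000)*A.H^3 + (372779697/20000000000)*A.H^2*A.T + (63076733/5000000000)*A.H*A.HH + (112301839/1250000000)*A.H*A.HM + (-14763253/1000000000)*A.H*A.HN + (-5147819/250000000)*A.H*A.MM + (-449261281/2500000000)*A.H*A.MN + (-53357591/2500000000)*A.H*A.NN + (-202165819/5000000000)*A.H*A.T^2 + (83909967/10000000000)*A.H*A.pqq + (-243482851/5000000000)*A.H*A.pqx + (-14428839/312500000)*A.H*A.pxx + (2248333/1000000000)*A.HH*A.T + (74244119/2500000000)*A.HM*A.T + (4563799/1250000000)*A.HN*A.T + (265786793/2500000000)*A.MM*A.T + (63027499/2500000000)*A.MN*A.T + (7593877/5000000000)*A.NN*A.T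 + (-498125133/10000000000)*A.T^3 + (43846483/5000000000)*A.T*A.pqq + (214140917/10000000000)*A.T*A.pqx + (90173921/5000000000)*A.T*A.pxx + (-9974433/5000000000)*A.b11 + (-66844997/5000000000)*A.b12 + (-24512521/1250000000)*A.b22 + (-75805871/2500000000)*A.bc11 + (-23731537/250000000)*A.bc12 + (-55315747/5000000000)*A.bc13 + (7985273/2500000000)*A.bc21 + (82343193/2500000000)*A.bc22 + (194259343/2500000000)*A.bc23 + (-16551527/156250000)*A.c11 + (-14111681/2500000000)*A.c12 + (6259319/2500000000)*A.c13 + (176275869/1000000000)*A.c22 + (8925023/2500000000)*A.c23 + (-9275589/125000000)*A.c33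

lemma chunk9 (A : Atoms) (s : ℝ) (ht : ∀ a1 a2 a3 a4 a5 a6 a7 b1 b2 b3 b4 b5 b6 b7 c1 c2 c3 c4 c5 c6 c7 d1 d2 d3 d4 d5 d6 d7 : ℝ,
      0 ≤ A.fTens a1 a2 a3 a4 a5 a6 a7 b1 b2 b3 b4 b5 b6 b7 c1 c2 c3 c4 c5 c6 c7 d1 d2 d3 d4 d5 d6 d7)
    (hv : ∀ z1 z2 z3 z4 z5 z6 z7 : ℝ, 0 ≤ A.fPV z1 z2 z3 z4 z5 z6 z7 z1 z2 z3 z4 z5 z6 z7) :
    0 ≤ nf9 A s := by
  have e : 1 * (A.fTens (-4053/100000) (-11027/50000) (-2977/100000) (-11/1250) (109/20000) (2109/20000) ((3277/50000)*A.T+(-1151/25000)*A.H+(-151/10000)*A.G) (-8789/100000) (557/50000) (5179/25000) (-10869/100000) (-287/12500) (661/50000) ((4023/50000)*A.T+(-113/50000)*A.H+(-4213/50000)*A.G) (2461/100000) (1501/6250) (503/20000) 0 0 (-5387/50000) ((-6493/100000)*A.T+(4573/100000)*A.H+(159/10000)*A.G) (2789/25000) (-102/3125) (-1791/10000) (11857/100000) 0 0 ((-1031/12500)*A.T+(63/100000)*A.H+(7923/100000)*A.G))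 = nf9 A s := by
    unfold nf9 Atoms.fTens Atoms.fIP Atoms.fPV
    ring
  rw [← e]
  exact mul_nonneg (by norm_num) (ht _ _ _ _ _ _ _ _ _ _ _ _ _ _ _ _ _ _ _ _ _ _ _ _ _ _ _ _)

noncomputable def nf10 (A : Atoms) (s : ℝ) : ℝ :=
  (-2497799/2500000000)*A.Aqqq*A.G + (16171413/5000000000)*A.Aqqq*A.H + (-263629/1000000000)*A.Aqqq*A.T + (-49754181/5000000000)*A.Aqqx*A.G + (3482001/10000000000)*A.Aqqx*A.H + (-7107339/1250000000)*A.Aqqx*A.T + (-35708499/5000000000)*A.Aqxx*A.G + (19327287/2000000000)*A.Aqxx*A.H + (38652867/10000000000)*A.Aqxx*A.T + (-1840851/2500000000)*A.Axxx*A.G + (10466289/1250000000)*A.Axxx*A.H + (85304277/10000000000)*A.Axxx*A.T + (769949/10000000000)*A.G^3 + (47851/100000000)*A.G^2*A.H + (383678729/100000000000)*A.G^2*A.T + (-91831219/20000000000)*A.G*A.H^2 + (-365912481/25000000000)*A.G*A.H*A.T + (264334801/10000000000)*A.G*A.HH + (8392161/156250000)*A.G*A.HM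 + (55945413/2500000000)*A.G*A.HN + (273006313/10000000000)*A.G*A.MM + (113464713/5000000000)*A.G*A.MN + (9522729/2000000000)*A.G*A.NN + (-3950746427/100000000000)*A.G*A.T^2 + (-42200769/10000000000)*A.G*A.pqq + (-163529471/10000000000)*A.G*A.pqx + (-2325181/1250000000)*A.G*A.pxx + (7540187/1250000000)*A.H^3 + (2764209673/100000000000)*A.H^2*A.T + (7902147/625000000)*A.H*A.HH + (21983163/5000000000)*A.H*A.HM + (-48581157/1250000000)*A.H*A.HN + (-42692597/5000000000)*A.H*A.MM + (-242902233/5000000000)*A.H*A.MN + (-46703997/2500000000)*A.H*A.NN + (-26918163/25000000000)*A.H*A.T^2 + (-12153223/2500000000)*A.H*A.pqq + (-148595293/10000000000)*A.H*A.pqx + (197931527/10000000000)*A.H*A.pxx + (608481/400000000)*A.HH*A.T + (-10139373/5000000000)*A.HM*A.T + (-206109/19531250)*A.HN*A.T + (6758581/10000000000)*A.MM*A.T + (17570811/2500000000)*A.MN*A.T + (185395113/10000000000)*A.NN*A.T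 + (-14389/10000000000)*A.T^3 + (1972749/5000000000)*A.T*A.pqq + (26424707/2500000000)*A.T*A.pqx + (5830053/156250000)*A.T*A.pxx + (-116883/78125000)*A.b11 + (-63072387/5000000000)*A.b12 + (-3303141/125000000)*A.b22 + (4979757/2500000000)*A.bc11 + (47495999/2500000000)*A.bc12 + (27670341/625000000)*A.bc13 + (-8030859/625000000)*A.bc21 + (-295131617/5000000000)*A.bc22 + (-111650667/5000000000)*A.bc23 + (-66297/100000000)*A.c11 + (7502151/5000000000)*A.c12 + (8993391/200000000)*A.c13 + (-1651737/39062500)*A.c22 + (-19943703/5000000000)*A.c23 + (-11730771/2500000000)*A.c33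

lemma chunk10 (A : Atoms) (s : ℝ) (ht : ∀ a1 a2 a3 a4 a5 a6 a7 b1 b2 b3 b4 b5 b6 b7 c1 c2 c3 c4 c5 c6 c7 d1 d2 d3 d4 d5 d6 d7 : ℝ,
      0 ≤ A.fTens a1 a2 a3 a4 a5 a6 a7 b1 b2 b3 b4 b5 b6 b7 c1 c2 c3 c4 c5 c6 c7 d1 d2 d3 d4 d5 d6 d7)
    (hv : ∀ z1 z2 z3 z4 z5 z6 z7 : ℝ, 0 ≤ A.fPV z1 z2 z3 z4 z5 z6 z7 z1 z2 z3 z4 z5 z6 z7) :
    0 ≤ nf10 A s := by
  have e : 1 * (A.fTens (-2997/100000) (2009/100000) (294/3125) (-101/50000) (17/4000) (-401/25000) ((193/50000)*A.T+(-787/20000)*A.H+(-1751/100000)*A.G) (-291/2500) (-11533/100000) (-5277/100000) (567/100000) (583/100000) (-17/4000) ((1929/25000)*A.T+(2659/100000)*A.H+(-339/100000)*A.G) (78/3125) (-33/2000) (-9843/100000) 0 0 (1463/100000) ((-303/100000)*A.T+(3937/100000)*A.H+(359/20000)*A.G) (11351/100000) (1479/12500) (2223/50000) (-631/100000) 0 0 ((-3857/50000)*A.T+(-161/6250)*A.H+(479/100000)*A.G)) =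 nf10 A s := by
    unfold nf10 Atoms.fTens Atoms.fIP Atoms.fPV
    ring
  rw [← e]
  exact mul_nonneg (by norm_num) (ht _ _ _ _ _ _ _ _ _ _ _ _ _ _ _ _ _ _ _ _ _ _ _ _ _ _ _ _)

noncomputable def nf11 (A : Atoms) (s : ℝ) : ℝ :=
  (-432017/2500000000)*A.Aqqq*A.G + (-663101/2500000000)*A.Aqqq*A.H + (-6701473/2500000000)*A.Aqqq*A.T + (-4386269/5000000000)*A.Aqqx*A.G + (27258161/10000000000)*A.Aqqx*A.H + (-12743473/2500000000)*A.Aqqx*A.T + (-212541/250000000)*A.Aqxx*A.G + (5704623/2000000000)*A.Aqxx*A.H + (-2477739/2000000000)*A.Aqxx*A.T + (156379/1250000000)*A.Axxx*A.G + (-773329/5000000000)*A.Axxx*A.H + (10281063/10000000000)*A.Axxx*A.T + (898499/10000000000)*A.G^3 + (-355799/2500000000)*A.G^2*A.H + (27891651/100000000000)*A.G^2*A.T + (8743511/20000000000)*A.G*A.H^2 + (-46653753/50000000000)*A.G*A.H*A.T + (271657/5000000000)*A.G*A.HH + (-598757/5000000000)*A.G*A.HM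 + (-1163839/5000000000)*A.G*A.HN + (819157/10000000000)*A.G*A.MM + (283051/1000000000)*A.G*A.MN + (2603533/10000000000)*A.G*A.NN + (44609863/100000000000)*A.G*A.T^2 + (410953/10000000000)*A.G*A.pqq + (618179/2000000000)*A.G*A.pqx + (-270673/5000000000)*A.G*A.pxx + (-7127859/10000000000)*A.H^3 + (-97090459/100000000000)*A.H^2*A.T + (-241529/2500000000)*A.H*A.HH + (1059827/2500000000)*A.H*A.HM + (2680897/5000000000)*A.H*A.HN + (-2800641/5000000000)*A.H*A.MM + (-3368997/2500000000)*A.H*A.MN + (-4065981/5000000000)*A.H*A.NN + (1846531/1250000000)*A.H*A.T^2 + (-918361/10000000000)*A.H*A.pqq + (-4287683/5000000000)*A.H*A.pqx + (500619/10000000000)*A.H*A.pxx + (88969/1000000000)*A.HH*A.T + (-692937/1000000000)*A.HM*A.T + (-104709/156250000)*A.HN*A.T + (2925341/2000000000)*A.MM*A.T + (13849233/5000000000)*A.MN*A.T + (6592221/5000000000)*A.NN*A.T + (6886567/12500000000)*A.T^3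 + (830909/1250000000)*A.T*A.pqq + (5913627/10000000000)*A.T*A.pqx + (-2438013/10000000000)*A.T*A.pxx + (421083/5000000000)*A.b11 + (-148007/2500000000)*A.b12 + (-3857/200000000)*A.b22 + (-3603551/5000000000)*A.bc11 + (-1537303/5000000000)*A.bc12 + (404073/1250000000)*A.bc13 + (666861/5000000000)*A.bc21 + (213811/1250000000)*A.bc22 + (184079/5000000000)*A.bc23 + (1777617/1250000000)*A.c11 + (10505231/5000000000)*A.c12 + (-587271/1000000000)*A.c13 + (1835629/5000000000)*A.c22 + (-3990789/5000000000)*A.c23 + (33873/2500000000)*A.c33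

lemma chunk11 (A : Atoms) (s : ℝ) (ht : ∀ a1 a2 a3 a4 a5 a6 a7 b1 b2 b3 b4 b5 b6 b7 c1 c2 c3 c4 c5 c6 c7 d1 d2 d3 d4 d5 d6 d7 : ℝ,
      0 ≤ A.fTens a1 a2 a3 a4 a5 a6 a7 b1 b2 b3 b4 b5 b6 b7 c1 c2 c3 c4 c5 c6 c7 d1 d2 d3 d4 d5 d6 d7)
    (hv : ∀ z1 z2 z3 z4 z5 z6 z7 : ℝ, 0 ≤ A.fPV z1 z2 z3 z4 z5 z6 z7 z1 z2 z3 z4 z5 z6 z7) :
    0 ≤ nf11 A s := by
  have e : 1 * (A.fTens (-767/100000) (2367/100000) (2451/100000) (-541/25000) (-4221/100000) (981/100000) ((-119/50000)*A.T+(-13/6250)*A.H+(-3/1250)*A.G) (29/4000) (-871/100000) (-1613/100000) (-281/100000) (1609/100000) (29/25000) ((27/50000)*A.T+(219/100000)*A.H+(-37/20000)*A.G) (-549/100000) (751/25000) (2679/100000) 0 0 (373/100000) ((-9/2000)*A.T+(-131/100000)*A.H+(-119/50000)*A.G) (-133/100000) (-123/50000) (-21/50000) (1397/100000) 0 0 ((129/50000)*A.T+(-169/100000)*A.H+(-251/50000)*A.G)) = nf11 A s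 := by
    unfold nf11 Atoms.fTens Atoms.fIP Atoms.fPV
    ring
  rw [← e]
  exact mul_nonneg (by norm_num) (ht _ _ _ _ _ _ _ _ _ _ _ _ _ _ _ _ _ _ _ _ _ _ _ _ _ _ _ _)

noncomputable def nf12 (A : Atoms) (s : ℝ) : ℝ :=
  (10503/1250000000)*A.Aqqq*A.G + (-102019/2500000000)*A.Aqqq*A.H + (26913/5000000000)*A.Aqqq*A.T + (-25517/312500000)*A.Aqqx*A.G + (-412411/5000000000)*A.Aqqx*A.H + (241419/2500000000)*A.Aqqx*A.T + (1053101/10000000000)*A.Aqxx*A.G + (1132043/5000000000)*A.Aqxx*A.H + (-76779/312500000)*A.Aqxx*A.T + (21/312500000)*A.Axxx*A.G + (-829769/10000000000)*A.Axxx*A.H + (469609/5000000000)*A.Axxx*A.T + (10757/80000000)*A.G^3 + (107249/5000000000)*A.G^2*A.H + (-16190313/100000000000)*A.G^2*A.T + (607487/20000000000)*A.G*A.H^2 + (-7978343/50000000000)*A.G*A.H*A.T + (481/2500000000)*A.G*A.HH + (1889/312500000)*A.G*A.HM + (1993/2500000000)*A.G*A.HN +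 (118697/2500000000)*A.G*A.MM + (31281/2500000000)*A.G*A.MN + (5569/5000000000)*A.G*A.NN + (504291/3125000000)*A.G*A.T^2 + (5291/156250000)*A.G*A.pqq + (-537387/5000000000)*A.G*A.pqx + (19/100000000)*A.G*A.pxx + (8829/2000000000)*A.H^3 + (-237239/3125000000)*A.H^2*A.T + (-2049/312500000)*A.H*A.HH + (-266773/2500000000)*A.H*A.HM + (-7793/1000000000)*A.H*A.HN + (-145887/2500000000)*A.H*A.MM + (441243/5000000000)*A.H*A.MN + (64701/5000000000)*A.H*A.NN + (2521019/25000000000)*A.H*A.T^2 + (69557/2500000000)*A.H*A.pqq + (-296419/5000000000)*A.H*A.pqx + (70313/625000000)*A.H*A.pxx + (559633/10000000000)*A.HH*A.T + (317643/5000000000)*A.HM*A.T + (-523131/5000000000)*A.HN*A.T + (36117/2000000000)*A.MM*A.T + (-296793/5000000000)*A.MN*A.T + (489069/10000000000)*A.NN*A.T + (-2172691/50000000000)*A.T^3 + (46787/5000000000)*A.T*A.pqq + (100899/1000000000)*A.T*A.pqx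 + (-597531/5000000000)*A.T*A.pxx + (34587/625000000)*A.b11 + (-16313/2500000000)*A.b12 + (3/15625000)*A.b22 + (2439/39062500)*A.bc11 + (-33537/312500000)*A.bc12 + (15267/2500000000)*A.bc13 + (-2563/25000000)*A.bc21 + (-33141/5000000000)*A.bc22 + (1913/2500000000)*A.bc23 + (10989/625000000)*A.c11 + (-11643/100000000)*A.c12 + (119931/1250000000)*A.c13 + (444643/5000000000)*A.c22 + (119823/5000000000)*A.c23 + (2369/5000000000)*A.c33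

lemma chunk12 (A : Atoms) (s : ℝ) (ht : ∀ a1 a2 a3 a4 a5 a6 a7 b1 b2 b3 b4 b5 b6 b7 c1 c2 c3 c4 c5 c6 c7 d1 d2 d3 d4 d5 d6 d7 : ℝ,
      0 ≤ A.fTens a1 a2 a3 a4 a5 a6 a7 b1 b2 b3 b4 b5 b6 b7 c1 c2 c3 c4 c5 c6 c7 d1 d2 d3 d4 d5 d6 d7)
    (hv : ∀ z1 z2 z3 z4 z5 z6 z7 : ℝ, 0 ≤ A.fPV z1 z2 z3 z4 z5 z6 z7 z1 z2 z3 z4 z5 z6 z7) :
    0 ≤ nf12 A s := by
  have e : 1 * (A.fTens (567/100000) (333/100000) (-21/4000) (301/100000) (-17/10000) (-589/100000) ((-69/25000)*A.T+(107/100000)*A.H+(83/50000)*A.G) (-1/3125) (-251/50000) (-103/100000) (13/20000) (597/100000) (499/100000) ((259/50000)*A.T+(-9/20000)*A.H+(-67/12500)*A.G) (61/12500) (33/12500) (-231/50000) 0 0 (-97/12500) ((-3/1250)*A.T+(79/100000)*A.H+(81/50000)*A.G) (-3/10000) (-59/12500) (-23/100000) (67/50000) 0 0 ((469/100000)*A.T+(-3/6250)*A.H+(-247/50000)*A.G)) = nf12 A s := by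
    unfold nf12 Atoms.fTens Atoms.fIP Atoms.fPV
    ring
  rw [← e]
  exact mul_nonneg (by norm_num) (ht _ _ _ _ _ _ _ _ _ _ _ _ _ _ _ _ _ _ _ _ _ _ _ _ _ _ _ _)

noncomputable def nf13 (A : Atoms) (s : ℝ) : ℝ :=
  (-371/625000000)*A.Aqqq*A.G + (2653/250000000)*A.Aqqq*A.H + (-1131/100000000)*A.Aqqq*A.T + (-99763/625000000)*A.Aqqx*A.G + (-389703/5000000000)*A.Aqqx*A.H + (-65081/1250000000)*A.Aqqx*A.T + (-328653/2500000000)*A.Aqxx*A.G + (-265799/5000000000)*A.Aqxx*A.H + (-177879/5000000000)*A.Aqxx*A.T + (3229/312500000)*A.Axxx*A.G + (13437/500000000)*A.Axxx*A.H + (100869/5000000000)*A.Axxx*A.T + (797933/10000000000)*A.G^3 + (2201/125000000)*A.G^2*A.H + (-2241593/100000000000)*A.G^2*A.T + (1367469/20000000000)*A.G*A.H^2 + (435473/3125000000)*A.G*A.H*A.T + (69589/10000000000)*A.G*A.HH + (22117/500000000)*A.G*A.HM + (-341/125000000)*A.G*A.HN + (180641/2500000000)*A.G*A.MM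 + (-6113/625000000)*A.G*A.MN + (1061/2500000000)*A.G*A.NN + (1918703/100000000000)*A.G*A.T^2 + (1541/1250000000)*A.G*A.pqq + (-71721/1250000000)*A.G*A.pqx + (-3597/78125000)*A.G*A.pxx + (-170349/5000000000)*A.H^3 + (1103779/100000000000)*A.H^2*A.T + (76081/5000000000)*A.H*A.HH + (367689/5000000000)*A.H*A.HM + (-67111/5000000000)*A.H*A.HN + (190059/2500000000)*A.H*A.MM + (-98559/2500000000)*A.H*A.MN + (171/62500000)*A.H*A.NN + (-154943/5000000000)*A.H*A.T^2 + (61/1000000000)*A.H*A.pqq + (-9891/250000000)*A.H*A.pqx + (-5263/125000000)*A.H*A.pxx + (89233/10000000000)*A.HH*A.T + (133859/5000000000)*A.HM*A.T + (-12331/1000000000)*A.HN*A.T + (200957/10000000000)*A.MM*A.T + (-18373/1000000000)*A.MN*A.T + (361/80000000)*A.NN*A.T + (-36867/2500000000)*A.T^3 + (-3747/500000000)*A.T*A.pqq + (-23299/1000000000)*A.T*A.pqx + (-72843/2500000000)*A.T*A.pxx + (11001/1250000000)*A.b11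 + (39213/2500000000)*A.b12 + (651/100000000)*A.b22 + (66317/2500000000)*A.bc11 + (29499/2500000000)*A.bc12 + (-1387/125000000)*A.bc13 + (31667/625000000)*A.bc21 + (101719/2500000000)*A.bc22 + (-8227/2500000000)*A.bc23 + (49933/2500000000)*A.c11 + (18263/312500000)*A.c12 + (-8607/250000000)*A.c13 + (11061/156250000)*A.c22 + (-3997/500000000)*A.c23 + (31/125000000)*A.c33

lemma chunk13 (A : Atoms) (s : ℝ) (ht : ∀ a1 a2 a3 a4 a5 a6 a7 b1 b2 b3 b4 b5 b6 b7 c1 c2 c3 c4 c5 c6 c7 d1 d2 d3 d4 d5 d6 d7 : ℝ,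
      0 ≤ A.fTens a1 a2 a3 a4 a5 a6 a7 b1 b2 b3 b4 b5 b6 b7 c1 c2 c3 c4 c5 c6 c7 d1 d2 d3 d4 d5 d6 d7)
    (hv : ∀ z1 z2 z3 z4 z5 z6 z7 : ℝ, 0 ≤ A.fPV z1 z2 z3 z4 z5 z6 z7 z1 z2 z3 z4 z5 z6 z7) :
    0 ≤ nf13 A s := by
  have e : 1 * (A.fTens (193/100000) (299/100000) (-19/20000) (1/1250) (-197/100000) (-143/50000) ((-79/50000)*A.T+(-13/20000)*A.H+(1/5000)*A.G) (217/100000) (61/10000) (-1/5000) (1/100000) (-511/100000) (-443/100000) ((-11/50000)*A.T+(129/50000)*A.H+(-189/100000)*A.G) (57/25000) (167/50000) (-19/10000) 0 0 (-1/800) ((-91/50000)*A.T+(-17/50000)*A.H+(17/50000)*A.G) (3/2000) (37/6250) (-31/50000) (2/3125) 0 0 ((-1/50000)*A.T+(13/5000)*A.H+(-181/100000)*A.G)) = nf13 A s := by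
    unfold nf13 Atoms.fTens Atoms.fIP Atoms.fPV
    ring
  rw [← e]
  exact mul_nonneg (by norm_num) (ht _ _ _ _ _ _ _ _ _ _ _ _ _ _ _ _ _ _ _ _ _ _ _ _ _ _ _ _)

noncomputable def nf14 (A : Atoms) (s : ℝ) : ℝ :=
  (-1325219449/2500000000)*A.Aqqq*A.G + (2282720981/2500000000)*A.Aqqq*A.H + (-1602575793/2500000000)*A.Aqqq*A.T + (3299274949/5000000000)*A.Aqqx*A.G + (-4744431499/5000000000)*A.Aqqx*A.H + (5255295223/5000000000)*A.Aqqx*A.T + (20520757/125000000)*A.Aqqx*s + (-1150240617/2500000000)*A.Aqxx*A.G + (137397583/200000000)*A.Aqxx*A.H + (-3493402703/5000000000)*A.Aqxx*A.T + (-23072917/250000000)*A.Aqxx*s + (21901041/125000000)*A.Axxx*A.G + (-263626341/1250000000)*A.Axxx*A.H + (83607801/250000000)*A.Axxx*A.T + (4968123/62500000)*A.Axxx*s + (3250809/100000000)*A.G^3 + (-21688287/125000000)*A.G^2*A.H + (1938651469/10000000000)*A.G^2*A.T + (737427/25000000)*A.G^2*s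 + (3258124707/10000000000)*A.G*A.H^2 + (-3433520631/5000000000)*A.G*A.H*A.T + (-4919861/62500000)*A.G*A.H*s + (2871707491/10000000000)*A.G*A.T^2 + (2815147/50000000)*A.G*A.T*s + (4258330273/5000000000)*A.G*A.pqq + (-657036171/1000000000)*A.G*A.pqx + (1033119/20000000)*A.G*A.pxx + (167281/25000000)*A.G*s^2 + (-987421391/5000000000)*A.H^3 + (1317593313/2000000000)*A.H^2*A.T + (18608273/250000000)*A.H^2*s + (-319058649/625000000)*A.H*A.T^2 + (-13063869/250000000)*A.H*A.T*s + (-7335071837/5000000000)*A.H*A.pqq + (259420243/312500000)*A.H*A.pqx + (-12435819/200000000)*A.H*A.pxx + (1020227481/10000000000)*A.T^3 + (5149559961/5000000000)*A.T*A.pqq + (-300298777/250000000)*A.T*A.pqx + (3943959/40000000)*A.T*A.pxx + (25992210841/10000000000)*A.b11 + (-92379633/200000000)*A.b12 + (328329/16000000)*A.b22 + (-8088941233/2500000000)*A.bc11 + (9094960273/5000000000)*A.bc12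 + (-1958351487/1250000000)*A.bc13 + (28749129/100000000)*A.bc21 + (-32324649/200000000)*A.bc22 + (6960231/50000000)*A.bc23 + (2517329929/2500000000)*A.c11 + (-2830409449/2500000000)*A.c12 + (609451431/625000000)*A.c13 + (3182426569/10000000000)*A.c22 + (-685248711/1250000000)*A.c23 + (147549609/625000000)*A.c33 + (-65939389/250000000)*A.pqx*s + (234357/10000000)*A.pxx*s

lemma chunk14 (A : Atoms) (s : ℝ) (ht : ∀ a1 a2 a3 a4 a5 a6 a7 b1 b2 b3 b4 b5 b6 b7 c1 c2 c3 c4 c5 c6 c7 d1 d2 d3 d4 d5 d6 d7 : ℝ,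
      0 ≤ A.fTens a1 a2 a3 a4 a5 a6 a7 b1 b2 b3 b4 b5 b6 b7 c1 c2 c3 c4 c5 c6 c7 d1 d2 d3 d4 d5 d6 d7)
    (hv : ∀ z1 z2 z3 z4 z5 z6 z7 : ℝ, 0 ≤ A.fPV z1 z2 z3 z4 z5 z6 z7 z1 z2 z3 z4 z5 z6 z7) :
    0 ≤ nf14 A s := by
  have e : 1 * (A.fPV (161221/100000) (-573/4000) (-50173/50000) (56413/100000) (-12147/25000) ((31941/100000)*A.T+(-45497/100000)*A.H+(26413/100000)*A.G) ((-6883/20000)*A.T+(21703/100000)*A.H+(-1803/10000)*A.G+(-409/5000)*s) (161221/100000) (-573/4000) (-50173/50000) (56413/100000) (-12147/25000) ((31941/100000)*A.T+(-45497/100000)*A.H+(26413/100000)*A.G) ((-6883/20000)*A.T+(21703/100000)*A.H+(-1803/10000)*A.G+(-409/5000)*s)) = nf14 A s := by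
    unfold nf14 Atoms.fPV
    ring
  rw [← e]
  exact mul_nonneg (by norm_num) (hv _ _ _ _ _ _ _)

noncomputable def nf15 (A : Atoms) (s : ℝ) : ℝ :=
  (7368307/62500000)*A.Aqqq*A.G + (-5667527/62500000)*A.Aqqq*A.H + (-139071/3125000)*A.Aqqq*A.T + (326259831/2500000000)*A.Aqqx*A.G + (-96665491/2500000000)*A.Aqqx*A.H + (442217/125000000)*A.Aqqx*A.T + (-288887/62500000)*A.Aqqx*s + (-1780021453/5000000000)*A.Aqxx*A.G + (1890581123/5000000000)*A.Aqxx*A.H + (873477/3906250)*A.Aqxx*A.T + (-19526691/2500000000)*A.Aqxx*s + (27964011/200000000)*A.Axxx*A.G + (-11656169/50000000)*A.Axxx*A.H + (-3204397/20000000)*A.Axxx*A.T + (1881059/200000000)*A.Axxx*s + (195692121/10000000000)*A.G^3 + (-26481177/200000000)*A.G^2*A.H + (127560661/10000000000)*A.G^2*A.T + (13163649/5000000000)*A.G^2*s + (1090054741/5000000000)*A.G*A.H^2 + (442277629/5000000000)*A.G*A.H*A.T + (-1781313/200000000)*A.G*A.H*s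 + (-8896861/500000000)*A.G*A.T^2 + (-1508423/500000000)*A.G*A.T*s + (-42553773/312500000)*A.G*A.pqq + (-1060380763/5000000000)*A.G*A.pqx + (169868427/1000000000)*A.G*A.pxx + (885481/10000000000)*A.G*s^2 + (-107646091/1250000000)*A.H^3 + (-673682019/10000000000)*A.H^2*A.T + (17371801/5000000000)*A.H^2*s + (1101243/250000000)*A.H*A.T^2 + (426273/250000000)*A.H*A.T*s + (32731353/312500000)*A.H*A.pqq + (459204383/5000000000)*A.H*A.pqx + (-70805833/250000000)*A.H*A.pxx + (205209/25000000)*A.T^3 + (803169/15625000)*A.T*A.pqq + (4766943/250000000)*A.T*A.pqx + (-19465229/100000000)*A.T*A.pxx + (3143529/39062500)*A.b11 + (21529539/62500000)*A.b12 + (147452449/400000000)*A.b22 + (-544311/3906250)*A.bc11 + (-36791523/156250000)*A.bc12 + (3544227/12500000)*A.bc13 + (-3727901/12500000)*A.bc21 + (-251979393/500000000)*A.bc22 + (24273857/40000000)*A.bc23 + (94249/1562500)*A.c11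 + (6370557/31250000)*A.c12 + (-613693/2500000)*A.c13 + (430604001/2500000000)*A.c22 + (-41481249/100000000)*A.c23 + (3996001/16000000)*A.c33 + (1668393/312500000)*A.pqx*s + (11426563/1000000000)*A.pxx*s

lemma chunk15 (A : Atoms) (s : ℝ) (ht : ∀ a1 a2 a3 a4 a5 a6 a7 b1 b2 b3 b4 b5 b6 b7 c1 c2 c3 c4 c5 c6 c7 d1 d2 d3 d4 d5 d6 d7 : ℝ,
      0 ≤ A.fTens a1 a2 a3 a4 a5 a6 a7 b1 b2 b3 b4 b5 b6 b7 c1 c2 c3 c4 c5 c6 c7 d1 d2 d3 d4 d5 d6 d7)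
    (hv : ∀ z1 z2 z3 z4 z5 z6 z7 : ℝ, 0 ≤ A.fPV z1 z2 z3 z4 z5 z6 z7 z1 z2 z3 z4 z5 z6 z7) :
    0 ≤ nf15 A s := by
  have e : 1 * (A.fPV (1773/6250) (12143/20000) (-307/1250) (-20751/50000) (1999/4000) ((453/5000)*A.T+(18461/100000)*A.H+(-24001/100000)*A.G) ((-1603/10000)*A.T+(-5831/25000)*A.H+(13989/100000)*A.G+(941/100000)*s) (1773/6250) (12143/20000) (-307/1250) (-20751/50000) (1999/4000) ((453/5000)*A.T+(18461/100000)*A.H+(-24001/100000)*A.G) ((-1603/10000)*A.T+(-5831/25000)*A.H+(13989/100000)*A.G+(941/100000)*s)) = nf15 A s := by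
    unfold nf15 Atoms.fPV
    ring
  rw [← e]
  exact mul_nonneg (by norm_num) (hv _ _ _ _ _ _ _)

noncomputable def nf16 (A : Atoms) (s : ℝ) : ℝ :=
  (2667291/156250000)*A.Aqqq*A.G + (-10241583/500000000)*A.Aqqq*A.H + (-253474089/5000000000)*A.Aqqq*A.T + (-21344913/625000000)*A.Aqqx*A.G + (-16717221/2500000000)*A.Aqqx*A.H + (-22867401/2500000000)*A.Aqqx*A.T + (1201299/5000000000)*A.Aqqx*s + (-23957/19531250)*A.Aqxx*A.G + (-56489/1250000000)*A.Aqxx*A.H + (309377/2500000000)*A.Aqxx*A.T + (4779/625000000)*A.Aqxx*s + (15549/62500000)*A.Axxx*A.G + (54093/1250000000)*A.Axxx*A.H + (2701/50000000)*A.Axxx*A.T + (-4307/2500000000)*A.Axxx*s + (45369/6250000)*A.G^3 + (-57723/12500000)*A.G^2*A.H + (1534277/312500000)*A.G^2*A.T + (-12567/125000000)*A.G^2*s + (18870609/2500000000)*A.G*A.H^2 + (3998311/250000000)*A.G*A.H*A.T + (15989/500000000)*A.G*A.H*s + (-25237479/2500000000)*A.G*A.T^2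 + (-2183/100000000)*A.G*A.T*s + (406493/39062500)*A.G*A.pqq + (-2132507/156250000)*A.G*A.pqx + (-476481/31250000)*A.G*A.pxx + (3481/10000000000)*A.G*s^2 + (372723/250000000)*A.H^3 + (5050671/625000000)*A.H^2*A.T + (-29677/500000000)*A.H^2*s + (535307/31250000)*A.H*A.T^2 + (-734491/5000000000)*A.H*A.T*s + (-1560809/125000000)*A.H*A.pqq + (-3962689/312500000)*A.H*A.pqx + (-1657617/625000000)*A.H*A.pxx + (154977601/10000000000)*A.T^3 + (-38629247/1250000000)*A.T*A.pqq + (-33588963/1250000000)*A.T*A.pqx + (-82769/25000000)*A.T*A.pxx + (9628609/625000000)*A.b11 + (6941411/312500000)*A.b12 + (5004169/625000000)*A.b22 + (63180183/1250000000)*A.bc11 + (251343/156250000)*A.bc12 + (-226519/625000000)*A.bc13 + (45547557/1250000000)*A.bc21 + (181197/156250000)*A.bc22 + (-163301/625000000)*A.bc23 + (414570321/10000000000)*A.c11 + (1649241/625000000)*A.c12 + (-1486353/2500000000)*A.c13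 + (6561/156250000)*A.c22 + (-5913/312500000)*A.c23 + (5329/2500000000)*A.c33 + (183077/1250000000)*A.pqx*s + (131983/1250000000)*A.pxx*s

lemma chunk16 (A : Atoms) (s : ℝ) (ht : ∀ a1 a2 a3 a4 a5 a6 a7 b1 b2 b3 b4 b5 b6 b7 c1 c2 c3 c4 c5 c6 c7 d1 d2 d3 d4 d5 d6 d7 : ℝ,
      0 ≤ A.fTens a1 a2 a3 a4 a5 a6 a7 b1 b2 b3 b4 b5 b6 b7 c1 c2 c3 c4 c5 c6 c7 d1 d2 d3 d4 d5 d6 d7)
    (hv : ∀ z1 z2 z3 z4 z5 z6 z7 : ℝ, 0 ≤ A.fPV z1 z2 z3 z4 z5 z6 z7 z1 z2 z3 z4 z5 z6 z7) :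
    0 ≤ nf16 A s := by
  have e : 1 * (A.fPV (3103/25000) (2237/25000) (20361/100000) (81/12500) (-73/50000) ((-12449/100000)*A.T+(-503/10000)*A.H+(131/3125)*A.G) ((-37/2000)*A.T+(-741/50000)*A.H+(-213/2500)*A.G+(59/100000)*s) (3103/25000) (2237/25000) (20361/100000) (81/12500) (-73/50000) ((-12449/100000)*A.T+(-503/10000)*A.H+(131/3125)*A.G) ((-37/2000)*A.T+(-741/50000)*A.H+(-213/2500)*A.G+(59/100000)*s)) = nf16 A s := by
    unfold nf16 Atoms.fPV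
    ring
  rw [← e]
  exact mul_nonneg (by norm_num) (hv _ _ _ _ _ _ _)

noncomputable def nf17 (A : Atoms) (s : ℝ) : ℝ :=
  (429/1250000000)*A.Aqqq*A.G + (5031/1000000000)*A.Aqqq*A.H + (741/625000000)*A.Aqqq*A.T + (1057/625000000)*A.Aqqx*A.G + (283563/5000000000)*A.Aqqx*A.H + (65783/5000000000)*A.Aqqx*A.T + (-42337/1250000000)*A.Aqxx*A.G + (-95437/1000000000)*A.Aqxx*A.H + (-62767/2500000000)*A.Aqxx*A.T + (2247/312500000)*A.Axxx*A.G + (89131/5000000000)*A.Axxx*A.H + (23861/5000000000)*A.Axxx*A.T + (441/39062500)*A.G^3 + (16569/312500000)*A.G^2*A.H + (9487/625000000)*A.G^2*A.T + (37429/2000000000)*A.G*A.H^2 + (30651/1000000000)*A.G*A.H*A.T + (12621/2000000000)*A.G*A.T^2 + (-143/1250000000)*A.G*A.pqq + (443/1250000000)*A.G*A.pqx + (1239/312500000)*A.G*A.pxx + (-107457/1000000000)*A.H^3 + (-124877/10000000000)*A.H^2*A.T + (4009/312500000)*A.H*A.T^2 + (-1677/1000000000)*A.H*A.pqq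 + (-13613/2500000000)*A.H*A.pqx + (49147/5000000000)*A.H*A.pxx + (361/156250000)*A.T^3 + (-247/625000000)*A.T*A.pqq + (-6069/5000000000)*A.T*A.pqx + (13157/5000000000)*A.T*A.pxx + (169/10000000000)*A.b11 + (767/5000000000)*A.b12 + (3481/10000000000)*A.b22 + (-507/5000000000)*A.bc11 + (-637/500000000)*A.bc12 + (1391/5000000000)*A.bc13 + (-2301/5000000000)*A.bc21 + (-2891/500000000)*A.bc22 + (6313/5000000000)*A.bc23 + (1521/10000000000)*A.c11 + (1911/500000000)*A.c12 + (-4173/5000000000)*A.c13 + (2401/100000000)*A.c22 + (-5243/500000000)*A.c23 + (11449/10000000000)*A.c33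

lemma chunk17 (A : Atoms) (s : ℝ) (ht : ∀ a1 a2 a3 a4 a5 a6 a7 b1 b2 b3 b4 b5 b6 b7 c1 c2 c3 c4 c5 c6 c7 d1 d2 d3 d4 d5 d6 d7 : ℝ,
      0 ≤ A.fTens a1 a2 a3 a4 a5 a6 a7 b1 b2 b3 b4 b5 b6 b7 c1 c2 c3 c4 c5 c6 c7 d1 d2 d3 d4 d5 d6 d7)
    (hv : ∀ z1 z2 z3 z4 z5 z6 z7 : ℝ, 0 ≤ A.fPV z1 z2 z3 z4 z5 z6 z7 z1 z2 z3 z4 z5 z6 z7) :
    0 ≤ nf17 A s := by
  have e : 1 * (A.fPV (-13/100000) (-59/100000) (39/100000) (49/10000) (-107/100000) ((19/12500)*A.T+(129/20000)*A.H+(11/25000)*A.G) ((-223/100000)*A.T+(-833/100000)*A.H+(-21/6250)*A.G) (-13/100000) (-59/100000) (39/100000) (49/10000) (-107/100000) ((19/12500)*A.T+(129/20000)*A.H+(11/25000)*A.G) ((-223/100000)*A.T+(-833/100000)*A.H+(-21/6250)*A.G)) = nf17 A s := by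
    unfold nf17 Atoms.fPV
    ring
  rw [← e]
  exact mul_nonneg (by norm_num) (hv _ _ _ _ _ _ _)

noncomputable def nf18 (A : Atoms) (s : ℝ) : ℝ :=
  (-1344717/625000000)*A.Aqqq*A.G + (-43226019/2500000000)*A.Aqqq*A.H + (-2525571/625000000)*A.Aqqq*A.T + (28157357/2500000000)*A.Aqqx*A.G + (-57943181/1000000000)*A.Aqqx*A.H + (-2214739/500000000)*A.Aqqx*A.T + (158661/1250000000)*A.Aqqx*s + (125284667/5000000000)*A.Aqxx*A.G + (-743848713/5000000000)*A.Aqxx*A.H + (-66385813/5000000000)*A.Aqxx*A.T + (748409/2500000000)*A.Aqxx*s + (25580187/250000000)*A.Axxx*A.G + (-26873613/250000000)*A.Axxx*A.H + (7986987/250000000)*A.Axxx*A.T + (99369/125000000)*A.Axxx*s + (246584209/10000000000)*A.G^3 + (-58305239/1000000000)*A.G^2*A.H + (79130121/5000000000)*A.G^2*A.T + (957883/2500000000)*A.G^2*s + (-181553713/10000000000)*A.G*A.H^2 + (-23529311/1000000000)*A.G*A.H*A.T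 + (-226493/500000000)*A.G*A.H*s + (40103633/10000000000)*A.G*A.T^2 + (299083/2500000000)*A.G*A.T*s + (-1044857/312500000)*A.G*A.pqq + (4411843/125000000)*A.G*A.pqx + (-376102553/5000000000)*A.G*A.pxx + (3721/2500000000)*A.G*s^2 + (274163643/5000000000)*A.H^3 + (241373943/10000000000)*A.H^2*A.T + (-1013759/2500000000)*A.H^2*s + (2844059/312500000)*A.H*A.T^2 + (-59231/625000000)*A.H*A.T*s + (-33586999/1250000000)*A.H*A.pqq + (264679921/5000000000)*A.H*A.pqx + (395119647/5000000000)*A.H*A.pxx + (942841/625000000)*A.T^3 + (-1962391/312500000)*A.T*A.pqq + (4145673/156250000)*A.T*A.pqx + (-117431753/5000000000)*A.T*A.pxx + (4084441/625000000)*A.b11 + (-48404971/1250000000)*A.b12 + (573650401/10000000000)*A.b22 + (5256621/625000000)*A.bc11 + (24795649/1250000000)*A.bc12 + (3292209/62500000)*A.bc13 + (-62296551/2500000000)*A.bc21 + (-293854819/5000000000)*A.bc22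 + (-39016179/250000000)*A.bc23 + (6765201/2500000000)*A.c11 + (31911669/2500000000)*A.c12 + (4237029/125000000)*A.c13 + (150528361/10000000000)*A.c22 + (19986201/250000000)*A.c23 + (2653641/25000000)*A.c33 + (123281/625000000)*A.pqx*s + (-1461011/2500000000)*A.pxx*s

lemma chunk18 (A : Atoms) (s : ℝ) (ht : ∀ a1 a2 a3 a4 a5 a6 a7 b1 b2 b3 b4 b5 b6 b7 c1 c2 c3 c4 c5 c6 c7 d1 d2 d3 d4 d5 d6 d7 : ℝ,
      0 ≤ A.fTens a1 a2 a3 a4 a5 a6 a7 b1 b2 b3 b4 b5 b6 b7 c1 c2 c3 c4 c5 c6 c7 d1 d2 d3 d4 d5 d6 d7)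
    (hv : ∀ z1 z2 z3 z4 z5 z6 z7 : ℝ, 0 ≤ A.fPV z1 z2 z3 z4 z5 z6 z7 z1 z2 z3 z4 z5 z6 z7) :
    0 ≤ nf18 A s := by
  have e : 1 * (A.fPV (2021/25000) (-23951/100000) (2601/50000) (12269/100000) (1629/5000) ((-971/25000)*A.T+(-16619/100000)*A.H+(-517/25000)*A.G) ((4903/100000)*A.T+(-16497/100000)*A.H+(15703/100000)*A.G+(61/50000)*s) (2021/25000) (-23951/100000) (2601/50000) (12269/100000) (1629/5000) ((-971/25000)*A.T+(-16619/100000)*A.H+(-517/25000)*A.G) ((4903/100000)*A.T+(-16497/100000)*A.H+(15703/100000)*A.G+(61/50000)*s)) = nf18 A s := by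
    unfold nf18 Atoms.fPV
    ring
  rw [← e]
  exact mul_nonneg (by norm_num) (hv _ _ _ _ _ _ _)

noncomputable def nf19 (A : Atoms) (s : ℝ) : ℝ :=
  (19053/250000000)*A.Aqqq*A.G + (100521/2500000000)*A.Aqqq*A.H + (-24309/500000000)*A.Aqqq*A.T + (15777/78125000)*A.Aqqx*A.G + (867/1000000000)*A.Aqqx*A.H + (-938133/5000000000)*A.Aqqx*A.T + (-642193/5000000000)*A.Aqxx*A.G + (-155533/2500000000)*A.Aqxx*A.H + (425113/5000000000)*A.Aqxx*A.T + (-397319/1250000000)*A.Axxx*A.G + (-2873/625000000)*A.Axxx*A.H + (366899/1250000000)*A.Axxx*A.T + (5527201/10000000000)*A.G^3 + (265663/625000000)*A.G^2*A.H + (-4725571/5000000000)*A.G^2*A.T + (1109267/5000000000)*A.G*A.H^2 + (-2868059/5000000000)*A.G*A.H*A.T + (3747541/10000000000)*A.G*A.T^2 + (-1653/250000000)*A.G*A.pqq + (-39517/1250000000)*A.G*A.pqx + (-185729/5000000000)*A.G*A.pxx + (7803/2500000000)*A.H^3 + (-1820037/10000000000)*A.H^2*A.T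 + (11877/62500000)*A.H*A.T^2 + (-8721/2500000000)*A.H*A.pqq + (-37553/5000000000)*A.H*A.pqx + (-1343/2500000000)*A.H*A.pxx + (12321/400000000)*A.T^3 + (2109/500000000)*A.T*A.pqq + (126343/5000000000)*A.T*A.pqx + (171509/5000000000)*A.T*A.pxx + (361/2500000000)*A.b11 + (1501/2500000000)*A.b12 + (6241/10000000000)*A.b22 + (-4161/1250000000)*A.bc11 + (437/2500000000)*A.bc12 + (3211/625000000)*A.bc13 + (-17301/2500000000)*A.bc21 + (1817/5000000000)*A.bc22 + (13351/1250000000)*A.bc23 + (47961/2500000000)*A.c11 + (-5037/2500000000)*A.c12 + (-37011/625000000)*A.c13 + (529/10000000000)*A.c22 + (3887/1250000000)*A.c23 + (28561/625000000)*A.c33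

lemma chunk19 (A : Atoms) (s : ℝ) (ht : ∀ a1 a2 a3 a4 a5 a6 a7 b1 b2 b3 b4 b5 b6 b7 c1 c2 c3 c4 c5 c6 c7 d1 d2 d3 d4 d5 d6 d7 : ℝ,
      0 ≤ A.fTens a1 a2 a3 a4 a5 a6 a7 b1 b2 b3 b4 b5 b6 b7 c1 c2 c3 c4 c5 c6 c7 d1 d2 d3 d4 d5 d6 d7)
    (hv : ∀ z1 z2 z3 z4 z5 z6 z7 : ℝ, 0 ≤ A.fPV z1 z2 z3 z4 z5 z6 z7 z1 z2 z3 z4 z5 z6 z7) :
    0 ≤ nf19 A s := by
  have e : 1 * (A.fPV (-19/50000) (-79/100000) (219/50000) (-23/100000) (-169/25000) ((-111/20000)*A.T+(459/100000)*A.H+(87/10000)*A.G) ((-2171/100000)*A.T+(17/50000)*A.H+(2351/100000)*A.G) (-19/50000) (-79/100000) (219/50000) (-23/100000) (-169/25000) ((-111/20000)*A.T+(459/100000)*A.H+(87/10000)*A.G) ((-2171/100000)*A.T+(17/50000)*A.H+(2351/100000)*A.G)) = nf19 A s := by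
    unfold nf19 Atoms.fPV
    ring
  rw [← e]
  exact mul_nonneg (by norm_num) (hv _ _ _ _ _ _ _)

noncomputable def nf20 (A : Atoms) (s : ℝ) : ℝ :=
  (-133407/5000000000)*A.Aqqq*A.G + (-7533/1250000000)*A.Aqqq*A.H + (-297/2500000000)*A.Aqqq*A.T + (-45736947/5000000000)*A.Aqqx*A.G + (-5098149/2500000000)*A.Aqqx*A.H + (-306107/5000000000)*A.Aqqx*A.T + (-2133/5000000000)*A.Aqqx*s + (-770029/200000000)*A.Aqxx*A.G + (5201131/625000000)*A.Aqxx*A.H + (-4400427/625000000)*A.Aqxx*A.T + (-365533/2500000000)*A.Aqxx*s + (-1436521/5000000000)*A.Axxx*A.G + (7284571/2500000000)*A.Axxx*A.H + (-11387203/5000000000)*A.Axxx*A.T + (-236921/5000000000)*A.Axxx*s + (229441/10000000000)*A.G^3 + (39757/5000000000)*A.G^2*A.H + (28051007/10000000000)*A.G^2*A.T + (37841/5000000000)*A.G^2*s + (-2917183/1250000000)*A.G*A.H^2 + (1167969/1000000000)*A.G*A.H*A.T + (6557/5000000000)*A.G*A.H*s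 + (14634613/10000000000)*A.G*A.T^2 + (299963/5000000000)*A.G*A.T*s + (3621753/1250000000)*A.G*A.pqq + (-4267799/1000000000)*A.G*A.pqx + (-2204837/5000000000)*A.G*A.pxx + (6241/10000000000)*A.G*s^2 + (-677691/625000000)*A.H^3 + (594163/625000000)*A.H^2*A.T + (22041/1250000000)*A.H^2*s + (54043/2500000000)*A.H*A.T^2 + (869/2500000000)*A.H*A.T*s + (204507/312500000)*A.H*A.pqq + (-4845151/1250000000)*A.H*A.pqx + (11180687/2500000000)*A.H*A.pxx + (121/2500000000)*A.T^3 + (8063/625000000)*A.T*A.pqq + (5515769/2500000000)*A.T*A.pqx + (-17477591/5000000000)*A.T*A.pxx + (537289/625000000)*A.b11 + (-3373999/1250000000)*A.b12 + (21187609/10000000000)*A.b22 + (-19791/1250000000)*A.bc11 + (-3391591/625000000)*A.bc12 + (-2198267/1250000000)*A.bc13 + (124281/5000000000)*A.bc21 + (21298081/2500000000)*A.bc22 + (13804397/5000000000)*A.bc23 + (729/10000000000)*A.c11 +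 (124929/2500000000)*A.c12 + (80973/5000000000)*A.c13 + (21409129/2500000000)*A.c22 + (13876373/2500000000)*A.c23 + (8994001/10000000000)*A.c33 + (57907/1250000000)*A.pqx*s + (-363637/5000000000)*A.pxx*s

lemma chunk20 (A : Atoms) (s : ℝ) (ht : ∀ a1 a2 a3 a4 a5 a6 a7 b1 b2 b3 b4 b5 b6 b7 c1 c2 c3 c4 c5 c6 c7 d1 d2 d3 d4 d5 d6 d7 : ℝ,
      0 ≤ A.fTens a1 a2 a3 a4 a5 a6 a7 b1 b2 b3 b4 b5 b6 b7 c1 c2 c3 c4 c5 c6 c7 d1 d2 d3 d4 d5 d6 d7)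
    (hv : ∀ z1 z2 z3 z4 z5 z6 z7 : ℝ, 0 ≤ A.fPV z1 z2 z3 z4 z5 z6 z7 z1 z2 z3 z4 z5 z6 z7) :
    0 ≤ nf20 A s := by
  have e : 1 * (A.fPV (-733/25000) (4603/100000) (27/100000) (4627/50000) (2999/100000) ((-11/50000)*A.T+(-279/25000)*A.H+(-4941/100000)*A.G) ((-3797/100000)*A.T+(2429/50000)*A.H+(-479/100000)*A.G+(-79/100000)*s) (-733/25000) (4603/100000) (27/100000) (4627/50000) (2999/100000) ((-11/50000)*A.T+(-279/25000)*A.H+(-4941/100000)*A.G) ((-3797/100000)*A.T+(2429/50000)*A.H+(-479/100000)*A.G+(-79/100000)*s)) = nf20 A s := by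
    unfold nf20 Atoms.fPV
    ring
  rw [← e]
  exact mul_nonneg (by norm_num) (hv _ _ _ _ _ _ _)

noncomputable def nf21 (A : Atoms) (s : ℝ) : ℝ :=
  (-17593763/2500000000)*A.Aqqq*A.G + (72100391/5000000000)*A.Aqqq*A.H + (-11737/1250000)*A.Aqqq*A.T + (9114499/625000000)*A.Aqqx*A.G + (-141403267/5000000000)*A.Aqqx*A.H + (97835063/5000000000)*A.Aqqx*A.T + (-8229878767/5000000000)*A.Aqqx*s + (-3219727/250000000)*A.Aqxx*A.G + (198511/8000000)*A.Aqxx*A.H + (-86456849/5000000000)*A.Aqxx*A.T + (8099457241/5000000000)*A.Aqxx*s + (14533841/2500000000)*A.Axxx*A.G + (-26741911/2500000000)*A.Axxx*A.H + (39199489/5000000000)*A.Axxx*A.T + (-6248313001/5000000000)*A.Axxx*s + (2660161/2500000000)*A.G^3 + (-14679/2500000)*A.G^2*A.H + (942177/250000000)*A.G^2*A.T + (-1143642521/2500000000)*A.G^2*s + (3502779/312500000)*A.G*A.H^2 + (-35527857/2500000000)*A.G*A.H*A.T +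 (6310719/5000000)*A.G*A.H*s + (43335201/10000000000)*A.G*A.T^2 + (-3084539209/5000000000)*A.G*A.T*s + (24135399/2500000000)*A.G*A.pqq + (-15793339/1250000000)*A.G*A.pqx + (5794943/2500000000)*A.G*A.pxx + (491668818481/10000000000)*A.G*s^2 + (-18435143/2500000000)*A.H^3 + (139798563/10000000000)*A.H^2*A.T + (-4307416313/5000000000)*A.H^2*s + (-5271/625000)*A.H*A.T^2 + (701191/1250000)*A.H*A.T*s + (-98908443/5000000000)*A.H*A.pqq + (118464281/5000000000)*A.H*A.pqx + (-10662553/2500000000)*A.H*A.pxx + (1/625)*A.T^3 + (16101/1250000)*A.T*A.pqq + (-85040299/5000000000)*A.T*A.pqx + (15629647/5000000000)*A.T*A.pxx + (259242201/10000000000)*A.b11 + (-57206853/5000000000)*A.b12 + (12623809/10000000000)*A.b22 + (-188977437/5000000000)*A.bc11 + (185982651/5000000000)*A.bc12 + (-143476011/5000000000)*A.bc13 + (41701561/5000000000)*A.bc21 + (-41040703/5000000000)*A.bc22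 + (31660783/5000000000)*A.bc23 + (137757169/10000000000)*A.c11 + (-135574087/5000000000)*A.c12 + (104588407/5000000000)*A.c13 + (133425601/10000000000)*A.c22 + (-102930961/5000000000)*A.c23 + (79405921/10000000000)*A.c33 + (11289876291/5000000000)*A.pqx*s + (-2491331623/5000000000)*A.pxx*s

lemma chunk21 (A : Atoms) (s : ℝ) (ht : ∀ a1 a2 a3 a4 a5 a6 a7 b1 b2 b3 b4 b5 b6 b7 c1 c2 c3 c4 c5 c6 c7 d1 d2 d3 d4 d5 d6 d7 : ℝ,
      0 ≤ A.fTens a1 a2 a3 a4 a5 a6 a7 b1 b2 b3 b4 b5 b6 b7 c1 c2 c3 c4 c5 c6 c7 d1 d2 d3 d4 d5 d6 d7)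
    (hv : ∀ z1 z2 z3 z4 z5 z6 z7 : ℝ, 0 ≤ A.fPV z1 z2 z3 z4 z5 z6 z7 z1 z2 z3 z4 z5 z6 z7) :
    0 ≤ nf21 A s := by
  have e : 1 * (A.fPV (16101/100000) (-3553/100000) (-11737/100000) (11551/100000) (-8911/100000) ((1/25)*A.T+(-6143/100000)*A.H+(1499/50000)*A.G) ((-4399/100000)*A.T+(3001/50000)*A.H+(-1631/50000)*A.G+(701191/100000)*s) (16101/100000) (-3553/100000) (-11737/100000) (11551/100000) (-8911/100000) ((1/25)*A.T+(-6143/100000)*A.H+(1499/50000)*A.G) ((-4399/100000)*A.T+(3001/50000)*A.H+(-1631/50000)*A.G+(701191/100000)*s)) = nf21 A s := by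
    unfold nf21 Atoms.fPV
    ring
  rw [← e]
  exact mul_nonneg (by norm_num) (hv _ _ _ _ _ _ _)

noncomputable def nf22 (A : Atoms) (s : ℝ) : ℝ :=
  (330517/2500000000)*A.Aqqq*A.T + (614199/10000000000)*A.Aqqx*A.T + (2275353/10000000000)*A.Aqxx*A.G + (89587/500000000)*A.Aqxx*A.T + (6826059/20000000000)*A.G^3 + (9346163/20000000000)*A.G^2*A.T + (1714063/20000000000)*A.G*A.HH + (844403/20000000000)*A.G*A.MM + (101831/10000000000)*A.G*A.NN + (-69899/625000000)*A.G*A.pqq + (1399757/10000000000)*A.G*A.pqx + (628353/5000000000)*A.H^2*A.T + (101831/5000000000)*A.H*A.HN + (-72729/5000000000)*A.H*A.MM + (261749/5000000000)*A.H*A.pqq + (-157153/5000000000)*A.H*A.pqx + (1258131/10000000000)*A.HH*A.T + (146493/2500000000)*A.HM*A.T + (1922619/10000000000)*A.MM*A.T + (2275353/20000000000)*A.NN*A.T + (632933/4000000000)*A.T^3 + (-42373/5000000000)*A.bc21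

lemma chunk22 (A : Atoms) (s : ℝ) (ht : ∀ a1 a2 a3 a4 a5 a6 a7 b1 b2 b3 b4 b5 b6 b7 c1 c2 c3 c4 c5 c6 c7 d1 d2 d3 d4 d5 d6 d7 : ℝ,
      0 ≤ A.fTens a1 a2 a3 a4 a5 a6 a7 b1 b2 b3 b4 b5 b6 b7 c1 c2 c3 c4 c5 c6 c7 d1 d2 d3 d4 d5 d6 d7)
    (hv : ∀ z1 z2 z3 z4 z5 z6 z7 : ℝ, 0 ≤ A.fPV z1 z2 z3 z4 z5 z6 z7 z1 z2 z3 z4 z5 z6 z7) :
    0 ≤ nf22 A s := by
  have e : (261749/10000000000) * (A.fTens 1 0 0 0 0 0 0 0 0 0 0 0 0 0 0 0 0 0 0 0 (1*A.H) 0 0 0 0 0 0 0) +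
    ((69899/1250000000) * (A.fTens 1 0 0 0 0 0 0 0 0 0 0 0 0 0 0 0 0 0 0 0 ((-1)*A.G) 0 0 0 0 0 0 0) +
    ((101831/10000000000) * (A.fTens 1 0 0 0 0 0 0 0 0 1 0 0 0 0 0 0 0 0 0 0 0 0 0 0 0 0 0 0) +
    ((42373/10000000000) * (A.fTens 1 0 0 0 0 0 0 0 0 0 0 0 0 0 0 0 0 0 0 0 0 0 (-1) 0 0 0 0 0) +
    ((89587/1000000000) * (A.fTens 0 1 0 0 0 1 0 0 0 0 0 0 0 0 0 0 0 0 0 0 0 0 0 0 0 0 0 0) +
    ((72729/10000000000) * (A.fTens 0 1 0 0 0 0 0 0 (-1) 0 0 0 0 0 0 0 0 0 0 0 0 0 0 0 0 0 0 0) +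
    ((2275353/20000000000) * (A.fTens 0 0 1 0 0 0 0 0 0 0 0 0 0 0 0 0 0 0 0 0 0 0 0 0 0 0 0 (1*A.G)) +
    ((330517/5000000000) * (A.fTens 0 0 0 1 0 0 0 0 0 0 0 0 0 0 0 1 0 0 0 0 0 0 0 0 0 0 0 0) +
    ((614199/20000000000) * (A.fTens 0 0 0 0 0 0 (1*A.T) 0 0 0 0 0 0 0 0 0 0 0 0 0 0 0 1 0 0 0 0 0) +
    ((157153/10000000000) * (A.fTens 0 0 0 0 0 0 (1*A.H) 0 0 0 0 0 0 0 0 0 0 0 0 0 0 (-1) 0 0 0 0 0 0) +
    ((1399757/20000000000) * (A.fTens 0 0 0 0 0 0 (1*A.G) 0 0 0 0 0 0 0 0 0 0 0 0 0 0 1 0 0 0 0 0 0) +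
    ((146493/5000000000) * (A.fTens 0 0 0 0 0 0 0 0 0 0 0 0 0 0 1 1 0 0 0 0 0 0 0 0 0 0 0 0)))))))))))) = nf22 A s := by
    unfold nf22 Atoms.fTens Atoms.fIP Atoms.fPV
    ring
  rw [← e]
  exact add_nonneg (mul_nonneg (by norm_num) (ht _ _ _ _ _ _ _ _ _ _ _ _ _ _ _ _ _ _ _ _ _ _ _ _ _ _ _ _)) (add_nonneg (mul_nonneg (by norm_num) (ht _ _ _ _ _ _ _ _ _ _ _ _ _ _ _ _ _ _ _ _ _ _ _ _ _ _ _ _)) (add_nonneg (mul_nonneg (by norm_num) (ht _ _ _ _ _ _ _ _ _ _ _ _ _ _ _ _ _ _ _ _ _ _ _ _ _ _ _ _)) (add_nonneg (mul_nonneg (by norm_num) (ht _ _ _ _ _ _ _ _ _ _ _ _ _ _ _ _ _ _ _ _ _ _ _ _ _ _ _ _)) (add_nonneg (mul_nonneg (by norm_num) (ht _ _ _ _ _ _ _ _ _ _ _ _ _ _ _ _ _ _ _ _ _ _ _ _ _ _ _ _)) (add_nonneg (mul_nonneg (by norm_num) (ht _ _ _ _ _ _ _ _ _ _ _ _ _ _ _ _ _ _ _ _ _ _ _ _ _ _ _ _)) (add_nonneg (mul_nonneg (by norm_num) (ht _ _ _ _ _ _ _ _ _ _ _ _ _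 _ _ _ _ _ _ _ _ _ _ _ _ _ _ _)) (add_nonneg (mul_nonneg (by norm_num) (ht _ _ _ _ _ _ _ _ _ _ _ _ _ _ _ _ _ _ _ _ _ _ _ _ _ _ _ _)) (add_nonneg (mul_nonneg (by norm_num) (ht _ _ _ _ _ _ _ _ _ _ _ _ _ _ _ _ _ _ _ _ _ _ _ _ _ _ _ _)) (add_nonneg (mul_nonneg (by norm_num) (ht _ _ _ _ _ _ _ _ _ _ _ _ _ _ _ _ _ _ _ _ _ _ _ _ _ _ _ _)) (add_nonneg (mul_nonneg (by norm_num) (ht _ _ _ _ _ _ _ _ _ _ _ _ _ _ _ _ _ _ _ _ _ _ _ _ _ _ _ _)) (mul_nonneg (by norm_num) (ht _ _ _ _ _ _ _ _ _ _ _ _ _ _ _ _ _ _ _ _ _ _ _ _ _ _ _ _))))))))))))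

noncomputable def nf23 (A : Atoms) (s : ℝ) : ℝ :=
  (-1269067/10000000000)*A.Axxx*A.T + (263693/10000000000)*A.G^3 + (1269067/20000000000)*A.G^2*A.T + (668677/10000000000)*A.G*A.HH + (269919/5000000000)*A.G*A.HM + (140979/2500000000)*A.G*A.MM + (199/25000000)*A.G*A.NN + (362149/10000000000)*A.G*A.T^2 + (263693/5000000000)*A.G*A.pxx + (62241/5000000000)*A.H*A.HH + (-46193/1000000000)*A.H*A.HM + (-7879/625000000)*A.H*A.MN + (17019/5000000000)*A.H*A.NN + (15657/200000000)*A.HH*A.T + (-54671/5000000000)*A.HN*A.T + (2451/625000000)*A.MM*A.T + (2451/312500000)*A.MN*A.T + (348421/4000000000)*A.NN*A.T + (362149/5000000000)*A.T*A.pqx + (-9103/625000000)*A.b12 + (-62581/5000000000)*A.c23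

lemma chunk23 (A : Atoms) (s : ℝ) (ht : ∀ a1 a2 a3 a4 a5 a6 a7 b1 b2 b3 b4 b5 b6 b7 c1 c2 c3 c4 c5 c6 c7 d1 d2 d3 d4 d5 d6 d7 : ℝ,
      0 ≤ A.fTens a1 a2 a3 a4 a5 a6 a7 b1 b2 b3 b4 b5 b6 b7 c1 c2 c3 c4 c5 c6 c7 d1 d2 d3 d4 d5 d6 d7)
    (hv : ∀ z1 z2 z3 z4 z5 z6 z7 : ℝ, 0 ≤ A.fPV z1 z2 z3 z4 z5 z6 z7 z1 z2 z3 z4 z5 z6 z7) :
    0 ≤ nf23 A s := by
  have e : (54671/10000000000) * (A.fTens 0 0 0 0 0 0 0 0 0 0 0 0 0 0 1 0 (-1) 0 0 0 0 0 0 0 0 0 0 0) +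
    ((9103/1250000000) * (A.fTens 0 0 0 0 0 0 0 (-1) 0 0 0 0 0 0 1 0 0 0 0 0 0 0 0 0 0 0 0 0) +
    ((362149/10000000000) * (A.fTens 0 0 0 0 0 0 0 0 0 0 1 0 0 0 1 0 0 0 0 0 0 0 0 0 0 0 0 0) +
    ((62241/10000000000) * (A.fTens 0 0 0 0 0 0 0 0 0 0 0 0 0 0 1 0 0 0 0 0 0 1 0 0 0 0 0 0) +
    ((46193/2000000000) * (A.fTens 0 0 0 0 0 0 0 0 0 0 0 0 0 0 1 0 0 0 0 0 0 0 (-1) 0 0 0 0 0) +
    ((2451/625000000) * (A.fTens 0 0 0 0 0 0 0 0 0 0 0 0 0 0 0 1 1 0 0 0 0 0 0 0 0 0 0 0) +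
    ((1269067/20000000000) * (A.fTens 0 0 0 0 0 0 0 0 0 0 0 0 0 0 0 0 1 0 0 (-1) 0 0 0 0 0 0 0 0) +
    ((62581/10000000000) * (A.fTens 0 0 0 0 0 0 0 0 0 (-1) 0 0 0 0 0 0 1 0 0 0 0 0 0 0 0 0 0 0) +
    ((7879/1250000000) * (A.fTens 0 0 0 0 0 0 0 0 0 0 0 0 0 0 0 0 1 0 0 0 0 0 (-1) 0 0 0 0 0) +
    ((17019/10000000000) * (A.fTens 0 0 0 0 0 0 0 0 0 0 0 0 0 0 0 0 1 0 0 0 0 0 0 1 0 0 0 0) +
    ((269919/10000000000) * (A.fTens 0 0 0 0 0 0 0 1 1 0 0 0 0 0 0 0 0 0 0 0 0 0 0 0 0 0 0 0) +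
    ((263693/10000000000) * (A.fTens 0 0 0 0 0 0 0 1 0 0 0 0 1 0 0 0 0 0 0 0 0 0 0 0 0 0 0 0)))))))))))) = nf23 A s := by
    unfold nf23 Atoms.fTens Atoms.fIP Atoms.fPV
    ring
  rw [← e]
  exact add_nonneg (mul_nonneg (by norm_num) (ht _ _ _ _ _ _ _ _ _ _ _ _ _ _ _ _ _ _ _ _ _ _ _ _ _ _ _ _)) (add_nonneg (mul_nonneg (by norm_num) (ht _ _ _ _ _ _ _ _ _ _ _ _ _ _ _ _ _ _ _ _ _ _ _ _ _ _ _ _)) (add_nonneg (mul_nonneg (by norm_num) (ht _ _ _ _ _ _ _ _ _ _ _ _ _ _ _ _ _ _ _ _ _ _ _ _ _ _ _ _)) (add_nonneg (mul_nonneg (by norm_num) (ht _ _ _ _ _ _ _ _ _ _ _ _ _ _ _ _ _ _ _ _ _ _ _ _ _ _ _ _)) (add_nonneg (mul_nonneg (by norm_num) (ht _ _ _ _ _ _ _ _ _ _ _ _ _ _ _ _ _ _ _ _ _ _ _ _ _ _ _ _)) (add_nonneg (mul_nonneg (by norm_num) (ht _ _ _ _ _ _ _ _ _ _ _ _ _ _ _ _ _ _ _ _ _ _ _ _ _ _ _ _)) (add_nonneg (mul_nonneg (by norm_num) (ht _ _ _ _ _ _ _ _ _ _ _ _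 _ _ _ _ _ _ _ _ _ _ _ _ _ _ _ _)) (add_nonneg (mul_nonneg (by norm_num) (ht _ _ _ _ _ _ _ _ _ _ _ _ _ _ _ _ _ _ _ _ _ _ _ _ _ _ _ _)) (add_nonneg (mul_nonneg (by norm_num) (ht _ _ _ _ _ _ _ _ _ _ _ _ _ _ _ _ _ _ _ _ _ _ _ _ _ _ _ _)) (add_nonneg (mul_nonneg (by norm_num) (ht _ _ _ _ _ _ _ _ _ _ _ _ _ _ _ _ _ _ _ _ _ _ _ _ _ _ _ _)) (add_nonneg (mul_nonneg (by norm_num) (ht _ _ _ _ _ _ _ _ _ _ _ _ _ _ _ _ _ _ _ _ _ _ _ _ _ _ _ _)) (mul_nonneg (by norm_num) (ht _ _ _ _ _ _ _ _ _ _ _ _ _ _ _ _ _ _ _ _ _ _ _ _ _ _ _ _))))))))))))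

noncomputable def nf24 (A : Atoms) (s : ℝ) : ℝ :=
  (123297/1250000000)*A.Aqqx*A.G + (-619237/5000000000)*A.Axxx*A.G + (-126933/10000000000)*A.Axxx*A.H + (619237/10000000000)*A.G^3 + (123297/5000000000)*A.G^2*A.T + (873987/20000000000)*A.G*A.H^2 + (516237/10000000000)*A.G*A.HH + (7523/1250000000)*A.G*A.HN + (1537/25000000)*A.G*A.MM + (30403/1250000000)*A.G*A.MN + (1836353/20000000000)*A.G*A.NN + (150891/1250000000)*A.G*A.T^2 + (267017/10000000000)*A.G*s^2 + (79319/2500000000)*A.T^3 + (-79319/1250000000)*A.T*A.pqq + (50297/625000000)*A.T*A.pxx + (896793/10000000000)*A.b11 + (1537/250000000)*A.bc11 + (47/1250000)*A.bc12 + (-293/15625000)*A.bc13 + (-83769/5000000000)*A.bc23 + (1537/500000000)*A.c11 + (47/2500000)*A.c22 + (293/31250000)*A.c33 + (267017/5000000000)*A.pqx*s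

lemma chunk24 (A : Atoms) (s : ℝ) (ht : ∀ a1 a2 a3 a4 a5 a6 a7 b1 b2 b3 b4 b5 b6 b7 c1 c2 c3 c4 c5 c6 c7 d1 d2 d3 d4 d5 d6 d7 : ℝ,
      0 ≤ A.fTens a1 a2 a3 a4 a5 a6 a7 b1 b2 b3 b4 b5 b6 b7 c1 c2 c3 c4 c5 c6 c7 d1 d2 d3 d4 d5 d6 d7)
    (hv : ∀ z1 z2 z3 z4 z5 z6 z7 : ℝ, 0 ≤ A.fPV z1 z2 z3 z4 z5 z6 z7 z1 z2 z3 z4 z5 z6 z7) :
    0 ≤ nf24 A s := by
  have e : (50297/1250000000) * (A.fTens 0 0 0 0 0 0 0 1 0 0 0 0 0 0 0 0 0 0 0 0 0 0 0 0 0 0 0 (1*A.T)) +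
    ((123297/2500000000) * (A.fTens 0 0 0 0 0 0 0 0 1 0 0 1 0 0 0 0 0 0 0 0 0 0 0 0 0 0 0 0) +
    ((619237/10000000000) * (A.fTens 0 0 0 0 0 0 0 0 0 1 0 0 (-1) 0 0 0 0 0 0 0 0 0 0 0 0 0 0 0) +
    ((83769/10000000000) * (A.fTens 0 0 0 0 0 0 0 0 0 1 0 0 0 0 0 0 0 0 0 0 0 (-1) 0 0 0 0 0 0) +
    ((126933/20000000000) * (A.fTens 0 0 0 0 0 0 0 0 0 0 0 0 0 (1*A.H) 0 0 0 0 0 0 0 0 0 (-1) 0 0 0 0) +
    ((7523/2500000000) * (A.fTens 0 0 0 0 0 0 0 0 0 0 0 0 0 0 0 0 0 0 0 0 0 1 0 1 0 0 0 0) +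
    ((30403/2500000000) * (A.fTens 0 0 0 0 0 0 0 0 0 0 0 0 0 0 0 0 0 0 0 0 0 0 1 1 0 0 0 0) +
    ((1537/500000000) * (A.fPV 1 0 1 0 0 0 0 1 0 1 0 0 0 0) +
    ((47/2500000) * (A.fPV 1 0 0 1 0 0 0 1 0 0 1 0 0 0) +
    ((293/31250000) * (A.fPV 1 0 0 0 (-1) 0 0 1 0 0 0 (-1) 0 0) +
    ((79319/2500000000) * (A.fPV 1 0 0 0 0 ((-1)*A.T) 0 1 0 0 0 0 ((-1)*A.T) 0) +
    ((267017/10000000000) * (A.fPV 1 0 0 0 0 0 (1*s) 1 0 0 0 0 0 (1*s))))))))))))) = nf24 A s := by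
    unfold nf24 Atoms.fTens Atoms.fIP Atoms.fPV
    ring
  rw [← e]
  exact add_nonneg (mul_nonneg (by norm_num) (ht _ _ _ _ _ _ _ _ _ _ _ _ _ _ _ _ _ _ _ _ _ _ _ _ _ _ _ _)) (add_nonneg (mul_nonneg (by norm_num) (ht _ _ _ _ _ _ _ _ _ _ _ _ _ _ _ _ _ _ _ _ _ _ _ _ _ _ _ _)) (add_nonneg (mul_nonneg (by norm_num) (ht _ _ _ _ _ _ _ _ _ _ _ _ _ _ _ _ _ _ _ _ _ _ _ _ _ _ _ _)) (add_nonneg (mul_nonneg (by norm_num) (ht _ _ _ _ _ _ _ _ _ _ _ _ _ _ _ _ _ _ _ _ _ _ _ _ _ _ _ _)) (add_nonneg (mul_nonneg (by norm_num) (ht _ _ _ _ _ _ _ _ _ _ _ _ _ _ _ _ _ _ _ _ _ _ _ _ _ _ _ _)) (add_nonneg (mul_nonneg (by norm_num) (ht _ _ _ _ _ _ _ _ _ _ _ _ _ _ _ _ _ _ _ _ _ _ _ _ _ _ _ _)) (add_nonneg (mul_nonneg (by norm_num) (ht _ _ _ _ _ _ _ _ _ _ _ _ _ _ _ _ _ _ _ _ _ _ _ _ _ _ _ _)) (add_nonneg (mul_nonneg (by norm_num) (hv _ _ _ _ _ _ _)) (add_nonneg (mul_nonneg (by norm_num)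 (hv _ _ _ _ _ _ _)) (add_nonneg (mul_nonneg (by norm_num) (hv _ _ _ _ _ _ _)) (add_nonneg (mul_nonneg (by norm_num) (hv _ _ _ _ _ _ _)) (mul_nonneg (by norm_num) (hv _ _ _ _ _ _ _))))))))))))

noncomputable def nf25 (A : Atoms) (s : ℝ) : ℝ :=
  (32557/2500000000)*A.Aqqq*A.G + (-19729/2000000000)*A.Aqqq*A.H + (-417/625000000)*A.Aqqx*A.H + (325637/5000000000)*A.Aqqx*s + (-280287/10000000000)*A.Aqxx*A.H + (250497/5000000000)*A.Aqxx*s + (107461/5000000000)*A.Axxx*s + (32557/5000000000)*A.G^2*A.T + (689707/20000000000)*A.G*A.H^2 + (22639/250000000)*A.G*s^2 + (94733/5000000000)*A.H^2*A.T + (-136607/2000000000)*A.H*A.pxx + (1903591/20000000000)*A.b22 + (388313/5000000000)*A.bc22 + (988941/20000000000)*A.c11 + (-10223/2500000000)*A.c12 + (-6123/1000000000)*A.c13 + (82407/1250000000)*A.c22 + (556439/20000000000)*A.c33 + (-44393/1000000000)*A.pxx*s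

lemma chunk25 (A : Atoms) (s : ℝ) (ht : ∀ a1 a2 a3 a4 a5 a6 a7 b1 b2 b3 b4 b5 b6 b7 c1 c2 c3 c4 c5 c6 c7 d1 d2 d3 d4 d5 d6 d7 : ℝ,
      0 ≤ A.fTens a1 a2 a3 a4 a5 a6 a7 b1 b2 b3 b4 b5 b6 b7 c1 c2 c3 c4 c5 c6 c7 d1 d2 d3 d4 d5 d6 d7)
    (hv : ∀ z1 z2 z3 z4 z5 z6 z7 : ℝ, 0 ≤ A.fPV z1 z2 z3 z4 z5 z6 z7 z1 z2 z3 z4 z5 z6 z7) :
    0 ≤ nf25 A s := by
  have e : (388313/10000000000) * (A.fPV 0 1 0 1 0 0 0 0 1 0 1 0 0 0) +
    ((136607/4000000000) * (A.fPV 0 1 0 0 0 0 ((-1)*A.H) 0 1 0 0 0 0 ((-1)*A.H)) +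
    ((44393/2000000000) * (A.fPV 0 1 0 0 0 0 ((-1)*s) 0 1 0 0 0 0 ((-1)*s)) +
    ((10223/5000000000) * (A.fPV 0 0 1 (-1) 0 0 0 0 0 1 (-1) 0 0 0) +
    ((6123/2000000000) * (A.fPV 0 0 1 0 (-1) 0 0 0 0 1 0 (-1) 0 0) +
    ((19729/4000000000) * (A.fPV 0 0 1 0 0 ((-1)*A.H) 0 0 0 1 0 0 ((-1)*A.H) 0) +
    ((32557/5000000000) * (A.fPV 0 0 1 0 0 (1*A.G) 0 0 0 1 0 0 (1*A.G) 0) +
    ((417/1250000000) * (A.fPV 0 0 1 0 0 0 ((-1)*A.H) 0 0 1 0 0 0 ((-1)*A.H)) +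
    ((325637/10000000000) * (A.fPV 0 0 1 0 0 0 (1*s) 0 0 1 0 0 0 (1*s)) +
    ((250497/10000000000) * (A.fPV 0 0 0 1 0 0 (1*s) 0 0 0 1 0 0 (1*s)) +
    ((280287/20000000000) * (A.fPV 0 0 0 0 1 ((-1)*A.H) 0 0 0 0 0 1 ((-1)*A.H) 0) +
    ((107461/10000000000) * (A.fPV 0 0 0 0 1 0 (1*s) 0 0 0 0 1 0 (1*s))))))))))))) = nf25 A s := by
    unfold nf25 Atoms.fPV
    ring
  rw [← e]
  exact add_nonneg (mul_nonneg (by norm_num) (hv _ _ _ _ _ _ _)) (add_nonneg (mul_nonneg (by norm_num) (hv _ _ _ _ _ _ _)) (add_nonneg (mul_nonneg (by norm_num) (hv _ _ _ _ _ _ _)) (add_nonneg (mul_nonneg (by norm_num) (hv _ _ _ _ _ _ _)) (add_nonneg (mul_nonneg (by norm_num) (hv _ _ _ _ _ _ _)) (add_nonneg (mul_nonneg (by norm_num) (hv _ _ _ _ _ _ _)) (add_nonneg (mul_nonneg (by norm_num) (hv _ _ _ _ _ _ _)) (add_nonneg (mul_nonneg (by norm_num) (hv _ _ _ _ _ _ _)) (add_nonneg (mul_nonneg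 (by norm_num) (hv _ _ _ _ _ _ _)) (add_nonneg (mul_nonneg (by norm_num) (hv _ _ _ _ _ _ _)) (add_nonneg (mul_nonneg (by norm_num) (hv _ _ _ _ _ _ _)) (mul_nonneg (by norm_num) (hv _ _ _ _ _ _ _))))))))))))

noncomputable def nf26 (A : Atoms) (s : ℝ) : ℝ :=
  (9128989/20000000000)*A.G^2*A.T + (189/2000000)*A.G*A.T^2 + (6143541/10000000000)*A.H^2*A.T + (1221843/5000000000)*A.HH*A.T + (1082413/5000000000)*A.MM*A.T + (2400707/10000000000)*A.NN*A.T + (2391067/4000000000)*A.T^3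

lemma chunk26 (A : Atoms) (s : ℝ) (ht : ∀ a1 a2 a3 a4 a5 a6 a7 b1 b2 b3 b4 b5 b6 b7 c1 c2 c3 c4 c5 c6 c7 d1 d2 d3 d4 d5 d6 d7 : ℝ,
      0 ≤ A.fTens a1 a2 a3 a4 a5 a6 a7 b1 b2 b3 b4 b5 b6 b7 c1 c2 c3 c4 c5 c6 c7 d1 d2 d3 d4 d5 d6 d7)
    (hv : ∀ z1 z2 z3 z4 z5 z6 z7 : ℝ, 0 ≤ A.fPV z1 z2 z3 z4 z5 z6 z7 z1 z2 z3 z4 z5 z6 z7) :
    0 ≤ nf26 A s := by
  have e : (184971/2000000000) * (A.fTens 1 0 0 0 0 0 0 0 0 0 0 0 0 0 0 0 0 0 0 0 0 0 0 0 0 0 0 0) +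
    ((634031/5000000000) * (A.fTens 0 1 0 0 0 0 0 0 0 0 0 0 0 0 0 0 0 0 0 0 0 0 0 0 0 0 0 0) +
    ((1504647/20000000000) * (A.fTens 0 0 1 0 0 0 0 0 0 0 0 0 0 0 0 0 0 0 0 0 0 0 0 0 0 0 0 0) +
    ((614483/5000000000) * (A.fTens 0 0 0 1 0 0 0 0 0 0 0 0 0 0 0 0 0 0 0 0 0 0 0 0 0 0 0 0) +
    ((189/1000000) * (A.fTens 0 0 0 0 1 0 0 0 0 0 0 0 0 0 0 0 0 0 0 0 0 0 0 0 0 0 0 0) +
    ((99413/1000000000) * (A.fTens 0 0 0 0 0 1 0 0 0 0 0 0 0 0 0 0 0 0 0 0 0 0 0 0 0 0 0 0) +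
    ((3165801/20000000000) * (A.fTens 0 0 0 0 0 0 (1*A.T) 0 0 0 0 0 0 0 0 0 0 0 0 0 0 0 0 0 0 0 0 0) +
    ((1732847/10000000000) * (A.fTens 0 0 0 0 0 0 (1*A.H) 0 0 0 0 0 0 0 0 0 0 0 0 0 0 0 0 0 0 0 0 0) +
    ((2380243/20000000000) * (A.fTens 0 0 0 0 0 0 (1*A.G) 0 0 0 0 0 0 0 0 0 0 0 0 0 0 0 0 0 0 0 0 0) +
    ((1518831/10000000000) * (A.fTens 0 0 0 0 0 0 0 0 0 0 0 0 0 0 1 0 0 0 0 0 0 0 0 0 0 0 0 0) +
    ((224191/2500000000) * (A.fTens 0 0 0 0 0 0 0 0 0 0 0 0 0 0 0 1 0 0 0 0 0 0 0 0 0 0 0 0) +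
    ((3296767/20000000000) * (A.fTens 0 0 0 0 0 0 0 0 0 0 0 0 0 0 0 0 1 0 0 0 0 0 0 0 0 0 0 0)))))))))))) = nf26 A s := by
    unfold nf26 Atoms.fTens Atoms.fIP Atoms.fPV
    ring
  rw [← e]
  exact add_nonneg (mul_nonneg (by norm_num) (ht _ _ _ _ _ _ _ _ _ _ _ _ _ _ _ _ _ _ _ _ _ _ _ _ _ _ _ _)) (add_nonneg (mul_nonneg (by norm_num) (ht _ _ _ _ _ _ _ _ _ _ _ _ _ _ _ _ _ _ _ _ _ _ _ _ _ _ _ _)) (add_nonneg (mul_nonneg (by norm_num) (ht _ _ _ _ _ _ _ _ _ _ _ _ _ _ _ _ _ _ _ _ _ _ _ _ _ _ _ _)) (add_nonneg (mul_nonneg (by norm_num) (ht _ _ _ _ _ _ _ _ _ _ _ _ _ _ _ _ _ _ _ _ _ _ _ _ _ _ _ _)) (add_nonneg (mul_nonneg (by norm_num) (ht _ _ _ _ _ _ _ _ _ _ _ _ _ _ _ _ _ _ _ _ _ _ _ _ _ _ _ _)) (add_nonneg (mul_nonneg (by norm_num) (ht _ _ _ _ _ _ _ _ _ _ _ _ _ _ _ _ _ _ _ _ _ _ _ _ _ _ _ _)) (add_nonneg (mul_nonneg (by norm_num) (ht _ _ _ _ _ _ _ _ _ _ _ _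 _ _ _ _ _ _ _ _ _ _ _ _ _ _ _ _)) (add_nonneg (mul_nonneg (by norm_num) (ht _ _ _ _ _ _ _ _ _ _ _ _ _ _ _ _ _ _ _ _ _ _ _ _ _ _ _ _)) (add_nonneg (mul_nonneg (by norm_num) (ht _ _ _ _ _ _ _ _ _ _ _ _ _ _ _ _ _ _ _ _ _ _ _ _ _ _ _ _)) (add_nonneg (mul_nonneg (by norm_num) (ht _ _ _ _ _ _ _ _ _ _ _ _ _ _ _ _ _ _ _ _ _ _ _ _ _ _ _ _)) (add_nonneg (mul_nonneg (by norm_num) (ht _ _ _ _ _ _ _ _ _ _ _ _ _ _ _ _ _ _ _ _ _ _ _ _ _ _ _ _)) (mul_nonneg (by norm_num) (ht _ _ _ _ _ _ _ _ _ _ _ _ _ _ _ _ _ _ _ _ _ _ _ _ _ _ _ _))))))))))))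

noncomputable def nf27 (A : Atoms) (s : ℝ) : ℝ :=
  (100707/1000000000)*A.G^3 + (11892593/20000000000)*A.G^2*A.T + (12356013/20000000000)*A.G*A.H^2 + (220297/2500000000)*A.G*A.HH + (263541/2500000000)*A.G*A.MM + (511291/5000000000)*A.G*A.NN + (7197851/10000000000)*A.G*A.T^2 + (4884753/10000000000)*A.H^2*A.T + (567/1000000)*A.T^3

lemma chunk27 (A : Atoms) (s : ℝ) (ht : ∀ a1 a2 a3 a4 a5 a6 a7 b1 b2 b3 b4 b5 b6 b7 c1 c2 c3 c4 c5 c6 c7 d1 d2 d3 d4 d5 d6 d7 : ℝ,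
      0 ≤ A.fTens a1 a2 a3 a4 a5 a6 a7 b1 b2 b3 b4 b5 b6 b7 c1 c2 c3 c4 c5 c6 c7 d1 d2 d3 d4 d5 d6 d7)
    (hv : ∀ z1 z2 z3 z4 z5 z6 z7 : ℝ, 0 ≤ A.fPV z1 z2 z3 z4 z5 z6 z7 z1 z2 z3 z4 z5 z6 z7) :
    0 ≤ nf27 A s := by
  have e : (2510933/20000000000) * (A.fTens 0 0 0 0 0 0 0 0 0 0 0 0 0 0 0 0 0 0 0 1 0 0 0 0 0 0 0 0) +
    ((189/1000000) * (A.fTens 0 0 0 0 0 0 0 0 0 0 0 0 0 0 0 0 0 0 0 0 (1*A.T) 0 0 0 0 0 0 0) +
    ((1628251/10000000000) * (A.fTens 0 0 0 0 0 0 0 0 0 0 0 0 0 0 0 0 0 0 0 0 (1*A.H) 0 0 0 0 0 0 0) +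
    ((166351/1250000000) * (A.fTens 0 0 0 0 0 0 0 0 0 0 0 0 0 0 0 0 0 0 0 0 (1*A.G) 0 0 0 0 0 0 0) +
    ((220297/2500000000) * (A.fTens 0 0 0 0 0 0 0 1 0 0 0 0 0 0 0 0 0 0 0 0 0 0 0 0 0 0 0 0) +
    ((263541/2500000000) * (A.fTens 0 0 0 0 0 0 0 0 1 0 0 0 0 0 0 0 0 0 0 0 0 0 0 0 0 0 0 0) +
    ((511291/5000000000) * (A.fTens 0 0 0 0 0 0 0 0 0 1 0 0 0 0 0 0 0 0 0 0 0 0 0 0 0 0 0 0) +
    ((1527851/10000000000) * (A.fTens 0 0 0 0 0 0 0 0 0 0 1 0 0 0 0 0 0 0 0 0 0 0 0 0 0 0 0 0) +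
    ((349203/2500000000) * (A.fTens 0 0 0 0 0 0 0 0 0 0 0 1 0 0 0 0 0 0 0 0 0 0 0 0 0 0 0 0) +
    ((100707/1000000000) * (A.fTens 0 0 0 0 0 0 0 0 0 0 0 0 1 0 0 0 0 0 0 0 0 0 0 0 0 0 0 0) +
    ((189/1000000) * (A.fTens 0 0 0 0 0 0 0 0 0 0 0 0 0 (1*A.T) 0 0 0 0 0 0 0 0 0 0 0 0 0 0) +
    ((3653067/20000000000) * (A.fTens 0 0 0 0 0 0 0 0 0 0 0 0 0 (1*A.H) 0 0 0 0 0 0 0 0 0 0 0 0 0 0)))))))))))) = nf27 A s := by
    unfold nf27 Atoms.fTens Atoms.fIP Atoms.fPV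
    ring
  rw [← e]
  exact add_nonneg (mul_nonneg (by norm_num) (ht _ _ _ _ _ _ _ _ _ _ _ _ _ _ _ _ _ _ _ _ _ _ _ _ _ _ _ _)) (add_nonneg (mul_nonneg (by norm_num) (ht _ _ _ _ _ _ _ _ _ _ _ _ _ _ _ _ _ _ _ _ _ _ _ _ _ _ _ _)) (add_nonneg (mul_nonneg (by norm_num) (ht _ _ _ _ _ _ _ _ _ _ _ _ _ _ _ _ _ _ _ _ _ _ _ _ _ _ _ _)) (add_nonneg (mul_nonneg (by norm_num) (ht _ _ _ _ _ _ _ _ _ _ _ _ _ _ _ _ _ _ _ _ _ _ _ _ _ _ _ _)) (add_nonneg (mul_nonneg (by norm_num) (ht _ _ _ _ _ _ _ _ _ _ _ _ _ _ _ _ _ _ _ _ _ _ _ _ _ _ _ _)) (add_nonneg (mul_nonneg (by norm_num) (ht _ _ _ _ _ _ _ _ _ _ _ _ _ _ _ _ _ _ _ _ _ _ _ _ _ _ _ _)) (add_nonneg (mul_nonneg (by norm_num) (ht _ _ _ _ _ _ _ _ _ _ _ _ _ _ _ _ _ _ _ _ _ _ _ _ _ _ _ _)) (add_nonneg (mul_nonneg (by norm_num) (ht _ _ _ _ _ _ _ _ _ _ _ _ _ _ _ _ _ _ _ _ _ _ _ _ _ _ _ _)) (add_nonneg (mul_nonneg (by norm_num)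 (ht _ _ _ _ _ _ _ _ _ _ _ _ _ _ _ _ _ _ _ _ _ _ _ _ _ _ _ _)) (add_nonneg (mul_nonneg (by norm_num) (ht _ _ _ _ _ _ _ _ _ _ _ _ _ _ _ _ _ _ _ _ _ _ _ _ _ _ _ _)) (add_nonneg (mul_nonneg (by norm_num) (ht _ _ _ _ _ _ _ _ _ _ _ _ _ _ _ _ _ _ _ _ _ _ _ _ _ _ _ _)) (mul_nonneg (by norm_num) (ht _ _ _ _ _ _ _ _ _ _ _ _ _ _ _ _ _ _ _ _ _ _ _ _ _ _ _ _))))))))))))

noncomputable def nf28 (A : Atoms) (s : ℝ) : ℝ :=
  (15853941/20000000000)*A.G^3 + (567/1000000)*A.G*A.H^2 + (2719769/20000000000)*A.G*A.HH + (2863201/20000000000)*A.G*A.MM + (4496577/20000000000)*A.G*A.NN + (794109/1250000000)*A.G*A.T^2 + (687367/5000000000)*A.b11 + (2726431/20000000000)*A.b22 + (3559939/20000000000)*A.c11 + (833859/5000000000)*A.c22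

lemma chunk28 (A : Atoms) (s : ℝ) (ht : ∀ a1 a2 a3 a4 a5 a6 a7 b1 b2 b3 b4 b5 b6 b7 c1 c2 c3 c4 c5 c6 c7 d1 d2 d3 d4 d5 d6 d7 : ℝ,
      0 ≤ A.fTens a1 a2 a3 a4 a5 a6 a7 b1 b2 b3 b4 b5 b6 b7 c1 c2 c3 c4 c5 c6 c7 d1 d2 d3 d4 d5 d6 d7)
    (hv : ∀ z1 z2 z3 z4 z5 z6 z7 : ℝ, 0 ≤ A.fPV z1 z2 z3 z4 z5 z6 z7 z1 z2 z3 z4 z5 z6 z7) :
    0 ≤ nf28 A s := by
  have e : (189/1000000) * (A.fTens 0 0 0 0 0 0 0 0 0 0 0 0 0 (1*A.G) 0 0 0 0 0 0 0 0 0 0 0 0 0 0) +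
    ((2719769/20000000000) * (A.fTens 0 0 0 0 0 0 0 0 0 0 0 0 0 0 0 0 0 0 0 0 0 1 0 0 0 0 0 0) +
    ((2863201/20000000000) * (A.fTens 0 0 0 0 0 0 0 0 0 0 0 0 0 0 0 0 0 0 0 0 0 0 1 0 0 0 0 0) +
    ((4496577/20000000000) * (A.fTens 0 0 0 0 0 0 0 0 0 0 0 0 0 0 0 0 0 0 0 0 0 0 0 1 0 0 0 0) +
    ((189/1000000) * (A.fTens 0 0 0 0 0 0 0 0 0 0 0 0 0 0 0 0 0 0 0 0 0 0 0 0 1 0 0 0) +
    ((185953/1250000000) * (A.fTens 0 0 0 0 0 0 0 0 0 0 0 0 0 0 0 0 0 0 0 0 0 0 0 0 0 0 0 (1*A.T)) +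
    ((189/1000000) * (A.fTens 0 0 0 0 0 0 0 0 0 0 0 0 0 0 0 0 0 0 0 0 0 0 0 0 0 0 0 (1*A.H)) +
    ((1504647/20000000000) * (A.fTens 0 0 0 0 0 0 0 0 0 0 0 0 0 0 0 0 0 0 0 0 0 0 0 0 0 0 0 (1*A.G)) +
    ((687367/5000000000) * (A.fPV 1 0 0 0 0 0 0 1 0 0 0 0 0 0) +
    ((2726431/20000000000) * (A.fPV 0 1 0 0 0 0 0 0 1 0 0 0 0 0) +
    ((3559939/20000000000) * (A.fPV 0 0 1 0 0 0 0 0 0 1 0 0 0 0) +
    ((833859/5000000000) * (A.fPV 0 0 0 1 0 0 0 0 0 0 1 0 0 0)))))))))))) = nf28 A s := by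
    unfold nf28 Atoms.fTens Atoms.fIP Atoms.fPV
    ring
  rw [← e]
  exact add_nonneg (mul_nonneg (by norm_num) (ht _ _ _ _ _ _ _ _ _ _ _ _ _ _ _ _ _ _ _ _ _ _ _ _ _ _ _ _)) (add_nonneg (mul_nonneg (by norm_num) (ht _ _ _ _ _ _ _ _ _ _ _ _ _ _ _ _ _ _ _ _ _ _ _ _ _ _ _ _)) (add_nonneg (mul_nonneg (by norm_num) (ht _ _ _ _ _ _ _ _ _ _ _ _ _ _ _ _ _ _ _ _ _ _ _ _ _ _ _ _)) (add_nonneg (mul_nonneg (by norm_num) (ht _ _ _ _ _ _ _ _ _ _ _ _ _ _ _ _ _ _ _ _ _ _ _ _ _ _ _ _)) (add_nonneg (mul_nonneg (by norm_num) (ht _ _ _ _ _ _ _ _ _ _ _ _ _ _ _ _ _ _ _ _ _ _ _ _ _ _ _ _)) (add_nonneg (mul_nonneg (by norm_num) (ht _ _ _ _ _ _ _ _ _ _ _ _ _ _ _ _ _ _ _ _ _ _ _ _ _ _ _ _)) (add_nonneg (mul_nonneg (by norm_num) (ht _ _ _ _ _ _ _ _ _ _ _ _ _ _ _ _ _ _ _ _ _ _ _ _ _ _ _ _)) (add_nonneg (mul_nonneg (by norm_num) (ht _ _ _ _ _ _ _ _ _ _ _ _ _ _ _ _ _ _ _ _ _ _ _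 _ _ _ _ _)) (add_nonneg (mul_nonneg (by norm_num) (hv _ _ _ _ _ _ _)) (add_nonneg (mul_nonneg (by norm_num) (hv _ _ _ _ _ _ _)) (add_nonneg (mul_nonneg (by norm_num) (hv _ _ _ _ _ _ _)) (mul_nonneg (by norm_num) (hv _ _ _ _ _ _ _))))))))))))

noncomputable def nf29 (A : Atoms) (s : ℝ) : ℝ :=
  (189/1000000)*A.G^3 + (912443/5000000000)*A.G^2*A.T + (3090293/20000000000)*A.G*A.H^2 + (189/1000000)*A.G*A.T^2 + (717423/10000000000)*A.G*s^2 + (850267/5000000000)*A.H^2*A.T + (393181/2500000000)*A.T^3 + (4213097/20000000000)*A.c33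

lemma chunk29 (A : Atoms) (s : ℝ) (ht : ∀ a1 a2 a3 a4 a5 a6 a7 b1 b2 b3 b4 b5 b6 b7 c1 c2 c3 c4 c5 c6 c7 d1 d2 d3 d4 d5 d6 d7 : ℝ,
      0 ≤ A.fTens a1 a2 a3 a4 a5 a6 a7 b1 b2 b3 b4 b5 b6 b7 c1 c2 c3 c4 c5 c6 c7 d1 d2 d3 d4 d5 d6 d7)
    (hv : ∀ z1 z2 z3 z4 z5 z6 z7 : ℝ, 0 ≤ A.fPV z1 z2 z3 z4 z5 z6 z7 z1 z2 z3 z4 z5 z6 z7) :
    0 ≤ nf29 A s := by
  have e : (4213097/20000000000) * (A.fPV 0 0 0 0 1 0 0 0 0 0 0 1 0 0) +
    ((393181/2500000000) * (A.fPV 0 0 0 0 0 (1*A.T) 0 0 0 0 0 0 (1*A.T) 0) +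
    ((850267/5000000000) * (A.fPV 0 0 0 0 0 (1*A.H) 0 0 0 0 0 0 (1*A.H) 0) +
    ((912443/5000000000) * (A.fPV 0 0 0 0 0 (1*A.G) 0 0 0 0 0 0 (1*A.G) 0) +
    ((189/1000000) * (A.fPV 0 0 0 0 0 0 (1*A.T) 0 0 0 0 0 0 (1*A.T)) +
    ((3090293/20000000000) * (A.fPV 0 0 0 0 0 0 (1*A.H) 0 0 0 0 0 0 (1*A.H)) +
    ((189/1000000) * (A.fPV 0 0 0 0 0 0 (1*A.G) 0 0 0 0 0 0 (1*A.G)) +
    ((717423/10000000000) * (A.fPV 0 0 0 0 0 0 (1*s) 0 0 0 0 0 0 (1*s))))))))) = nf29 A s := by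
    unfold nf29 Atoms.fPV
    ring
  rw [← e]
  exact add_nonneg (mul_nonneg (by norm_num) (hv _ _ _ _ _ _ _)) (add_nonneg (mul_nonneg (by norm_num) (hv _ _ _ _ _ _ _)) (add_nonneg (mul_nonneg (by norm_num) (hv _ _ _ _ _ _ _)) (add_nonneg (mul_nonneg (by norm_num) (hv _ _ _ _ _ _ _)) (add_nonneg (mul_nonneg (by norm_num) (hv _ _ _ _ _ _ _)) (add_nonneg (mul_nonneg (by norm_num) (hv _ _ _ _ _ _ _)) (add_nonneg (mul_nonneg (by norm_num) (hv _ _ _ _ _ _ _)) (mul_nonneg (by norm_num) (hv _ _ _ _ _ _ _))))))))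

lemma key (A : Atoms) (s : ℝ) :
    psi A s = (1/1000) * (A.T + A.G) ^ 3 + rem A s + (nf0 A s + nf1 A s + nf2 A s + nf3 A s + nf4 A s + nf5 A s + nf6 A s + nf7 A s + nf8 A s + nf9 A s + nf10 A s + nf11 A s + nf12 A s + nf13 A s + nf14 A s + nf15 A s + nf16 A s + nf17 A s + nf18 A s + nf19 A s + nf20 A s + nf21 A s + nf22 A s + nf23 A s + nf24 A s + nf25 A s + nf26 A s + nf27 A s + nf28 A s + nf29 A s) := by
  unfold psi rem nf0 nf1 nf2 nf3 nf4 nf5 nf6 nf7 nf8 nf9 nf10 nf11 nf12 nf13 nf14 nf15 nf16 nf17 nf18 nf19 nf20 nf21 nf22 nf23 nf24 nf25 nf26 nf27 nf28 nf29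
  ring

/-- The certificate. -/
lemma main (A : Atoms) (s : ℝ) (ht : ∀ a1 a2 a3 a4 a5 a6 a7 b1 b2 b3 b4 b5 b6 b7 c1 c2 c3 c4 c5 c6 c7 d1 d2 d3 d4 d5 d6 d7 : ℝ,
      0 ≤ A.fTens a1 a2 a3 a4 a5 a6 a7 b1 b2 b3 b4 b5 b6 b7 c1 c2 c3 c4 c5 c6 c7 d1 d2 d3 d4 d5 d6 d7)
    (hv : ∀ z1 z2 z3 z4 z5 z6 z7 : ℝ, 0 ≤ A.fPV z1 z2 z3 z4 z5 z6 z7 z1 z2 z3 z4 z5 z6 z7) :
    (1/1000) * (A.T + A.G) ^ 3 + rem A s ≤ psi A s := by
  rw [key]
  exact le_add_of_nonneg_right (add_nonneg (add_nonneg (add_nonneg (add_nonneg (add_nonneg (add_nonneg (add_nonneg (add_nonneg (add_nonneg (add_nonneg (add_nonneg (add_nonneg (add_nonneg (add_nonneg (add_nonneg (add_nonneg (add_nonneg (add_nonneg (add_nonneg (add_nonneg (add_nonneg (add_nonneg (add_nonneg (add_nonneg (add_nonneg (add_nonneg (add_nonneg (add_nonneg (add_nonneg (chunk0 A s ht hv) (chunk1 A s ht hv)) (chunk2 A s ht hv)) (chunk3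 A s ht hv)) (chunk4 A s ht hv)) (chunk5 A s ht hv)) (chunk6 A s ht hv)) (chunk7 A s ht hv)) (chunk8 A s ht hv)) (chunk9 A s ht hv)) (chunk10 A s ht hv)) (chunk11 A s ht hv)) (chunk12 A s ht hv)) (chunk13 A s ht hv)) (chunk14 A s ht hv)) (chunk15 A s ht hv)) (chunk16 A s ht hv)) (chunk17 A s ht hv)) (chunk18 A s ht hv)) (chunk19 A s ht hv)) (chunk20 A s ht hv)) (chunk21 A s ht hv)) (chunk22 A s ht hv)) (chunk23 A s ht hv)) (chunk24 A s ht hv)) (chunk25 A s ht hv)) (chunk26 A s ht hv)) (chunk27 A s ht hv)) (chunk28 A s ht hv)) (chunk29 A s ht hv))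

lemma rem_bound (A : Atoms) (s : ℝ) (hs : 0 ≤ s) (hT : 0 ≤ A.T) (hG : 0 ≤ A.G)
    (hH : A.H ^ 2 ≤ A.T * A.G) :
    (9/20000) * (A.T + A.G) ^ 3 - 6101579218 * s ^ 3 ≤ (1/1000) * (A.T + A.G) ^ 3 + rem A s := by
  obtain ⟨hY0, hTa, hGa, hHa⟩ := scal_bounds A.T A.H A.G hT hG hH
  generalize A.T + A.G = Y at *
  have b1 := bnd2 A.H A.T Y s hHa hTa hs
  have b2 := bnd2 A.T A.T Y s hTa hTa hs
  have b3 := bnd2 A.G A.T Y s hGa hTa hs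
  have b4 := bnd2 A.H A.H Y s hHa hHa hs
  have b5 := bnd2 A.G A.H Y s hGa hHa hs
  have b6 := bnd2 A.G A.G Y s hGa hGa hs
  have b7 := bnd1 A.G Y s hGa hs
  have b9 := bnd3 A.H A.T A.T Y hHa hTa hTa
  have b11 := bnd3 A.G A.H A.T Y hGa hHa hTa
  have b15 := bnd3 A.G A.G A.H Y hGa hGa hHa
  have b17 := bnd3 A.H A.H A.H Y hHa hHa hHa
  have y1 := young1 Y s 49601 (1/10000) hY0 hs (by norm_num) (by norm_num)
  have y2 := young2 Y s 406 (1/10000) hY0 hs (by norm_num) (by norm_num)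
  have p1 : 0 ≤ s * Y ^ 2 := by positivity
  have p2 : 0 ≤ s ^ 2 * Y := by positivity
  have p3 : 0 ≤ s ^ 3 := by positivity
  have p4 : 0 ≤ Y ^ 3 := by positivity
  unfold rem
  linarith [b1.1, b1.2, b2.1, b2.2, b3.1, b3.2, b4.1, b4.2, b5.1, b5.2, b6.1, b6.2, b7.1, b7.2, (pow_nonneg hT 3), b9.1, b9.2, (mul_nonneg (pow_nonneg hT 2) hG), b11.1, b11.2, (mul_nonneg (sq_nonneg A.H) hT), (mul_nonneg (sq_nonneg A.H) hG), (mul_nonneg (pow_nonneg hG 2) hT), b15.1, b15.2, (pow_nonneg hG 3), b17.1, b17.2]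

/-- The certificate with the scalar remainder absorbed. -/
lemma final (A : Atoms) (s : ℝ) (hs : 0 ≤ s) (hT : 0 ≤ A.T) (hG : 0 ≤ A.G)
    (hH : A.H ^ 2 ≤ A.T * A.G) (ht : ∀ a1 a2 a3 a4 a5 a6 a7 b1 b2 b3 b4 b5 b6 b7 c1 c2 c3 c4 c5 c6 c7 d1 d2 d3 d4 d5 d6 d7 : ℝ,
      0 ≤ A.fTens a1 a2 a3 a4 a5 a6 a7 b1 b2 b3 b4 b5 b6 b7 c1 c2 c3 c4 c5 c6 c7 d1 d2 d3 d4 d5 d6 d7)
    (hv : ∀ z1 z2 z3 z4 z5 z6 z7 : ℝ, 0 ≤ A.fPV z1 z2 z3 z4 z5 z6 z7 z1 z2 z3 z4 z5 z6 z7) :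
    (9/20000) * (A.T + A.G) ^ 3 - 6101579218 * s ^ 3 ≤ psi A s :=
  (rem_bound A s hs hT hG hH).trans (main A s ht hv)

end Cert21

end Vale.Agent.Lib.P252
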