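import Vale.Agent.Lib.P252.Hess12
import Vale.Agent.Lib.P252.CertAux

/-!
The sum of squares certificate for the exponents Cert32.
-/

namespace Vale.Agent.Lib.P252

namespace Cert32

/-- The polynomial form. -/
noncomputable def psi (A : Atoms) (s : ℝ) : ℝ :=
  (-147/80)*A.Aqqq*A.G + (419/500)*A.Aqqq*A.H + (-3711/2000)*A.Aqqq*A.T + (29693/15625)*A.Aqqx*A.G + (-237/500)*A.Aqqx*A.H + (19013/10000)*A.Aqqx*A.T + (-737/250)*A.Aqqx*s + (-318163/200000)*A.Aqxx*A.G + (419/500)*A.Aqxx*A.H + (-1610963/1000000)*A.Aqxx*A.T + (537/250)*A.Aqxx*s + (298043/500000)*A.Axxx*A.G + (-237/500)*A.Axxx*A.H + (297681/500000)*A.Axxx*A.T + (-319/250)*A.Axxx*s + (92349/1000000)*A.G^3 + (-250379/500000)*A.G^2*A.H + (470261/1000000)*A.G^2*A.T + (-837/1000)*A.G^2*s + (107081/200000)*A.G*A.H^2 + (-132137/100000)*A.G*A.H*A.T + (1289/500)*A.G*A.H*s + 1*A.G*A.HH + (-737/500)*A.G*A.HM +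 (537/1000)*A.G*A.HN + (737/1000)*A.G*A.MM + (-537/1000)*A.G*A.MN + (319/1000)*A.G*A.NN + (84451/125000)*A.G*A.T^2 + (-5959/5000)*A.G*A.T*s + (2701/1000)*A.G*A.pqq + (-19611/10000)*A.G*A.pqx + (33549/200000)*A.G*A.pxx + (537081/1000000)*A.H^2*A.T + (-419/250)*A.H^2*s + (-8197/10000)*A.H*A.T^2 + (833/500)*A.H*A.T*s + (-419/250)*A.H*A.pqq + (237/250)*A.H*A.pqx + 1*A.HH*A.T + (-737/500)*A.HM*A.T + (537/1000)*A.HN*A.T + (737/1000)*A.MM*A.T + (-537/1000)*A.MN*A.T + (319/1000)*A.NN*A.T + (2977/10000)*A.T^3 + (-897/2500)*A.T^2*s + (2737/1000)*A.T*A.pqq + (-19611/10000)*A.T*A.pqx + (168749/1000000)*A.T*A.pxx + 4*A.b11 + (-251/250)*A.b12 + (-1237/250)*A.bc11 + (537/250)*A.bc12 + (-819/250)*A.bc13 + (251/500)*A.bc21 + (251/500)*A.bc23 + (737/500)*A.c11 + (-537/500)*A.c12 + (264/125)*A.c13 + (-537/500)*A.c23 + (319/500)*A.c33 + 4*A.pqx*s + (-251/250)*A.pxx*s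

/-- The scalar remainder. -/
noncomputable def rem (A : Atoms) (s : ℝ) : ℝ :=
  (388879/1000000000)*A.G^3 + (151911/5000000000)*A.G^2*A.H + (44588393/100000000000)*A.G^2*A.T + (-1242910147/2500000000)*A.G^2*s + (8206423/20000000000)*A.G*A.H^2 + (1301231/25000000000)*A.G*A.H*A.T + (843183153/625000000)*A.G*A.H*s + (9482031/20000000000)*A.G*A.T^2 + (-587837187/1000000000)*A.G*A.T*s + (-23641259793/500000000)*A.G*s^2 + (250171/5000000000)*A.H^3 + (30188121/100000000000)*A.H^2*A.T + (-1206135673/2500000000)*A.H^2*s + (-279109/12500000000)*A.H*A.T^2 + (25542439/50000000)*A.H*A.T*s + (21300009/50000000000)*A.T^3 + (-897/2500)*A.T^2*s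

noncomputable def nf0 (A : Atoms) (s : ℝ) : ℝ :=
  (-6350679231/10000000000)*A.Aqqq*A.G + (-7432299859/10000000000)*A.Aqqq*A.H + (-73002947/1000000000)*A.Aqqq*A.T + (888126499/2500000000)*A.Aqqx*A.G + (7261688953/5000000000)*A.Aqqx*A.H + (4945448907/10000000000)*A.Aqqx*A.T + (-251822717/10000000000)*A.Aqxx*A.G + (-2650647177/5000000000)*A.Aqxx*A.H + (-8192697211/10000000000)*A.Aqxx*A.T + (-2348359/625000000)*A.Axxx*A.G + (268957991/10000000000)*A.Axxx*A.H + (118532701/500000000)*A.Axxx*A.T + (14451913/10000000000)*A.G^3 + (25961229/5000000000)*A.G^2*A.H + (5952939163/100000000000)*A.G^2*A.T + (-1036763081/20000000000)*A.G*A.H^2 + (-7736207879/25000000000)*A.G*A.H*A.T + (312375277/625000000)*A.G*A.HH + (-903069833/1250000000)*A.G*A.HM + (124269091/1250000000)*A.G*A.HN + (1305377341/5000000000)*A.G*A.MM + (-179632837/2500000000)*A.G*A.MN + (24789953/5000000000)*A.G*A.NN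 + (17073357021/100000000000)*A.G*A.T^2 + (4298833503/5000000000)*A.G*A.pqq + (-400338523/1250000000)*A.G*A.pqx + (-47469737/1250000000)*A.G*A.pxx + (1350918027/5000000000)*A.H^3 + (-30528257647/100000000000)*A.H^2*A.T + (1025854999/1250000000)*A.H*A.HH + (-7254620623/5000000000)*A.H*A.HM + (3547333149/5000000000)*A.H*A.HN + (3099774127/5000000000)*A.H*A.MM + (-2695374341/5000000000)*A.H*A.MN + (78080939/1250000000)*A.H*A.NN + (276096611/6250000000)*A.H*A.T^2 + (3555416149/5000000000)*A.H*A.pqq + (-1382747081/1250000000)*A.H*A.pqx + (270320957/1000000000)*A.H*A.pxx + (3368993413/10000000000)*A.HH*A.T + (-1760618803/2500000000)*A.HM*A.T + (644335859/1250000000)*A.HN*A.T + (3680391697/10000000000)*A.MM*A.T + (-336723029/625000000)*A.MN*A.T + (24646801/125000000)*A.NN*A.T + (1218279171/50000000000)*A.T^3 + (34923113/500000000)*A.T*A.pqq + (-395803469/1000000000)*A.T*A.pqx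 + (25570913/50000000)*A.T*A.pxx + (-842238453/2500000000)*A.b11 + (-128232447/156250000)*A.b12 + (-78093687/156250000)*A.b22 + (3521244969/5000000000)*A.bc11 + (427906031/1250000000)*A.bc12 + (-24524921/39062500)*A.bc13 + (2965735229/5000000000)*A.bc21 + (640840237/1000000000)*A.bc22 + (-124281189/1250000000)*A.bc23 + (-460048791/1250000000)*A.c11 + (-81194797/1000000000)*A.c12 + (567206907/1250000000)*A.c13 + (-466147689/1250000000)*A.c22 + (23584049/2500000000)*A.c23 + (-4930323/1000000000)*A.c33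

lemma chunk0 (A : Atoms) (s : ℝ) (ht : ∀ a1 a2 a3 a4 a5 a6 a7 b1 b2 b3 b4 b5 b6 b7 c1 c2 c3 c4 c5 c6 c7 d1 d2 d3 d4 d5 d6 d7 : ℝ,
      0 ≤ A.fTens a1 a2 a3 a4 a5 a6 a7 b1 b2 b3 b4 b5 b6 b7 c1 c2 c3 c4 c5 c6 c7 d1 d2 d3 d4 d5 d6 d7)
    (hv : ∀ z1 z2 z3 z4 z5 z6 z7 : ℝ, 0 ≤ A.fPV z1 z2 z3 z4 z5 z6 z7 z1 z2 z3 z4 z5 z6 z7) :
    0 ≤ nf0 A s := by
  have e : 1 * (A.fTens (40943/100000) (-10729/25000) (7801/25000) (-21/50000) (323/100000) (17069/100000) ((-843/20000)*A.T+(-2427/100000)*A.H+(-1283/50000)*A.G) (12509/25000) (-36151/100000) (4709/100000) (5127/12500) (321/100000) (-223/100000) ((-2903/25000)*A.T+(1779/50000)*A.H+(969/50000)*A.G) (-20571/50000) (42879/100000) (-3949/12500) 0 0 (-8587/50000) ((2147/50000)*A.T+(49/2000)*A.H+(2601/100000)*A.G) (-6243/12500) (36109/100000) (-1047/20000) (-40897/100000) 0 0 ((5779/50000)*A.T+(-109/3125)*A.H+(-93/5000)*A.G))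 = nf0 A s := by
    unfold nf0 Atoms.fTens Atoms.fIP Atoms.fPV
    ring
  rw [← e]
  exact mul_nonneg (by norm_num) (ht _ _ _ _ _ _ _ _ _ _ _ _ _ _ _ _ _ _ _ _ _ _ _ _ _ _ _ _)

noncomputable def nf1 (A : Atoms) (s : ℝ) : ℝ :=
  (1149/40000000)*A.Aqqq*A.G + (216987/10000000000)*A.Aqqq*A.H + (-48561/1000000000)*A.Aqqq*A.T + (-129549/2000000000)*A.Aqqx*A.G + (-242681/2500000000)*A.Aqqx*A.H + (222749/10000000000)*A.Aqqx*A.T + (-223/200000000)*A.Aqxx*A.G + (982963/10000000000)*A.Aqxx*A.H + (-239977/2500000000)*A.Aqxx*A.T + (24063/5000000000)*A.Axxx*A.G + (-242489/5000000000)*A.Axxx*A.H + (31207/312500000)*A.Axxx*A.T + (2613/2500000000)*A.G^3 + (-79341/5000000000)*A.G^2*A.H + (863033/25000000000)*A.G^2*A.T + (298167/10000000000)*A.G*A.H^2 + (-1206347/50000000000)*A.G*A.H*A.T + (337/1000000000)*A.G*A.HH + (3647/1250000000)*A.G*A.HM + (8633/5000000000)*A.G*A.HN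 + (3961/625000000)*A.G*A.MM + (4697/625000000)*A.G*A.MN + (22301/10000000000)*A.G*A.NN + (4208881/100000000000)*A.G*A.T^2 + (392721/10000000000)*A.G*A.pqq + (-59799/5000000000)*A.G*A.pqx + (73/39062500)*A.G*A.pxx + (-137481/10000000000)*A.H^3 + (3317257/100000000000)*A.H^2*A.T + (1543/156250000)*A.H*A.HH + (125973/2500000000)*A.H*A.HM + (5259/312500000)*A.H*A.HN + (40849/1250000000)*A.H*A.MM + (-89173/5000000000)*A.H*A.MN + (-55117/2500000000)*A.H*A.NN + (89283/2500000000)*A.H*A.T^2 + (236091/10000000000)*A.H*A.pqq + (-1137441/10000000000)*A.H*A.pqx + (32789/1250000000)*A.H*A.pxx + (362413/5000000000)*A.HH*A.T + (69081/625000000)*A.HM*A.T + (-629099/5000000000)*A.HN*A.T + (42137/1000000000)*A.MM*A.T + (-479661/5000000000)*A.MN*A.T + (546017/10000000000)*A.NN*A.T + (-565893/12500000000)*A.T^3 + (-318449/5000000000)*A.T*A.pqq + (-180729/10000000000)*A.T*A.pqx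 + (-591701/5000000000)*A.T*A.pxx + (72479/1000000000)*A.b11 + (6169/625000000)*A.b12 + (1677/5000000000)*A.b22 + (34539/312500000)*A.bc11 + (-591451/5000000000)*A.bc12 + (-42839/5000000000)*A.bc13 + (53581/1250000000)*A.bc21 + (141653/5000000000)*A.bc22 + (8669/5000000000)*A.bc23 + (210677/5000000000)*A.c11 + (-316237/5000000000)*A.c12 + (-5813/156250000)*A.c13 + (401551/5000000000)*A.c22 + (-72721/5000000000)*A.c23 + (1111/500000000)*A.c33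

lemma chunk1 (A : Atoms) (s : ℝ) (ht : ∀ a1 a2 a3 a4 a5 a6 a7 b1 b2 b3 b4 b5 b6 b7 c1 c2 c3 c4 c5 c6 c7 d1 d2 d3 d4 d5 d6 d7 : ℝ,
      0 ≤ A.fTens a1 a2 a3 a4 a5 a6 a7 b1 b2 b3 b4 b5 b6 b7 c1 c2 c3 c4 c5 c6 c7 d1 d2 d3 d4 d5 d6 d7)
    (hv : ∀ z1 z2 z3 z4 z5 z6 z7 : ℝ, 0 ≤ A.fPV z1 z2 z3 z4 z5 z6 z7 z1 z2 z3 z4 z5 z6 z7) :
    0 ≤ nf1 A s := by
  have e : 1 * (A.fTens (-599/100000) (-457/100000) (521/100000) (-63/100000) (-37/100000) (487/100000) ((163/50000)*A.T+(-23/20000)*A.H+(-33/20000)*A.G) (-39/100000) (-9/5000) (-11/10000) (21/100000) (3/6250) (-7/5000) ((51/100000)*A.T+(-3/10000)*A.H+(27/100000)*A.G) (-121/20000) (-461/100000) (131/25000) 0 0 (93/20000) ((329/100000)*A.T+(-57/50000)*A.H+(-41/25000)*A.G) (-43/100000) (-11/6250) (-101/100000) (39/100000) 0 0 ((1/2000)*A.T+(-17/50000)*A.H+(1/4000)*A.G)) = nf1 A s := by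
    unfold nf1 Atoms.fTens Atoms.fIP Atoms.fPV
    ring
  rw [← e]
  exact mul_nonneg (by norm_num) (ht _ _ _ _ _ _ _ _ _ _ _ _ _ _ _ _ _ _ _ _ _ _ _ _ _ _ _ _)

noncomputable def nf2 (A : Atoms) (s : ℝ) : ℝ :=
  (263837/5000000000)*A.Aqqq*A.G + (14509/10000000000)*A.Aqqq*A.H + (-6031/5000000000)*A.Aqqq*A.T + (-430279/2500000000)*A.Aqqx*A.G + (522109/10000000000)*A.Aqqx*A.H + (224481/10000000000)*A.Aqqx*A.T + (-714537/5000000000)*A.Aqxx*A.G + (90551/1000000000)*A.Aqxx*A.H + (-1868783/10000000000)*A.Aqxx*A.T + (7399/500000000)*A.Axxx*A.G + (-13287/1000000000)*A.Axxx*A.H + (43567/2500000000)*A.Axxx*A.T + (3519/250000000)*A.G^3 + (6651/500000000)*A.G^2*A.H + (9455179/100000000000)*A.G^2*A.T + (-648593/20000000000)*A.G*A.H^2 + (200213/6250000000)*A.G*A.H*A.T + (33797/1000000000)*A.G*A.HH + (786571/5000000000)*A.G*A.HM + (-71891/5000000000)*A.G*A.HN + (2929/16000000)*A.G*A.MM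 + (-167107/5000000000)*A.G*A.MN + (21389/10000000000)*A.G*A.NN + (-8624439/100000000000)*A.G*A.T^2 + (232303/10000000000)*A.G*A.pqq + (-145343/2000000000)*A.G*A.pqx + (-6821/100000000)*A.G*A.pxx + (2921/1250000000)*A.H^3 + (-2868339/100000000000)*A.H^2*A.T + (-21991/2500000000)*A.H*A.HH + (-80343/2500000000)*A.H*A.HM + (33543/5000000000)*A.H*A.HN + (-4237/156250000)*A.H*A.MM + (36731/2500000000)*A.H*A.MN + (-173/625000000)*A.H*A.NN + (196857/12500000000)*A.H*A.T^2 + (-219/2000000000)*A.H*A.pqq + (58741/2500000000)*A.H*A.pqx + (92871/2000000000)*A.H*A.pxx + (697/1000000000)*A.HH*A.T + (8383/5000000000)*A.HM*A.T + (-171/156250000)*A.HN*A.T + (10553/10000000000)*A.MM*A.T + (-739/625000000)*A.MN*A.T + (41/78125000)*A.NN*A.T + (-28299/50000000000)*A.T^3 + (-21/25000000)*A.T*A.pqq + (120597/10000000000)*A.T*A.pqx + (-156369/2000000000)*A.T*A.pxx + (2133/5000000000)*A.b11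 + (-863/100000000)*A.b12 + (168857/5000000000)*A.b22 + (6563/5000000000)*A.bc11 + (-58983/5000000000)*A.bc12 + (401/78125000)*A.bc13 + (-100323/5000000000)*A.bc21 + (399039/2500000000)*A.bc22 + (-73603/5000000000)*A.bc23 + (583/625000000)*A.c11 + (-137261/5000000000)*A.c12 + (7447/625000000)*A.c13 + (928247/5000000000)*A.c22 + (-90719/2500000000)*A.c23 + (497/500000000)*A.c33

lemma chunk2 (A : Atoms) (s : ℝ) (ht : ∀ a1 a2 a3 a4 a5 a6 a7 b1 b2 b3 b4 b5 b6 b7 c1 c2 c3 c4 c5 c6 c7 d1 d2 d3 d4 d5 d6 d7 : ℝ,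
      0 ≤ A.fTens a1 a2 a3 a4 a5 a6 a7 b1 b2 b3 b4 b5 b6 b7 c1 c2 c3 c4 c5 c6 c7 d1 d2 d3 d4 d5 d6 d7)
    (hv : ∀ z1 z2 z3 z4 z5 z6 z7 : ℝ, 0 ≤ A.fPV z1 z2 z3 z4 z5 z6 z7 z1 z2 z3 z4 z5 z6 z7) :
    0 ≤ nf2 A s := by
  have e : 1 * (A.fTens (-79/100000) (-11/12500) (9/12500) (9/100000) (23/20000) (19/100000) ((1/2000)*A.T+(-3/4000)*A.H+(-29/50000)*A.G) (419/100000) (977/100000) (-7/20000) (143/100000) (-707/100000) (-261/50000) ((-487/100000)*A.T+(43/20000)*A.H+(51/50000)*A.G) (-27/100000) (-53/100000) (-1/12500) 0 0 (307/100000) ((3/12500)*A.T+(-59/100000)*A.H+(-31/50000)*A.G) (403/100000) (117/12500) (-71/50000) (33/50000) 0 0 ((-29/6250)*A.T+(241/100000)*A.H+(7/6250)*A.G)) = nf2 A s := by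
    unfold nf2 Atoms.fTens Atoms.fIP Atoms.fPV
    ring
  rw [← e]
  exact mul_nonneg (by norm_num) (ht _ _ _ _ _ _ _ _ _ _ _ _ _ _ _ _ _ _ _ _ _ _ _ _ _ _ _ _)

noncomputable def nf3 (A : Atoms) (s : ℝ) : ℝ :=
  (-6293/5000000000)*A.Aqqq*A.G + (38689/5000000000)*A.Aqqq*A.H + (7587/5000000000)*A.Aqqq*A.T + (-29391/5000000000)*A.Aqqx*A.G + (-56251/10000000000)*A.Aqqx*A.H + (-699/2500000000)*A.Aqqx*A.T + (-33/200000000)*A.Aqxx*A.G + (2007/156250000)*A.Aqxx*A.H + (-40833/10000000000)*A.Aqxx*A.T + (2001/5000000000)*A.Axxx*A.G + (-401/5000000000)*A.Axxx*A.H + (-5431/1250000000)*A.Axxx*A.T + (1619/10000000000)*A.G^3 + (4909/2500000000)*A.G^2*A.H + (899587/100000000000)*A.G^2*A.T + (1769/20000000000)*A.G*A.H^2 + (3880791/50000000000)*A.G*A.H*A.T + (63749/10000000000)*A.G*A.HH + (13671/2500000000)*A.G*A.HM + (-483/625000000)*A.G*A.HN + (1669/1250000000)*A.G*A.MM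 + (161/2500000000)*A.G*A.MN + (529/2000000000)*A.G*A.NN + (28419/2000000000)*A.G*A.T^2 + (-13033/2500000000)*A.G*A.pqq + (5711/2000000000)*A.G*A.pqx + (-2863/2500000000)*A.G*A.pxx + (-1227909/10000000000)*A.H^3 + (295111/10000000000)*A.H^2*A.T + (25347/2500000000)*A.H*A.HH + (42357/5000000000)*A.H*A.HM + (-12209/1250000000)*A.H*A.HN + (509/312500000)*A.H*A.MM + (-5069/1000000000)*A.H*A.MN + (-1633/5000000000)*A.H*A.NN + (-48477/5000000000)*A.H*A.T^2 + (86533/5000000000)*A.H*A.pqq + (136847/5000000000)*A.H*A.pqx + (-34687/2000000000)*A.H*A.pxx + (461/100000000)*A.HH*A.T + (2263/500000000)*A.HM*A.T + (-421/78125000)*A.HN*A.T + (1129/1000000000)*A.MM*A.T + (-11361/5000000000)*A.MN*A.T + (34957/10000000000)*A.NN*A.T + (-41937/12500000000)*A.T^3 + (4237/1250000000)*A.T*A.pqq + (33939/5000000000)*A.T*A.pqx + (-5667/1250000000)*A.T*A.pxx + (-2231/625000000)*A.b11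 + (-3213/312500000)*A.b12 + (-637/100000000)*A.b22 + (-7847/2500000000)*A.bc11 + (15537/5000000000)*A.bc12 + (41153/5000000000)*A.bc13 + (-6199/1250000000)*A.bc21 + (-1697/312500000)*A.bc22 + (4347/5000000000)*A.bc23 + (-3333/5000000000)*A.c11 + (7637/5000000000)*A.c12 + (6979/2500000000)*A.c13 + (-15347/5000000000)*A.c22 + (-1587/2500000000)*A.c23 + (529/2500000000)*A.c33

lemma chunk3 (A : Atoms) (s : ℝ) (ht : ∀ a1 a2 a3 a4 a5 a6 a7 b1 b2 b3 b4 b5 b6 b7 c1 c2 c3 c4 c5 c6 c7 d1 d2 d3 d4 d5 d6 d7 : ℝ,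
      0 ≤ A.fTens a1 a2 a3 a4 a5 a6 a7 b1 b2 b3 b4 b5 b6 b7 c1 c2 c3 c4 c5 c6 c7 d1 d2 d3 d4 d5 d6 d7)
    (hv : ∀ z1 z2 z3 z4 z5 z6 z7 : ℝ, 0 ≤ A.fPV z1 z2 z3 z4 z5 z6 z7 z1 z2 z3 z4 z5 z6 z7) :
    0 ≤ nf3 A s := by
  have e : 1 * (A.fTens (23/25000) (33/100000) (-179/100000) (-9/100000) (-1/6250) (87/100000) ((-39/100000)*A.T+(-261/50000)*A.H+(-17/10000)*A.G) (91/50000) (53/50000) (23/100000) (-41/25000) (-11/100000) (3/12500) ((147/100000)*A.T+(351/100000)*A.H+(1/6250)*A.G) (-97/50000) (-101/100000) (27/50000) 0 0 (-151/100000) ((23/25000)*A.T+(557/100000)*A.H+(181/100000)*A.G) (-7/4000) (-23/50000) (23/50000) (27/10000) 0 0 ((-97/50000)*A.T+(-363/100000)*A.H+(-17/100000)*A.G)) = nf3 A s := by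
    unfold nf3 Atoms.fTens Atoms.fIP Atoms.fPV
    ring
  rw [← e]
  exact mul_nonneg (by norm_num) (ht _ _ _ _ _ _ _ _ _ _ _ _ _ _ _ _ _ _ _ _ _ _ _ _ _ _ _ _)

noncomputable def nf4 (A : Atoms) (s : ℝ) : ℝ :=
  (53203987/2500000000)*A.Aqqq*A.G + (95070659/5000000000)*A.Aqqq*A.H + (51709/3906250)*A.Aqqq*A.T + (-64533949/5000000000)*A.Aqqx*A.G + (-5919743/625000000)*A.Aqqx*A.H + (80920809/2500000000)*A.Aqqx*A.T + (-63705617/5000000000)*A.Aqxx*A.G + (-3622269/1250000000)*A.Aqxx*A.H + (191083387/5000000000)*A.Aqxx*A.T + (4047269/2500000000)*A.Axxx*A.G + (3766117/2500000000)*A.Axxx*A.H + (80943473/5000000000)*A.Axxx*A.T + (6932299/10000000000)*A.G^3 + (-5632213/2500000000)*A.G^2*A.H + (268731753/50000000000)*A.G^2*A.T + (-1230937/10000000000)*A.G*A.H^2 + (-238753267/25000000000)*A.G*A.H*A.T + (8576041/5000000000)*A.G*A.HH + (26080477/2500000000)*A.G*A.HM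 + (3507097/2500000000)*A.G*A.HN + (19383229/1000000000)*A.G*A.MM + (503633/2500000000)*A.G*A.MN + (29201/20000000)*A.G*A.NN + (-13046633/500000000)*A.G*A.T^2 + (25632621/5000000000)*A.G*A.pqq + (-28920943/5000000000)*A.G*A.pqx + (-2827937/5000000000)*A.G*A.pxx + (40045813/5000000000)*A.H^3 + (-641086201/50000000000)*A.H^2*A.T + (16843189/5000000000)*A.H*A.HH + (94186699/5000000000)*A.H*A.HM + (73443737/5000000000)*A.H*A.HN + (105059671/2500000000)*A.H*A.MM + (38085423/1000000000)*A.H*A.MN + (4448557/1250000000)*A.H*A.NN + (-1060023331/25000000000)*A.H*A.T^2 + (19650741/5000000000)*A.H*A.pqq + (-11464667/1000000000)*A.H*A.pqx + (16518241/2500000000)*A.H*A.pxx + (21300941/10000000000)*A.HH*A.T + (321309/40000000)*A.HM*A.T + (53962127/5000000000)*A.HN*A.T + (113951557/5000000000)*A.MM*A.T + (41030481/1000000000)*A.MN*A.T + (206969369/10000000000)*A.NN*A.T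 + (-9287767/781250000)*A.T^3 + (2691899/625000000)*A.T*A.pqq + (1818413/1250000000)*A.T*A.pqx + (8824537/1000000000)*A.T*A.pxx + (101881/500000000)*A.b11 + (-7384091/5000000000)*A.b12 + (-6659159/5000000000)*A.b22 + (-52830507/5000000000)*A.bc11 + (-23598517/1250000000)*A.bc12 + (-50727287/5000000000)*A.bc13 + (-47714531/5000000000)*A.bc21 + (-11106351/1250000000)*A.bc22 + (1746217/2500000000)*A.bc23 + (-22102823/1000000000)*A.c11 + (-421336433/5000000000)*A.c12 + (-199040687/5000000000)*A.c13 + (-8127277/200000000)*A.c22 + (-399371/312500000)*A.c23 + (887091/625000000)*A.c33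

lemma chunk4 (A : Atoms) (s : ℝ) (ht : ∀ a1 a2 a3 a4 a5 a6 a7 b1 b2 b3 b4 b5 b6 b7 c1 c2 c3 c4 c5 c6 c7 d1 d2 d3 d4 d5 d6 d7 : ℝ,
      0 ≤ A.fTens a1 a2 a3 a4 a5 a6 a7 b1 b2 b3 b4 b5 b6 b7 c1 c2 c3 c4 c5 c6 c7 d1 d2 d3 d4 d5 d6 d7)
    (hv : ∀ z1 z2 z3 z4 z5 z6 z7 : ℝ, 0 ≤ A.fPV z1 z2 z3 z4 z5 z6 z7 z1 z2 z3 z4 z5 z6 z7) :
    0 ≤ nf4 A s := by
  have e : 1 * (A.fTens (461/10000) (9283/100000) (151/1250) (499/25000) (-99/2500) (221/6250) ((-961/25000)*A.T+(-217/100000)*A.H+(-1017/100000)*A.G) (3739/100000) (8819/100000) (1501/50000) (1801/50000) (-973/25000) (62/3125) ((-519/10000)*A.T+(-189/25000)*A.H+(187/25000)*A.G) (221/100000) (-2381/20000) (-7813/100000) 0 0 (-2507/100000) ((691/25000)*A.T+(37/50000)*A.H+(667/100000)*A.G) (-1781/100000) (-10773/100000) (591/25000) (-13/400) 0 0 ((327/6250)*A.T+(51/20000)*A.H+(-1439/100000)*A.G)) = nf4 A s := by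
    unfold nf4 Atoms.fTens Atoms.fIP Atoms.fPV
    ring
  rw [← e]
  exact mul_nonneg (by norm_num) (ht _ _ _ _ _ _ _ _ _ _ _ _ _ _ _ _ _ _ _ _ _ _ _ _ _ _ _ _)

noncomputable def nf5 (A : Atoms) (s : ℝ) : ℝ :=
  (-945396043/10000000000)*A.Aqqq*A.G + (1678138523/10000000000)*A.Aqqq*A.H + (-316178293/2500000000)*A.Aqqq*A.T + (3284525591/10000000000)*A.Aqqx*A.G + (-1725141857/10000000000)*A.Aqqx*A.H + (114732147/2000000000)*A.Aqqx*A.T + (-132864969/625000000)*A.Aqxx*A.G + (-2313412147/10000000000)*A.Aqxx*A.H + (83328451/1250000000)*A.Aqxx*A.T + (86518607/2500000000)*A.Axxx*A.G + (905760851/5000000000)*A.Axxx*A.H + (17381661/5000000000)*A.Axxx*A.T + (2460849/625000000)*A.G^3 + (-80390119/2500000000)*A.G^2*A.H + (2605713837/50000000000)*A.G^2*A.T + (-319549299/10000000000)*A.G*A.H^2 + (-20138977/195312500)*A.G*A.H*A.T + (1644150361/10000000000)*A.G*A.HH +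 (-1898902663/5000000000)*A.G*A.HM + (1579637997/5000000000)*A.G*A.HN + (1096743229/5000000000)*A.G*A.MM + (-1824988577/5000000000)*A.G*A.MN + (1518640213/10000000000)*A.G*A.NN + (7966820769/100000000000)*A.G*A.T^2 + (736268709/10000000000)*A.G*A.pqq + (-120570091/500000000)*A.G*A.pqx + (90098113/2500000000)*A.G*A.pxx + (7282977/312500000)*A.H^3 + (8301760537/100000000000)*A.H^2*A.T + (-724536603/1250000000)*A.H*A.HH + (201130551/200000000)*A.H*A.HM + (-1400166611/2500000000)*A.H*A.HN + (-121266449/312500000)*A.H*A.MM + (1629942689/5000000000)*A.H*A.MN + (-6464271/2500000000)*A.H*A.NN + (-57567291/781250000)*A.H*A.T^2 + (-57864539/200000000)*A.H*A.pqq + (3107870583/10000000000)*A.H*A.pqx + (940835659/5000000000)*A.H*A.pxx + (255709169/500000000)*A.HH*A.T + (-1481080359/2500000000)*A.HM*A.T + (1479279/312500000)*A.HN*A.T + (171627937/1000000000)*A.MM*A.T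 + (-6894233/2500000000)*A.MN*A.T + (30109/2500000000)*A.NN*A.T + (-82495959/50000000000)*A.T^3 + (4361697/20000000)*A.T*A.pqq + (6455159/250000000)*A.T*A.pqx + (-1621143819/5000000000)*A.T*A.pxx + (-319517781/625000000)*A.b11 + (1447225997/2500000000)*A.b12 + (-8184813/50000000)*A.b22 + (295957559/500000000)*A.bc11 + (-1698071873/5000000000)*A.bc12 + (3285009/1250000000)*A.bc13 + (-1672759049/2500000000)*A.bc21 + (187121263/200000000)*A.bc22 + (-788243911/2500000000)*A.bc23 + (-856379997/5000000000)*A.c11 + (974770873/2500000000)*A.c12 + (-7625209/2500000000)*A.c13 + (-270640181/500000000)*A.c22 + (1835092419/5000000000)*A.c23 + (-379314897/2500000000)*A.c33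

lemma chunk5 (A : Atoms) (s : ℝ) (ht : ∀ a1 a2 a3 a4 a5 a6 a7 b1 b2 b3 b4 b5 b6 b7 c1 c2 c3 c4 c5 c6 c7 d1 d2 d3 d4 d5 d6 d7 : ℝ,
      0 ≤ A.fTens a1 a2 a3 a4 a5 a6 a7 b1 b2 b3 b4 b5 b6 b7 c1 c2 c3 c4 c5 c6 c7 d1 d2 d3 d4 d5 d6 d7)
    (hv : ∀ z1 z2 z3 z4 z5 z6 z7 : ℝ, 0 ≤ A.fPV z1 z2 z3 z4 z5 z6 z7 z1 z2 z3 z4 z5 z6 z7) :
    0 ≤ nf5 A s := by
  have e : 1 * (A.fTens (-24937/50000) (28341/100000) (-39/25000) (887/100000) (-249/100000) (104/625) ((336/3125)*A.T+(-801/12500)*A.H+(-26/3125)*A.G) (273/1000) (-31973/100000) (13481/50000) (7103/100000) (323/25000) (-13/5000) ((-257/100000)*A.T+(-181/100000)*A.H+(-1543/50000)*A.G) (12813/25000) (-30217/100000) (31/10000) 0 0 (-2073/12500) ((-1079/10000)*A.T+(129/2000)*A.H+(811/100000)*A.G) (-29981/100000) (34223/100000) (-28137/100000) (-4229/50000) 0 0 ((41/6250)*A.T+(67/50000)*A.H+(1593/50000)*A.G)) = nf5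 A s := by
    unfold nf5 Atoms.fTens Atoms.fIP Atoms.fPV
    ring
  rw [← e]
  exact mul_nonneg (by norm_num) (ht _ _ _ _ _ _ _ _ _ _ _ _ _ _ _ _ _ _ _ _ _ _ _ _ _ _ _ _)

noncomputable def nf6 (A : Atoms) (s : ℝ) : ℝ :=
  (-57212599/2000000000)*A.Aqqq*A.G + (-718413693/10000000000)*A.Aqqq*A.H + (-2876809/62500000)*A.Aqqq*A.T + (-70672483/1000000000)*A.Aqqx*A.G + (-715910971/5000000000)*A.Aqqx*A.H + (-712760509/10000000000)*A.Aqqx*A.T + (-83570351/10000000000)*A.Aqxx*A.G + (-182428159/5000000000)*A.Aqxx*A.H + (-219196069/10000000000)*A.Aqxx*A.T + (27333697/625000000)*A.Axxx*A.G + (157430913/10000000000)*A.Axxx*A.H + (51187897/5000000000)*A.Axxx*A.T + (17821869/2500000000)*A.G^3 + (-28619461/1250000000)*A.G^2*A.H + (1456711583/100000000000)*A.G^2*A.T + (-861882581/20000000000)*A.G*A.H^2 + (305851121/10000000000)*A.G*A.H*A.T + (200320673/10000000000)*A.G*A.HH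 + (-145022731/5000000000)*A.G*A.HM + (-231939673/5000000000)*A.G*A.HN + (105636329/10000000000)*A.G*A.MM + (168917171/5000000000)*A.G*A.MN + (270107473/10000000000)*A.G*A.NN + (1378156641/100000000000)*A.G*A.T^2 + (366147041/10000000000)*A.G*A.pqq + (313447703/10000000000)*A.G*A.pqx + (-23355857/625000000)*A.G*A.pxx + (-98195791/10000000000)*A.H^3 + (3965992479/100000000000)*A.H^2*A.T + (193473/8000000)*A.H*A.HH + (-20025977/312500000)*A.H*A.HM + (-267499983/5000000000)*A.H*A.HN + (167306647/5000000000)*A.H*A.MM + (71554079/1000000000)*A.H*A.MN + (72125699/2500000000)*A.H*A.NN + (202460589/5000000000)*A.H*A.T^2 + (616468269/10000000000)*A.H*A.pqq + (362057593/5000000000)*A.H*A.pqx + (-7240809/400000000)*A.H*A.pxx + (81504513/10000000000)*A.HH*A.T + (-5626413/200000000)*A.HM*A.T + (-38375367/2500000000)*A.HN*A.T + (265557737/10000000000)*A.MM*A.T + (71439753/2500000000)*A.MN*A.T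 + (15407593/2000000000)*A.NN*A.T + (243071489/25000000000)*A.T^3 + (32364441/1250000000)*A.T*A.pqq + (52804559/2000000000)*A.T*A.pqx + (-84119213/10000000000)*A.T*A.pxx + (4804857/625000000)*A.b11 + (3194289/125000000)*A.b12 + (2971507/156250000)*A.b22 + (-7349751/250000000)*A.bc11 + (-300086977/5000000000)*A.bc12 + (-120612093/5000000000)*A.bc13 + (-23107941/1250000000)*A.bc21 + (-72271829/1250000000)*A.bc22 + (-14109053/312500000)*A.bc23 + (32110589/1250000000)*A.c11 + (303707153/5000000000)*A.c12 + (89007783/5000000000)*A.c13 + (175975867/2500000000)*A.c22 + (308889569/5000000000)*A.c23 + (8322639/312500000)*A.c33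

lemma chunk6 (A : Atoms) (s : ℝ) (ht : ∀ a1 a2 a3 a4 a5 a6 a7 b1 b2 b3 b4 b5 b6 b7 c1 c2 c3 c4 c5 c6 c7 d1 d2 d3 d4 d5 d6 d7 : ℝ,
      0 ≤ A.fTens a1 a2 a3 a4 a5 a6 a7 b1 b2 b3 b4 b5 b6 b7 c1 c2 c3 c4 c5 c6 c7 d1 d2 d3 d4 d5 d6 d7)
    (hv : ∀ z1 z2 z3 z4 z5 z6 z7 : ℝ, 0 ≤ A.fPV z1 z2 z3 z4 z5 z6 z7 z1 z2 z3 z4 z5 z6 z7) :
    0 ≤ nf6 A s := by
  have e : 1 * (A.fTens (-921/12500) (2489/25000) (5677/100000) (-9633/100000) (-1477/20000) (-453/100000) ((197/100000)*A.T+(-201/20000)*A.H+(-17/2500)*A.G) (-259/3125) (1663/25000) (663/6250) (-8119/100000) (-10729/100000) (5717/50000) ((2033/100000)*A.T+(-1903/100000)*A.H+(-913/50000)*A.G) (-5217/100000) (12901/100000) (3347/50000) 0 0 (2321/50000) ((-157/12500)*A.T+(-287/50000)*A.H+(-183/25000)*A.G) (-11473/100000) (1567/20000) (12553/100000) (-281/5000) 0 0 ((1559/50000)*A.T+(-1177/50000)*A.H+(-219/10000)*A.G))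 = nf6 A s := by
    unfold nf6 Atoms.fTens Atoms.fIP Atoms.fPV
    ring
  rw [← e]
  exact mul_nonneg (by norm_num) (ht _ _ _ _ _ _ _ _ _ _ _ _ _ _ _ _ _ _ _ _ _ _ _ _ _ _ _ _)

noncomputable def nf7 (A : Atoms) (s : ℝ) : ℝ :=
  (-27837481/2500000000)*A.Aqqq*A.G + (-69468699/5000000000)*A.Aqqq*A.H + (28989611/5000000000)*A.Aqqq*A.T + (-60670097/5000000000)*A.Aqqx*A.G + (8966831/125000000)*A.Aqqx*A.H + (-29657899/2500000000)*A.Aqqx*A.T + (-19503579/625000000)*A.Aqxx*A.G + (-247514757/5000000000)*A.Aqxx*A.H + (-3451711/500000000)*A.Aqxx*A.T + (48096339/2500000000)*A.Axxx*A.G + (161087079/5000000000)*A.Axxx*A.H + (148713821/5000000000)*A.Axxx*A.T + (1033347/400000000)*A.G^3 + (-79178637/5000000000)*A.G^2*A.H + (3801559/6250000000)*A.G^2*A.T + (-7735603/500000000)*A.G*A.H^2 + (-822216313/25000000000)*A.G*A.H*A.T + (17290649/1000000000)*A.G*A.HH + (112569101/5000000000)*A.G*A.HM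 + (351564861/5000000000)*A.G*A.HN + (73293337/10000000000)*A.G*A.MM + (28605353/625000000)*A.G*A.MN + (715079441/10000000000)*A.G*A.NN + (-135543497/25000000000)*A.G*A.T^2 + (-115742489/5000000000)*A.G*A.pqq + (8470027/5000000000)*A.G*A.pqx + (47217223/5000000000)*A.G*A.pxx + (27663351/500000000)*A.H^3 + (-801362049/25000000000)*A.H^2*A.T + (207521747/5000000000)*A.H*A.HH + (193089567/5000000000)*A.H*A.HM + (489071/25000000)*A.H*A.HN + (943193/125000000)*A.H*A.MM + (-93019893/5000000000)*A.H*A.MN + (-131761719/1000000000)*A.H*A.NN + (56510649/5000000000)*A.H*A.T^2 + (-248513259/5000000000)*A.H*A.pqq + (3831839/5000000000)*A.H*A.pqx + (39595343/2500000000)*A.H*A.pxx + (249068993/10000000000)*A.HH*A.T + (13915337/1000000000)*A.HM*A.T + (-389012453/5000000000)*A.HN*A.T + (19507177/10000000000)*A.MM*A.T + (-108587329/5000000000)*A.MN*A.T + (607680281/10000000000)*A.NN*A.T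 + (-688140577/50000000000)*A.T^3 + (103975319/5000000000)*A.T*A.pqq + (127157249/2500000000)*A.T*A.pqx + (81793653/5000000000)*A.T*A.pxx + (-7783399/312500000)*A.b11 + (-207522377/5000000000)*A.b12 + (-86452363/5000000000)*A.b22 + (-1739557/125000000)*A.bc11 + (331040371/5000000000)*A.bc12 + (324128621/5000000000)*A.bc13 + (-135107429/5000000000)*A.bc21 + (-534508199/5000000000)*A.bc22 + (-351531303/5000000000)*A.bc23 + (-1210503/625000000)*A.c11 + (70999111/5000000000)*A.c12 + (210999449/5000000000)*A.c13 + (-572623/6250000)*A.c22 + (430264597/5000000000)*A.c23 + (-8930513/125000000)*A.c33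

lemma chunk7 (A : Atoms) (s : ℝ) (ht : ∀ a1 a2 a3 a4 a5 a6 a7 b1 b2 b3 b4 b5 b6 b7 c1 c2 c3 c4 c5 c6 c7 d1 d2 d3 d4 d5 d6 d7 : ℝ,
      0 ≤ A.fTens a1 a2 a3 a4 a5 a6 a7 b1 b2 b3 b4 b5 b6 b7 c1 c2 c3 c4 c5 c6 c7 d1 d2 d3 d4 d5 d6 d7)
    (hv : ∀ z1 z2 z3 z4 z5 z6 z7 : ℝ, 0 ≤ A.fPV z1 z2 z3 z4 z5 z6 z7 z1 z2 z3 z4 z5 z6 z7) :
    0 ≤ nf7 A s := by
  have e : 1 * (A.fTens (697/6250) (413/12500) (-43/250) (-27/25000) (-11/3125) (19/12500) ((-4701/100000)*A.T+(3869/50000)*A.H+(47/2000)*A.G) (9319/100000) (6011/100000) (2413/12500) (-219/6250) (-261/50000) (163/50000) ((-4111/100000)*A.T+(-4087/100000)*A.H+(-649/25000)*A.G) (-11167/100000) (-2931/100000) (17659/100000) 0 0 (-1/4000) ((577/12500)*A.T+(-243/3125)*A.H+(-2393/100000)*A.G) (-9277/100000) (-381/6250) (-3701/20000) (3427/100000) 0 0 ((26/625)*A.T+(3993/100000)*A.H+(2481/100000)*A.G)) = nf7 A s :=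 by
    unfold nf7 Atoms.fTens Atoms.fIP Atoms.fPV
    ring
  rw [← e]
  exact mul_nonneg (by norm_num) (ht _ _ _ _ _ _ _ _ _ _ _ _ _ _ _ _ _ _ _ _ _ _ _ _ _ _ _ _)

noncomputable def nf8 (A : Atoms) (s : ℝ) : ℝ :=
  (-370779/100000000)*A.Aqqq*A.G + (3423073/2500000000)*A.Aqqq*A.H + (12207599/2500000000)*A.Aqqq*A.T + (-29518297/2500000000)*A.Aqqx*A.G + (60273267/5000000000)*A.Aqqx*A.H + (-24210707/2500000000)*A.Aqqx*A.T + (-1348837/200000000)*A.Aqxx*A.G + (52702517/5000000000)*A.Aqxx*A.H + (-66315431/5000000000)*A.Aqxx*A.T + (483177/250000000)*A.Axxx*A.G + (2340301/200000000)*A.Axxx*A.H + (24255989/5000000000)*A.Axxx*A.T + (562729/2000000000)*A.G^3 + (-1157083/1000000000)*A.G^2*A.H + (18214483/6250000000)*A.G^2*A.T + (-12226637/2000000000)*A.G*A.H^2 + (1671597/781250000)*A.G*A.H*A.T + (112681/100000000)*A.G*A.HH + (-1833403/500000000)*A.G*A.HM + (-6708597/1250000000)*A.G*A.HN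 + (5982269/2000000000)*A.G*A.MM + (22019403/2500000000)*A.G*A.MN + (8209037/1250000000)*A.G*A.NN + (247091313/50000000000)*A.G*A.T^2 + (57633/40000000)*A.G*A.pqq + (7299517/2500000000)*A.G*A.pqx + (-96187/125000000)*A.G*A.pxx + (-2386871/500000000)*A.H^3 + (-3055409/25000000000)*A.H^2*A.T + (5484619/2500000000)*A.H*A.HH + (9027643/5000000000)*A.H*A.HM + (-20975437/2500000000)*A.H*A.HN + (-2755083/312500000)*A.H*A.MM + (-39991661/5000000000)*A.H*A.MN + (18639021/2500000000)*A.H*A.NN + (143683077/25000000000)*A.H*A.T^2 + (2661319/5000000000)*A.H*A.pqq + (744067/2500000000)*A.H*A.pqx + (-6048673/1250000000)*A.H*A.pxx + (5442193/5000000000)*A.HH*A.T + (13258751/2500000000)*A.HM*A.T + (-15169587/5000000000)*A.HN*A.T + (16242937/2500000000)*A.MM*A.T + (-115233/15625000)*A.MN*A.T + (21160593/10000000000)*A.NN*A.T + (-232707073/50000000000)*A.T^3 + (10082421/5000000000)*A.T*A.pqq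 + (2936091/5000000000)*A.T*A.pqx + (-18587623/5000000000)*A.T*A.pxx + (-1086851/1000000000)*A.b11 + (-5517757/2500000000)*A.b12 + (-171741/156250000)*A.b22 + (-13293401/2500000000)*A.bc11 + (-11591831/5000000000)*A.bc12 + (120459/39062500)*A.bc13 + (18034163/5000000000)*A.bc21 + (5592781/625000000)*A.bc22 + (6789601/1250000000)*A.bc23 + (-1010457/156250000)*A.c11 + (2528359/156250000)*A.c12 + (-3144783/625000000)*A.c13 + (9989157/1250000000)*A.c22 + (-5085691/312500000)*A.c23 + (-1632321/250000000)*A.c33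

lemma chunk8 (A : Atoms) (s : ℝ) (ht : ∀ a1 a2 a3 a4 a5 a6 a7 b1 b2 b3 b4 b5 b6 b7 c1 c2 c3 c4 c5 c6 c7 d1 d2 d3 d4 d5 d6 d7 : ℝ,
      0 ≤ A.fTens a1 a2 a3 a4 a5 a6 a7 b1 b2 b3 b4 b5 b6 b7 c1 c2 c3 c4 c5 c6 c7 d1 d2 d3 d4 d5 d6 d7)
    (hv : ∀ z1 z2 z3 z4 z5 z6 z7 : ℝ, 0 ≤ A.fPV z1 z2 z3 z4 z5 z6 z7 z1 z2 z3 z4 z5 z6 z7) :
    0 ≤ nf8 A s := by
  have e : 1 * (A.fTens (479/20000) (2709/50000) (-429/12500) (47/25000) (9/3125) (-423/10000) ((-66/3125)*A.T+(81/6250)*A.H+(369/100000)*A.G) (131/6250) (-227/6250) (-603/10000) (1833/100000) (31/6250) (-217/100000) ((-299/100000)*A.T+(409/50000)*A.H+(877/100000)*A.G) (-2269/100000) (-373/6250) (3063/100000) 0 0 (4147/100000) ((2199/100000)*A.T+(-633/50000)*A.H+(-171/50000)*A.G) (-1311/50000) (4089/100000) (2707/50000) (-1029/50000) 0 0 ((349/100000)*A.T+(-779/100000)*A.H+(-793/100000)*A.G)) = nf8 A s := by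
    unfold nf8 Atoms.fTens Atoms.fIP Atoms.fPV
    ring
  rw [← e]
  exact mul_nonneg (by norm_num) (ht _ _ _ _ _ _ _ _ _ _ _ _ _ _ _ _ _ _ _ _ _ _ _ _ _ _ _ _)

noncomputable def nf9 (A : Atoms) (s : ℝ) : ℝ :=
  (-148753/2500000000)*A.Aqqq*A.G + (-1457103/10000000000)*A.Aqqq*A.H + (-7863/8000000)*A.Aqqq*A.T + (1365311/10000000000)*A.Aqqx*A.G + (15737991/10000000000)*A.Aqqx*A.H + (-22453091/10000000000)*A.Aqqx*A.T + (-8479343/10000000000)*A.Aqxx*A.G + (551193/400000000)*A.Aqxx*A.H + (-157469/400000000)*A.Aqxx*A.T + (300303/500000000)*A.Axxx*A.G + (-12270429/10000000000)*A.Axxx*A.H + (2860513/5000000000)*A.Axxx*A.T + (861221/10000000000)*A.G^3 + (-50273/100000000)*A.G^2*A.H + (4754269/20000000000)*A.G^2*A.T + (15765261/20000000000)*A.G*A.H^2 + (-2267097/6250000000)*A.G*A.H*A.T + (162361/2500000000)*A.G*A.HH + (7849/1250000000)*A.G*A.HM + (-846009/2500000000)*A.G*A.HN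 + (1297/250000000)*A.G*A.MM + (-3273/100000000)*A.G*A.MN + (908261/2000000000)*A.G*A.NN + (10740041/100000000000)*A.G*A.T^2 + (-38099/1250000000)*A.G*A.pqq + (1696981/5000000000)*A.G*A.pqx + (-274619/1250000000)*A.G*A.pxx + (-708947/5000000000)*A.H^3 + (-34370217/100000000000)*A.H^2*A.T + (277719/2500000000)*A.H*A.HH + (199929/500000000)*A.H*A.HM + (297953/5000000000)*A.H*A.HN + (777/15625000)*A.H*A.MM + (-5136543/5000000000)*A.H*A.MN + (-150563/156250000)*A.H*A.NN + (1503409/5000000000)*A.H*A.T^2 + (-1952191/10000000000)*A.H*A.pqq + (-75891/2000000000)*A.H*A.pqx + (-112879/5000000000)*A.H*A.pxx + (238061/5000000000)*A.HH*A.T + (212893/625000000)*A.HM*A.T + (381101/1250000000)*A.HN*A.T + (641449/1000000000)*A.MM*A.T + (1441867/1250000000)*A.MN*A.T + (324233/625000000)*A.NN*A.T + (18491/1562500000)*A.T^3 + (-1276749/5000000000)*A.T*A.pqq + (-4795191/10000000000)*A.T*A.pqx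 + (708141/10000000000)*A.T*A.pxx + (203739/5000000000)*A.b11 + (230821/2500000000)*A.b12 + (1629/31250000)*A.b22 + (103761/312500000)*A.bc11 + (1704369/2500000000)*A.bc12 + (215873/625000000)*A.bc13 + (27161/1250000000)*A.bc21 + (-1209969/5000000000)*A.bc22 + (-95839/312500000)*A.bc23 + (3193797/5000000000)*A.c11 + (1512227/1250000000)*A.c12 + (32081/625000000)*A.c13 + (-544147/1000000000)*A.c22 + (-2535133/2500000000)*A.c23 + (135783/312500000)*A.c33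

lemma chunk9 (A : Atoms) (s : ℝ) (ht : ∀ a1 a2 a3 a4 a5 a6 a7 b1 b2 b3 b4 b5 b6 b7 c1 c2 c3 c4 c5 c6 c7 d1 d2 d3 d4 d5 d6 d7 : ℝ,
      0 ≤ A.fTens a1 a2 a3 a4 a5 a6 a7 b1 b2 b3 b4 b5 b6 b7 c1 c2 c3 c4 c5 c6 c7 d1 d2 d3 d4 d5 d6 d7)
    (hv : ∀ z1 z2 z3 z4 z5 z6 z7 : ℝ, 0 ≤ A.fPV z1 z2 z3 z4 z5 z6 z7 z1 z2 z3 z4 z5 z6 z7) :
    0 ≤ nf9 A s := by
  have e : 1 * (A.fTens (601/100000) (1871/100000) (413/25000) (-157/20000) (-2947/100000) (297/50000) ((-657/100000)*A.T+(-27/100000)*A.H+(-69/100000)*A.G) (9/1250) (-33/50000) (-107/6250) (23/100000) (1737/100000) (-1099/100000) ((-309/100000)*A.T+(53/20000)*A.H+(141/100000)*A.G) (339/100000) (1707/100000) (49/3125) 0 0 (-133/100000) ((-263/50000)*A.T+(-3/6250)*A.H+(-3/5000)*A.G) (181/50000) (109/50000) (-1269/100000) (1171/100000) 0 0 ((-39/20000)*A.T+(181/100000)*A.H+(11/20000)*A.G)) = nf9 A s := by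
    unfold nf9 Atoms.fTens Atoms.fIP Atoms.fPV
    ring
  rw [← e]
  exact mul_nonneg (by norm_num) (ht _ _ _ _ _ _ _ _ _ _ _ _ _ _ _ _ _ _ _ _ _ _ _ _ _ _ _ _)

noncomputable def nf10 (A : Atoms) (s : ℝ) : ℝ :=
  (-3533/2500000000)*A.Aqqq*A.G + (-41/500000000)*A.Aqqq*A.H + (-1/200000000)*A.Aqqq*A.T + (-35667/5000000000)*A.Aqqx*A.G + (66039/5000000000)*A.Aqqx*A.H + (1927/5000000000)*A.Aqqx*A.T + (36389/5000000000)*A.Aqxx*A.G + (15621/625000000)*A.Aqxx*A.H + (-1079/100000000)*A.Aqxx*A.T + (931/2500000000)*A.Axxx*A.G + (-9909/5000000000)*A.Axxx*A.H + (-17019/2500000000)*A.Axxx*A.T + (25007/5000000000)*A.G^3 + (24897/1250000000)*A.G^2*A.H + (-1643259/100000000000)*A.G^2*A.T + (538469/20000000000)*A.G*A.H^2 + (-3007167/50000000000)*A.G*A.H*A.T + (4733/625000000)*A.G*A.HH + (7201/1250000000)*A.G*A.HM + (-199/250000000)*A.G*A.HN + (2257/2000000000)*A.G*A.MM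 + (449/5000000000)*A.G*A.MN + (11917/10000000000)*A.G*A.NN + (2790933/100000000000)*A.G*A.T^2 + (-25571/5000000000)*A.G*A.pqq + (-3091/5000000000)*A.G*A.pqx + (1141/125000000)*A.G*A.pxx + (402577/10000000000)*A.H^3 + (-579821/20000000000)*A.H^2*A.T + (627/1250000000)*A.H*A.HH + (91/5000000000)*A.H*A.HM + (42431/5000000000)*A.H*A.HN + (-433/5000000000)*A.H*A.MM + (8173/2500000000)*A.H*A.MN + (431/1000000000)*A.H*A.NN + (-12481/25000000000)*A.H*A.T^2 + (419/2500000000)*A.H*A.pqq + (118659/5000000000)*A.H*A.pqx + (86193/5000000000)*A.H*A.pxx + (221/10000000000)*A.HH*A.T + (-51/5000000000)*A.HM*A.T + (1837/5000000000)*A.HN*A.T + (17/10000000000)*A.MM*A.T + (-639/5000000000)*A.MN*A.T + (24113/10000000000)*A.NN*A.T + (-3/12500000000)*A.T^3 + (79/5000000000)*A.T*A.pqq + (-77/5000000000)*A.T*A.pqx + (-39591/2500000000)*A.T*A.pxx + (7/500000000)*A.b11 + (-57/312500000)*A.b12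 + (-1073/156250000)*A.b22 + (-3/2500000000)*A.bc11 + (453/2500000000)*A.bc12 + (-4101/625000000)*A.bc13 + (-21/1250000000)*A.bc21 + (-7/1562500)*A.bc22 + (101/31250000)*A.bc23 + (-1/1250000000)*A.c11 + (299/2500000000)*A.c12 + (-5337/2500000000)*A.c13 + (-2831/1250000000)*A.c22 + (10153/2500000000)*A.c23 + (2277/2500000000)*A.c33

lemma chunk10 (A : Atoms) (s : ℝ) (ht : ∀ a1 a2 a3 a4 a5 a6 a7 b1 b2 b3 b4 b5 b6 b7 c1 c2 c3 c4 c5 c6 c7 d1 d2 d3 d4 d5 d6 d7 : ℝ,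
      0 ≤ A.fTens a1 a2 a3 a4 a5 a6 a7 b1 b2 b3 b4 b5 b6 b7 c1 c2 c3 c4 c5 c6 c7 d1 d2 d3 d4 d5 d6 d7)
    (hv : ∀ z1 z2 z3 z4 z5 z6 z7 : ℝ, 0 ≤ A.fPV z1 z2 z3 z4 z5 z6 z7 z1 z2 z3 z4 z5 z6 z7) :
    0 ≤ nf10 A s := by
  have e : 1 * (A.fTens (1/20000) (1/100000) (-47/100000) (1/20000) (31/100000) (33/20000) ((1/100000)*A.T+(161/100000)*A.H+(-21/10000)*A.G) (-37/25000) (-41/100000) (99/100000) (43/50000) (33/100000) (51/100000) ((-29/12500)*A.T+(419/100000)*A.H+(11/10000)*A.G) (7/50000) (-1/25000) (37/25000) 0 0 (-227/100000) ((-3/50000)*A.T+(-323/100000)*A.H+(177/100000)*A.G) (29/12500) (49/50000) (23/50000) (-31/50000) 0 0 ((157/100000)*A.T+(-207/50000)*A.H+(-107/100000)*A.G)) = nf10 A s := by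
    unfold nf10 Atoms.fTens Atoms.fIP Atoms.fPV
    ring
  rw [← e]
  exact mul_nonneg (by norm_num) (ht _ _ _ _ _ _ _ _ _ _ _ _ _ _ _ _ _ _ _ _ _ _ _ _ _ _ _ _)

noncomputable def nf11 (A : Atoms) (s : ℝ) : ℝ :=
  (-1275636131/5000000000)*A.Aqqq*A.G + (2419971037/5000000000)*A.Aqqq*A.H + (-528541337/2500000000)*A.Aqqq*A.T + (3413848027/10000000000)*A.Aqqx*A.G + (-6718580949/10000000000)*A.Aqqx*A.H + (1231472719/5000000000)*A.Aqqx*A.T + (-1100940869/10000000000)*A.Aqxx*A.G + (670981689/2500000000)*A.Aqxx*A.H + (-570422839/10000000000)*A.Aqxx*A.T + (1554747/200000000)*A.Axxx*A.G + (-347864441/10000000000)*A.Axxx*A.H + (-45557527/10000000000)*A.Axxx*A.T + (3055611/10000000000)*A.G^3 + (-51944671/5000000000)*A.G^2*A.H + (2663672513/100000000000)*A.G^2*A.T + (279914623/4000000000)*A.G*A.H^2 + (-2010305273/12500000000)*A.G*A.H*A.T + (1287795389/5000000000)*A.G*A.HH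 + (-1068784969/2500000000)*A.G*A.HM + (183496563/1250000000)*A.G*A.HN + (177446789/1000000000)*A.G*A.MM + (-19054839/156250000)*A.G*A.MN + (104999913/5000000000)*A.G*A.NN + (3585079133/50000000000)*A.G*A.T^2 + (77416657/250000000)*A.G*A.pqq + (-3071562839/10000000000)*A.G*A.pqx + (136147237/5000000000)*A.G*A.pxx + (-113196679/1250000000)*A.H^3 + (11444265041/50000000000)*A.H^2*A.T + (-348585367/1250000000)*A.H*A.HH + (2861268797/5000000000)*A.H*A.HM + (-198587261/1250000000)*A.H*A.HN + (-1413552583/5000000000)*A.H*A.MM + (813616387/5000000000)*A.H*A.MN + (-28109241/1250000000)*A.H*A.NN + (-294214431/1562500000)*A.H*A.T^2 + (-2521166119/5000000000)*A.H*A.pqq + (5602087561/10000000000)*A.H*A.pqx + (-1228193453/10000000000)*A.H*A.pxx + (379601329/5000000000)*A.HH*A.T + (-923151149/5000000000)*A.HM*A.T + (53383493/1250000000)*A.HN*A.T + (225212677/2000000000)*A.MM*A.T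 + (-52215877/1000000000)*A.MN*A.T + (6063577/1000000000)*A.NN*A.T + (2447130931/50000000000)*A.T^3 + (13518187/78125000)*A.T*A.pqq + (-778288517/5000000000)*A.T*A.pqx + (-163768947/10000000000)*A.T*A.pxx + (371179921/5000000000)*A.b11 + (-346395883/1250000000)*A.b12 + (1285518411/5000000000)*A.b22 + (-913560101/5000000000)*A.bc11 + (1910889579/5000000000)*A.bc12 + (-197454339/2500000000)*A.bc13 + (71719807/312500000)*A.bc21 + (-12616483/25000000)*A.bc22 + (182485047/1250000000)*A.bc23 + (140075227/1250000000)*A.c11 + (-417033777/1250000000)*A.c12 + (32755723/500000000)*A.c13 + (279063167/1000000000)*A.c22 + (-179230233/1250000000)*A.c23 + (20640501/1000000000)*A.c33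

lemma chunk11 (A : Atoms) (s : ℝ) (ht : ∀ a1 a2 a3 a4 a5 a6 a7 b1 b2 b3 b4 b5 b6 b7 c1 c2 c3 c4 c5 c6 c7 d1 d2 d3 d4 d5 d6 d7 : ℝ,
      0 ≤ A.fTens a1 a2 a3 a4 a5 a6 a7 b1 b2 b3 b4 b5 b6 b7 c1 c2 c3 c4 c5 c6 c7 d1 d2 d3 d4 d5 d6 d7)
    (hv : ∀ z1 z2 z3 z4 z5 z6 z7 : ℝ, 0 ≤ A.fPV z1 z2 z3 z4 z5 z6 z7 z1 z2 z3 z4 z5 z6 z7) :
    0 ≤ nf11 A s := by
  have e : 1 * (A.fTens (-21427/100000) (6217/25000) (-5549/100000) (-23457/100000) (6103/50000) (-3991/50000) ((1619/100000)*A.T+(-147/25000)*A.H+(141/25000)*A.G) (36937/100000) (-31103/100000) (11151/100000) (2773/12500) (-27439/100000) (1219/50000) ((-2857/50000)*A.T+(131/10000)*A.H+(-327/50000)*A.G) (-17323/100000) (22531/100000) (-5463/100000) 0 0 (287/6250) ((147/20000)*A.T+(-27/50000)*A.H+(627/100000)*A.G) (34803/100000) (-28409/100000) (1851/20000) (3877/25000) 0 0 ((-359/6250)*A.T+(8/625)*A.H+(-433/100000)*A.G))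 = nf11 A s := by
    unfold nf11 Atoms.fTens Atoms.fIP Atoms.fPV
    ring
  rw [← e]
  exact mul_nonneg (by norm_num) (ht _ _ _ _ _ _ _ _ _ _ _ _ _ _ _ _ _ _ _ _ _ _ _ _ _ _ _ _)

noncomputable def nf12 (A : Atoms) (s : ℝ) : ℝ :=
  (3902491/312500000)*A.Aqqq*A.G + (-15130721/2500000000)*A.Aqqq*A.H + (88976943/5000000000)*A.Aqqq*A.T + (-23494529/5000000000)*A.Aqqx*A.G + (-136295537/10000000000)*A.Aqqx*A.H + (-89765923/2500000000)*A.Aqqx*A.T + (4383003/2500000000)*A.Aqxx*A.G + (30293867/2500000000)*A.Aqxx*A.H + (451970727/10000000000)*A.Aqxx*A.T + (11522933/1000000000)*A.Axxx*A.G + (7427977/5000000000)*A.Axxx*A.H + (-117089551/2500000000)*A.Axxx*A.T + (6449293/2500000000)*A.G^3 + (-1620733/200000000)*A.G^2*A.H + (512530167/100000000000)*A.G^2*A.T + (-13789527/800000000)*A.G*A.H^2 + (1961632533/50000000000)*A.G*A.H*A.T + (165146173/5000000000)*A.G*A.HH +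 (80658857/1250000000)*A.G*A.HM + (-286862027/5000000000)*A.G*A.HN + (39645113/1250000000)*A.G*A.MM + (-139577613/2500000000)*A.G*A.MN + (9987973/400000000)*A.G*A.NN + (-371332217/6250000000)*A.G*A.T^2 + (2126503/156250000)*A.G*A.pqq + (7057563/2000000000)*A.G*A.pqx + (-8188103/625000000)*A.G*A.pxx + (-7632097/2000000000)*A.H^3 + (755387139/50000000000)*A.H^2*A.T + (-258584181/5000000000)*A.H*A.HH + (-465653131/5000000000)*A.H*A.HM + (107099/1250000000)*A.H*A.HN + (-103028367/2500000000)*A.H*A.MM + (-16823407/2500000000)*A.H*A.MN + (194244787/5000000000)*A.H*A.NN + (1311858263/25000000000)*A.H*A.T^2 + (-6868917/1000000000)*A.H*A.pqq + (-2813381/500000000)*A.H*A.pqx + (-15965933/10000000000)*A.H*A.pxx + (40695889/2000000000)*A.HH*A.T + (20650503/625000000)*A.HM*A.T + (174589441/5000000000)*A.HN*A.T + (135807093/10000000000)*A.MM*A.T + (14327229/500000000)*A.MN*A.T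 + (151184657/10000000000)*A.NN*A.T + (-590370289/25000000000)*A.T^3 + (110658933/5000000000)*A.T*A.pqq + (-305216171/5000000000)*A.T*A.pqx + (250773031/5000000000)*A.T*A.pxx + (-50807111/2500000000)*A.b11 + (259183377/5000000000)*A.b12 + (-32886193/1000000000)*A.b22 + (-165917949/5000000000)*A.bc11 + (34711379/5000000000)*A.bc12 + (221920431/5000000000)*A.bc13 + (126806723/2500000000)*A.bc21 + (-137125647/1250000000)*A.bc22 + (284358799/5000000000)*A.bc23 + (-33444117/2500000000)*A.c11 + (65727069/5000000000)*A.c12 + (109408549/2500000000)*A.c13 + (-414228427/5000000000)*A.c22 + (22308121/1250000000)*A.c23 + (-61329669/2500000000)*A.c33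

lemma chunk12 (A : Atoms) (s : ℝ) (ht : ∀ a1 a2 a3 a4 a5 a6 a7 b1 b2 b3 b4 b5 b6 b7 c1 c2 c3 c4 c5 c6 c7 d1 d2 d3 d4 d5 d6 d7 : ℝ,
      0 ≤ A.fTens a1 a2 a3 a4 a5 a6 a7 b1 b2 b3 b4 b5 b6 b7 c1 c2 c3 c4 c5 c6 c7 d1 d2 d3 d4 d5 d6 d7)
    (hv : ∀ z1 z2 z3 z4 z5 z6 z7 : ℝ, 0 ≤ A.fPV z1 z2 z3 z4 z5 z6 z7 z1 z2 z3 z4 z5 z6 z7) :
    0 ≤ nf12 A s := by
  have e : 1 * (A.fTens (9833/100000) (4461/50000) (9289/100000) (-263/50000) (-427/50000) (-571/100000) ((-1111/20000)*A.T+(-271/100000)*A.H+(-9/1000)*A.G) (-2687/20000) (-1217/10000) (12171/100000) (-659/25000) (-219/20000) (487/50000) ((5169/50000)*A.T+(-481/50000)*A.H+(-537/20000)*A.G) (-5167/50000) (-7497/100000) (-1007/12500) 0 0 (119/12500) ((5389/100000)*A.T+(147/100000)*A.H+(771/100000)*A.G) (12239/100000) (6501/50000) (-5039/50000) (857/50000) 0 0 ((-9977/100000)*A.T+(621/100000)*A.H+(2343/100000)*A.G))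 = nf12 A s := by
    unfold nf12 Atoms.fTens Atoms.fIP Atoms.fPV
    ring
  rw [← e]
  exact mul_nonneg (by norm_num) (ht _ _ _ _ _ _ _ _ _ _ _ _ _ _ _ _ _ _ _ _ _ _ _ _ _ _ _ _)

noncomputable def nf13 (A : Atoms) (s : ℝ) : ℝ :=
  (864087/200000000)*A.Aqqq*A.G + (-112986653/10000000000)*A.Aqqq*A.H + (-5637913/312500000)*A.Aqqq*A.T + (17586227/2000000000)*A.Aqqx*A.G + (51671257/1000000000)*A.Aqqx*A.H + (463125153/10000000000)*A.Aqqx*A.T + (-278264659/10000000000)*A.Aqxx*A.G + (-227231767/5000000000)*A.Aqxx*A.H + (-77569599/5000000000)*A.Aqxx*A.T + (4878419/500000000)*A.Axxx*A.G + (12588069/2000000000)*A.Axxx*A.H + (-33268843/10000000000)*A.Axxx*A.T + (2188249/2000000000)*A.G^3 + (-36146939/5000000000)*A.G^2*A.H + (417389831/100000000000)*A.G^2*A.T + (-67509043/20000000000)*A.G*A.H^2 + (205405079/50000000000)*A.G*A.H*A.T + (2320273/500000000)*A.G*A.HH +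 (-4623579/500000000)*A.G*A.HM + (7891233/625000000)*A.G*A.HN + (13403017/2000000000)*A.G*A.MM + (-13619069/1250000000)*A.G*A.MN + (89268269/10000000000)*A.G*A.NN + (321657791/100000000000)*A.G*A.T^2 + (-2727111/625000000)*A.G*A.pqq + (-41284507/2500000000)*A.G*A.pqx + (1764671/250000000)*A.G*A.pxx + (151539753/10000000000)*A.H^3 + (-1148997413/100000000000)*A.H^2*A.T + (908163/50000000)*A.H*A.HH + (-73580001/2500000000)*A.H*A.HM + (46146711/1250000000)*A.H*A.HN + (11094671/625000000)*A.H*A.MM + (-62249901/2500000000)*A.H*A.MN + (83215031/5000000000)*A.H*A.NN + (-434698157/25000000000)*A.H*A.T^2 + (57707487/5000000000)*A.H*A.pqq + (-208855007/5000000000)*A.H*A.pqx + (33681889/2500000000)*A.H*A.pxx + (187589/10000000)*A.HH*A.T + (-12671311/500000000)*A.HM*A.T + (6093091/250000000)*A.HN*A.T + (24837881/2000000000)*A.MM*A.T + (-67461357/5000000000)*A.MN*A.T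 + (42440369/5000000000)*A.NN*A.T + (4032291/2000000000)*A.T^3 + (1754889/62500000)*A.T*A.pqq + (-166529833/5000000000)*A.T*A.pqx + (-28998541/5000000000)*A.T*A.pxx + (920647/50000000)*A.b11 + (4661529/250000000)*A.b12 + (2795041/625000000)*A.b22 + (-2812853/100000000)*A.bc11 + (1040547/100000000)*A.bc12 + (30599563/2500000000)*A.bc13 + (-9044747/500000000)*A.bc21 + (45790243/2500000000)*A.bc22 + (32092569/2500000000)*A.bc23 + (17026071/2500000000)*A.c11 + (-35338199/2500000000)*A.c12 + (-70323809/5000000000)*A.c13 + (-59728119/5000000000)*A.c22 + (9377151/2500000000)*A.c23 + (886073/100000000)*A.c33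

lemma chunk13 (A : Atoms) (s : ℝ) (ht : ∀ a1 a2 a3 a4 a5 a6 a7 b1 b2 b3 b4 b5 b6 b7 c1 c2 c3 c4 c5 c6 c7 d1 d2 d3 d4 d5 d6 d7 : ℝ,
      0 ≤ A.fTens a1 a2 a3 a4 a5 a6 a7 b1 b2 b3 b4 b5 b6 b7 c1 c2 c3 c4 c5 c6 c7 d1 d2 d3 d4 d5 d6 d7)
    (hv : ∀ z1 z2 z3 z4 z5 z6 z7 : ℝ, 0 ≤ A.fPV z1 z2 z3 z4 z5 z6 z7 z1 z2 z3 z4 z5 z6 z7) :
    0 ≤ nf13 A s := by
  have e : 1 * (A.fTens (871/10000) (-5339/50000) (3813/100000) (8907/100000) (-12143/100000) (-64/3125) ((-523/100000)*A.T+(-29/10000)*A.H+(-73/25000)*A.G) (2711/50000) (-8173/100000) (3131/50000) (-41/2500) (-10701/100000) (4439/100000) ((391/50000)*A.T+(-3/2500)*A.H+(-969/100000)*A.G) (1057/10000) (-3189/100000) (8387/100000) 0 0 (119/2500) ((-2963/100000)*A.T+(123/100000)*A.H+(-127/20000)*A.G) (1031/25000) (-233/50000) (283/4000) (5027/100000) 0 0 ((-751/50000)*A.T+(-193/25000)*A.H+(-569/100000)*A.G)) =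 nf13 A s := by
    unfold nf13 Atoms.fTens Atoms.fIP Atoms.fPV
    ring
  rw [← e]
  exact mul_nonneg (by norm_num) (ht _ _ _ _ _ _ _ _ _ _ _ _ _ _ _ _ _ _ _ _ _ _ _ _ _ _ _ _)

noncomputable def nf14 (A : Atoms) (s : ℝ) : ℝ :=
  (105947/10000000000)*A.Aqqq*A.G + (-1037/40000000)*A.Aqqq*A.H + (-12081/2500000000)*A.Aqqq*A.T + (5897/625000000)*A.Aqqx*A.G + (-44609/2500000000)*A.Aqqx*A.H + (20527/5000000000)*A.Aqqx*A.T + (86681/10000000000)*A.Aqxx*A.G + (1061/2000000000)*A.Aqxx*A.H + (29267/2000000000)*A.Aqxx*A.T + (36023/5000000000)*A.Axxx*A.G + (-50309/2000000000)*A.Axxx*A.H + (55513/10000000000)*A.Axxx*A.T + (3471/2000000000)*A.G^3 + (-37333/5000000000)*A.G^2*A.H + (-289591/100000000000)*A.G^2*A.T + (79347/4000000000)*A.G*A.H^2 + (206211/10000000000)*A.G*A.H*A.T + (877/1250000000)*A.G*A.HH + (-1597/500000000)*A.G*A.HM + (-759/250000000)*A.G*A.HN + (36661/10000000000)*A.G*A.MM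 + (34859/5000000000)*A.G*A.MN + (16573/5000000000)*A.G*A.NN + (850673/100000000000)*A.G*A.T^2 + (-45017/5000000000)*A.G*A.pqq + (1849/1000000000)*A.G*A.pqx + (-8437/2500000000)*A.G*A.pxx + (-70007/2000000000)*A.H^3 + (196753/100000000000)*A.H^2*A.T + (12689/2500000000)*A.H*A.HH + (-3899/500000000)*A.H*A.HM + (-28293/5000000000)*A.H*A.HN + (-3921/500000000)*A.H*A.MM + (-95117/5000000000)*A.H*A.MN + (-55013/5000000000)*A.H*A.NN + (32739/5000000000)*A.H*A.T^2 + (-84227/2500000000)*A.H*A.pqq + (32717/5000000000)*A.H*A.pqx + (-44767/5000000000)*A.H*A.pxx + (19277/2000000000)*A.HH*A.T + (33371/2500000000)*A.HM*A.T + (5757/312500000)*A.HN*A.T + (5777/1250000000)*A.MM*A.T + (31911/2500000000)*A.MN*A.T + (92233/10000000000)*A.NN*A.T + (-299789/50000000000)*A.T^3 + (-3489/500000000)*A.T*A.pqq + (5089/1250000000)*A.T*A.pqx + (36711/2500000000)*A.T*A.pxx + (6021/625000000)*A.b11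 + (12773/2500000000)*A.b12 + (161/250000000)*A.b22 + (33357/2500000000)*A.bc11 + (110387/5000000000)*A.bc12 + (11699/2500000000)*A.bc13 + (-57127/5000000000)*A.bc21 + (-68337/5000000000)*A.bc22 + (-3339/1250000000)*A.bc23 + (231/50000000)*A.c11 + (6159/1250000000)*A.c12 + (-25581/2500000000)*A.c13 + (2017/500000000)*A.c22 + (-9849/2500000000)*A.c23 + (2737/1000000000)*A.c33

lemma chunk14 (A : Atoms) (s : ℝ) (ht : ∀ a1 a2 a3 a4 a5 a6 a7 b1 b2 b3 b4 b5 b6 b7 c1 c2 c3 c4 c5 c6 c7 d1 d2 d3 d4 d5 d6 d7 : ℝ,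
      0 ≤ A.fTens a1 a2 a3 a4 a5 a6 a7 b1 b2 b3 b4 b5 b6 b7 c1 c2 c3 c4 c5 c6 c7 d1 d2 d3 d4 d5 d6 d7)
    (hv : ∀ z1 z2 z3 z4 z5 z6 z7 : ℝ, 0 ≤ A.fPV z1 z2 z3 z4 z5 z6 z7 z1 z2 z3 z4 z5 z6 z7) :
    0 ≤ nf14 A s := by
  have e : 1 * (A.fTens (-223/100000) (-77/50000) (-21/12500) (-19/50000) (-443/100000) (-67/50000) ((119/100000)*A.T+(51/20000)*A.H+(31/50000)*A.G) (-23/50000) (9/10000) (17/20000) (137/50000) (169/100000) (81/50000) ((-73/50000)*A.T+(-71/50000)*A.H+(-9/100000)*A.G) (-27/12500) (-3/2000) (-253/100000) 0 0 (-223/100000) ((29/25000)*A.T+(7/25000)*A.H+(3/25000)*A.G) (-7/10000) (169/100000) (161/100000) (91/20000) 0 0 ((-37/50000)*A.T+(-3/25000)*A.H+(-7/25000)*A.G)) = nf14 A s := by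
    unfold nf14 Atoms.fTens Atoms.fIP Atoms.fPV
    ring
  rw [← e]
  exact mul_nonneg (by norm_num) (ht _ _ _ _ _ _ _ _ _ _ _ _ _ _ _ _ _ _ _ _ _ _ _ _ _ _ _ _)

noncomputable def nf15 (A : Atoms) (s : ℝ) : ℝ :=
  (1883/5000000000)*A.Aqqq*A.G + (-829/1000000000)*A.Aqqq*A.H + (-9/2500000000)*A.Aqqq*A.T + (-1607/10000000000)*A.Aqqx*A.G + (-30291/2000000000)*A.Aqqx*A.H + (-1351/625000000)*A.Aqqx*A.T + (64477/5000000000)*A.Aqxx*A.G + (8037/1250000000)*A.Aqxx*A.H + (-113829/10000000000)*A.Aqxx*A.T + (-18991/2500000000)*A.Axxx*A.G + (-13363/5000000000)*A.Axxx*A.H + (32503/2000000000)*A.Axxx*A.T + (43871/2000000000)*A.G^3 + (21211/1250000000)*A.G^2*A.H + (-288311/4000000000)*A.G^2*A.T + (-1029613/20000000000)*A.G*A.H^2 + (132619/10000000000)*A.G*A.H*A.T + (9797/2500000000)*A.G*A.HH + (13089/2500000000)*A.G*A.HM + (-6373/1250000000)*A.G*A.HN + (17693/10000000000)*A.G*A.MM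 + (-7241/2500000000)*A.G*A.MN + (481/100000000)*A.G*A.NN + (3589411/50000000000)*A.G*A.T^2 + (-73/125000000)*A.G*A.pqq + (-1701/250000000)*A.G*A.pqx + (34331/2500000000)*A.G*A.pxx + (-805327/10000000000)*A.H^3 + (1740791/12500000000)*A.H^2*A.T + (-231/2500000000)*A.H*A.HH + (3903/5000000000)*A.H*A.HM + (2539/1250000000)*A.H*A.HN + (491/1000000000)*A.H*A.MM + (331/5000000000)*A.H*A.MN + (2501/2500000000)*A.H*A.NN + (48927/25000000000)*A.H*A.T^2 + (-613/1000000000)*A.H*A.pqq + (-120563/10000000000)*A.H*A.pqx + (40299/5000000000)*A.H*A.pxx + (169/5000000000)*A.HH*A.T + (-7/125000000)*A.HM*A.T + (439/2500000000)*A.HN*A.T + (281/5000000000)*A.MM*A.T + (-1/1250000000)*A.MN*A.T + (1933/5000000000)*A.NN*A.T + (-37/6250000000)*A.T^3 + (11/500000000)*A.T*A.pqq + (2769/2500000000)*A.T*A.pqx + (-191017/10000000000)*A.T*A.pxx + (119/5000000000)*A.b11 + (1119/2500000000)*A.b12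 + (-2107/625000000)*A.b22 + (1/125000000)*A.bc11 + (-111/156250000)*A.bc12 + (-201/2500000000)*A.bc13 + (1703/5000000000)*A.bc21 + (-9977/2500000000)*A.bc22 + (4981/625000000)*A.bc23 + (-231/5000000000)*A.c11 + (-3981/5000000000)*A.c12 + (623/5000000000)*A.c13 + (-1969/5000000000)*A.c22 + (19581/2500000000)*A.c23 + (-327/312500000)*A.c33

lemma chunk15 (A : Atoms) (s : ℝ) (ht : ∀ a1 a2 a3 a4 a5 a6 a7 b1 b2 b3 b4 b5 b6 b7 c1 c2 c3 c4 c5 c6 c7 d1 d2 d3 d4 d5 d6 d7 : ℝ,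
      0 ≤ A.fTens a1 a2 a3 a4 a5 a6 a7 b1 b2 b3 b4 b5 b6 b7 c1 c2 c3 c4 c5 c6 c7 d1 d2 d3 d4 d5 d6 d7)
    (hv : ∀ z1 z2 z3 z4 z5 z6 z7 : ℝ, 0 ≤ A.fPV z1 z2 z3 z4 z5 z6 z7 z1 z2 z3 z4 z5 z6 z7) :
    0 ≤ nf15 A s := by
  have e : 1 * (A.fTens (-7/100000) (-11/100000) (-11/20000) (-1/12500) (-33/50000) (-7/10000) ((1/25000)*A.T+(109/100000)*A.H+(41/50000)*A.G) (-43/25000) (-61/50000) (3/12500) (-21/50000) (-97/100000) (-11/12500) ((-341/100000)*A.T+(-21/20000)*A.H+(227/100000)*A.G) (-17/100000) (21/100000) (-29/100000) 0 0 (229/100000) ((1/50000)*A.T+(511/100000)*A.H+(1/3125)*A.G) (49/50000) (53/100000) (-109/50000) (-27/50000) 0 0 ((173/50000)*A.T+(-109/100000)*A.H+(-29/12500)*A.G)) = nf15 A s := by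
    unfold nf15 Atoms.fTens Atoms.fIP Atoms.fPV
    ring
  rw [← e]
  exact mul_nonneg (by norm_num) (ht _ _ _ _ _ _ _ _ _ _ _ _ _ _ _ _ _ _ _ _ _ _ _ _ _ _ _ _)

noncomputable def nf16 (A : Atoms) (s : ℝ) : ℝ :=
  (-18630987/20000000)*A.Aqqq*A.G + (2565957/2500000)*A.Aqqq*A.H + (-51290547/40000000)*A.Aqqq*A.T + (4177651511/5000000000)*A.Aqqx*A.G + (-4766350493/5000000000)*A.Aqqx*A.H + (761327051/625000000)*A.Aqqx*A.T + (5410431/10000000)*A.Aqqx*s + (-1658562523/2500000000)*A.Aqxx*A.G + (1857543151/2500000000)*A.Aqxx*A.H + (-2345716383/2500000000)*A.Aqxx*A.T + (-124726017/625000000)*A.Aqxx*s + (127261269/500000000)*A.Axxx*A.G + (-148671243/500000000)*A.Axxx*A.H + (96385977/250000000)*A.Axxx*A.T + (34991541/125000000)*A.Axxx*s + (345253561/10000000000)*A.G^3 + (-1057128833/5000000000)*A.G^2*A.H + (285502031/1250000000)*A.G^2*A.T + (94930329/1250000000)*A.G^2*s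 + (3439455269/10000000000)*A.G*A.H^2 + (-3865334799/5000000000)*A.G*A.H*A.T + (-290666337/1250000000)*A.G*A.H*s + (525065549/1250000000)*A.G*A.T^2 + (71898957/625000000)*A.G*A.T*s + (3754539723/2500000000)*A.G*A.pqq + (-4645957403/5000000000)*A.G*A.pqx + (179696851/2500000000)*A.G*A.pxx + (26101881/625000000)*A.G*s^2 + (-52596061/312500000)*A.H^3 + (2893978171/5000000000)*A.H^2*A.T + (12379107/78125000)*A.H^2*s + (-1620422881/2500000000)*A.H*A.T^2 + (-247444197/1250000000)*A.H*A.T*s + (-517094853/312500000)*A.H*A.pqq + (5382363233/5000000000)*A.H*A.pqx + (-209928397/2500000000)*A.H*A.pxx + (2345755489/10000000000)*A.T^3 + (10336134963/5000000000)*A.T*A.pqq + (-1735864273/1250000000)*A.T*A.pqx + (136099983/1250000000)*A.T*A.pxx + (45544254921/10000000000)*A.b11 + (-2063897781/2500000000)*A.b12 + (93528241/2500000000)*A.b22 + (-226002249/40000000)*A.bc11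 + (5210002743/2500000000)*A.bc12 + (-1461651939/500000000)*A.bc13 + (10241589/20000000)*A.bc21 + (-236098123/1250000000)*A.bc22 + (66236679/250000000)*A.bc23 + (1121481/640000)*A.c11 + (-25853367/20000000)*A.c12 + (7253091/4000000)*A.c13 + (595994569/2500000000)*A.c22 + (-167204637/250000000)*A.c23 + (46908801/100000000)*A.c33 + (-1090316799/1250000000)*A.pqx*s + (49409139/625000000)*A.pxx*s

lemma chunk16 (A : Atoms) (s : ℝ) (ht : ∀ a1 a2 a3 a4 a5 a6 a7 b1 b2 b3 b4 b5 b6 b7 c1 c2 c3 c4 c5 c6 c7 d1 d2 d3 d4 d5 d6 d7 : ℝ,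
      0 ≤ A.fTens a1 a2 a3 a4 a5 a6 a7 b1 b2 b3 b4 b5 b6 b7 c1 c2 c3 c4 c5 c6 c7 d1 d2 d3 d4 d5 d6 d7)
    (hv : ∀ z1 z2 z3 z4 z5 z6 z7 : ℝ, 0 ≤ A.fPV z1 z2 z3 z4 z5 z6 z7 z1 z2 z3 z4 z5 z6 z7) :
    0 ≤ nf16 A s := by
  have e : 1 * (A.fPV (213411/100000) (-9671/50000) (-1059/800) (24413/50000) (-6849/10000) ((48433/100000)*A.T+(-2423/6250)*A.H+(17593/50000)*A.G) ((-14073/50000)*A.T+(21707/100000)*A.H+(-18581/100000)*A.G+(-5109/25000)*s) (213411/100000) (-9671/50000) (-1059/800) (24413/50000) (-6849/10000) ((48433/100000)*A.T+(-2423/6250)*A.H+(17593/50000)*A.G) ((-14073/50000)*A.T+(21707/100000)*A.H+(-18581/100000)*A.G+(-5109/25000)*s)) = nf16 A s := by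
    unfold nf16 Atoms.fPV
    ring
  rw [← e]
  exact mul_nonneg (by norm_num) (hv _ _ _ _ _ _ _)

noncomputable def nf17 (A : Atoms) (s : ℝ) : ℝ :=
  (-59018823/5000000000)*A.Aqqq*A.G + (50140647/2500000000)*A.Aqqq*A.H + (-2516121/250000000)*A.Aqqq*A.T + (-87021281/2500000000)*A.Aqqx*A.G + (69073773/1250000000)*A.Aqqx*A.H + (-236115103/5000000000)*A.Aqqx*A.T + (1023669/5000000000)*A.Aqqx*s + (-390027/25000000)*A.Aqxx*A.G + (1284143/62500000)*A.Aqxx*A.H + (-5027723/125000000)*A.Aqxx*A.T + (39269/125000000)*A.Aqxx*s + (885689/62500000)*A.Axxx*A.G + (-649397/31250000)*A.Axxx*A.H + (3371627/125000000)*A.Axxx*A.T + (-21721/125000000)*A.Axxx*s + (19035769/2500000000)*A.G^3 + (-28913601/2500000000)*A.G^2*A.H + (327916829/10000000000)*A.G^2*A.T + (-466841/2500000000)*A.G^2*s + (-2766739/156250000)*A.G*A.H^2 + (-128832541/5000000000)*A.G*A.H*A.T + (709089/5000000000)*A.G*A.H*s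 + (340756761/10000000000)*A.G*A.T^2 + (-1777163/5000000000)*A.G*A.T*s + (-3781597/1000000000)*A.G*A.pqq + (-246071647/5000000000)*A.G*A.pqx + (-155117739/2500000000)*A.G*A.pxx + (11449/10000000000)*A.G*s^2 + (16765959/625000000)*A.H^3 + (-5827073/156250000)*A.H^2*A.T + (560787/2500000000)*A.H^2*s + (1611401/250000000)*A.H*A.T^2 + (-28141/250000000)*A.H*A.T*s + (3212733/500000000)*A.H*A.pqq + (205943143/2500000000)*A.H*A.pqx + (113734047/1250000000)*A.H*A.pxx + (69169/25000000)*A.T^3 + (-161219/50000000)*A.T*A.pqq + (-47583073/1000000000)*A.T*A.pqx + (-590499777/5000000000)*A.T*A.pxx + (375769/400000000)*A.b11 + (21793989/1000000000)*A.b12 + (1264015809/10000000000)*A.b22 + (5864571/1000000000)*A.bc11 + (224971/25000000)*A.bc12 + (-124439/25000000)*A.bc13 + (340135551/5000000000)*A.bc21 + (13047951/125000000)*A.bc22 + (-7217259/125000000)*A.bc23 + (91527489/10000000000)*A.c11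 + (3511089/125000000)*A.c12 + (-1942101/125000000)*A.c13 + (134689/6250000)*A.c22 + (-74501/3125000)*A.c23 + (41209/6250000)*A.c33 + (65591/1000000000)*A.pqx*s + (3804171/5000000000)*A.pxx*s

lemma chunk17 (A : Atoms) (s : ℝ) (ht : ∀ a1 a2 a3 a4 a5 a6 a7 b1 b2 b3 b4 b5 b6 b7 c1 c2 c3 c4 c5 c6 c7 d1 d2 d3 d4 d5 d6 d7 : ℝ,
      0 ≤ A.fTens a1 a2 a3 a4 a5 a6 a7 b1 b2 b3 b4 b5 b6 b7 c1 c2 c3 c4 c5 c6 c7 d1 d2 d3 d4 d5 d6 d7)
    (hv : ∀ z1 z2 z3 z4 z5 z6 z7 : ℝ, 0 ≤ A.fPV z1 z2 z3 z4 z5 z6 z7 z1 z2 z3 z4 z5 z6 z7) :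
    0 ≤ nf17 A s := by
  have e : 1 * (A.fPV (613/20000) (35553/100000) (9567/100000) (367/2500) (-203/2500) ((-263/5000)*A.T+(5241/50000)*A.H+(-6169/100000)*A.G) ((-16609/100000)*A.T+(3199/25000)*A.H+(-4363/50000)*A.G+(107/100000)*s) (613/20000) (35553/100000) (9567/100000) (367/2500) (-203/2500) ((-263/5000)*A.T+(5241/50000)*A.H+(-6169/100000)*A.G) ((-16609/100000)*A.T+(3199/25000)*A.H+(-4363/50000)*A.G+(107/100000)*s)) = nf17 A s := by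
    unfold nf17 Atoms.fPV
    ring
  rw [← e]
  exact mul_nonneg (by norm_num) (hv _ _ _ _ _ _ _)

noncomputable def nf18 (A : Atoms) (s : ℝ) : ℝ :=
  (-560183/312500000)*A.Aqqq*A.G + (-3254947/312500000)*A.Aqqq*A.H + (-1331617/156250000)*A.Aqqq*A.T + (4136511/2500000000)*A.Aqqx*A.G + (-1217201/100000000)*A.Aqqx*A.H + (-9739791/1250000000)*A.Aqqx*A.T + (-51499/625000000)*A.Aqqx*s + (237499/1250000000)*A.Aqxx*A.G + (-62950271/5000000000)*A.Aqxx*A.H + (-11173673/1250000000)*A.Aqxx*A.T + (-51793/1000000000)*A.Aqxx*s + (6044543/2500000000)*A.Axxx*A.G + (-4889721/1000000000)*A.Axxx*A.H + (-1322929/625000000)*A.Axxx*A.T + (-358141/5000000000)*A.Axxx*s + (683929/2500000000)*A.G^3 + (-3647897/2500000000)*A.G^2*A.H + (-913407/2500000000)*A.G^2*A.T + (-40523/2500000000)*A.G^2*s + (-2169187/10000000000)*A.G*A.H^2 + (230373/250000000)*A.G*A.H*A.T + (216139/5000000000)*A.G*A.H*s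 + (161271/125000000)*A.G*A.T^2 + (8869/625000000)*A.G*A.T*s + (-3572699/2500000000)*A.G*A.pqq + (1271561/500000000)*A.G*A.pqx + (-157957/312500000)*A.G*A.pxx + (2401/10000000000)*A.G*s^2 + (2071893/500000000)*A.H^3 + (4510419/500000000)*A.H^2*A.T + (151753/2500000000)*A.H^2*s + (4841207/625000000)*A.H*A.T^2 + (62083/1250000000)*A.H*A.T*s + (-20759191/2500000000)*A.H*A.pqq + (-12957103/5000000000)*A.H*A.pqx + (127779/125000000)*A.H*A.pxx + (1605289/625000000)*A.T^3 + (-8492701/1250000000)*A.T*A.pqq + (-49051/125000000)*A.T*A.pqx + (34571/78125000)*A.T*A.pxx + (44930209/10000000000)*A.b11 + (-1280273/625000000)*A.b12 + (36481/156250000)*A.b22 + (7044853/625000000)*A.bc11 + (7085071/1000000000)*A.bc12 + (48992227/5000000000)*A.bc13 + (-200741/78125000)*A.bc21 + (-201887/125000000)*A.bc22 + (-1396019/625000000)*A.bc23 + (1104601/156250000)*A.c11 + (1110907/125000000)*A.c12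 + (7681759/625000000)*A.c13 + (1117249/400000000)*A.c22 + (7725613/1000000000)*A.c23 + (53421481/10000000000)*A.c33 + (-328447/5000000000)*A.pqx*s + (9359/625000000)*A.pxx*s

lemma chunk18 (A : Atoms) (s : ℝ) (ht : ∀ a1 a2 a3 a4 a5 a6 a7 b1 b2 b3 b4 b5 b6 b7 c1 c2 c3 c4 c5 c6 c7 d1 d2 d3 d4 d5 d6 d7 : ℝ,
      0 ≤ A.fTens a1 a2 a3 a4 a5 a6 a7 b1 b2 b3 b4 b5 b6 b7 c1 c2 c3 c4 c5 c6 c7 d1 d2 d3 d4 d5 d6 d7)
    (hv : ∀ z1 z2 z3 z4 z5 z6 z7 : ℝ, 0 ≤ A.fPV z1 z2 z3 z4 z5 z6 z7 z1 z2 z3 z4 z5 z6 z7) :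
    0 ≤ nf18 A s := by
  have e : 1 * (A.fPV (6703/100000) (-191/12500) (1051/12500) (1057/20000) (7309/100000) ((-1267/25000)*A.T+(-3097/50000)*A.H+(-533/50000)*A.G) ((-181/12500)*A.T+(-669/20000)*A.H+(827/50000)*A.G+(-49/100000)*s) (6703/100000) (-191/12500) (1051/12500) (1057/20000) (7309/100000) ((-1267/25000)*A.T+(-3097/50000)*A.H+(-533/50000)*A.G) ((-181/12500)*A.T+(-669/20000)*A.H+(827/50000)*A.G+(-49/100000)*s)) = nf18 A s := by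
    unfold nf18 Atoms.fPV
    ring
  rw [← e]
  exact mul_nonneg (by norm_num) (hv _ _ _ _ _ _ _)

noncomputable def nf19 (A : Atoms) (s : ℝ) : ℝ :=
  (9423063/100000000)*A.Aqqq*A.G + (-6403787/78125000)*A.Aqqq*A.H + (-117873509/2500000000)*A.Aqqq*A.T + (932707463/5000000000)*A.Aqqx*A.G + (-164761581/2500000000)*A.Aqqx*A.H + (-521117409/5000000000)*A.Aqqx*A.T + (-30996277/5000000000)*A.Aqqx*s + (-1094915019/2500000000)*A.Aqxx*A.G + (813726991/1250000000)*A.Aqxx*A.H + (471602293/2500000000)*A.Aqxx*A.T + (-43425849/2500000000)*A.Aqxx*s + (454013803/2500000000)*A.Axxx*A.G + (-95949753/250000000)*A.Axxx*A.H + (-163397037/2500000000)*A.Axxx*A.T + (36319963/2500000000)*A.Axxx*s + (253223569/10000000000)*A.G^3 + (-42153537/250000000)*A.G^2*A.H + (96077499/5000000000)*A.G^2*A.T + (20257249/5000000000)*A.G^2*s + (742038283/2500000000)*A.G*A.H^2 + (65893463/2500000000)*A.G*A.H*A.T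 + (-3372177/250000000)*A.G*A.H*s + (-341894871/10000000000)*A.G*A.T^2 + (-7290471/5000000000)*A.G*A.T*s + (-6135111/50000000)*A.G*A.pqq + (-245664761/2500000000)*A.G*A.pqx + (409489229/2500000000)*A.G*A.pxx + (1620529/10000000000)*A.G*s^2 + (-884469/7812500)*A.H^3 + (-70086103/1250000000)*A.H^2*A.T + (334799/78125000)*A.H^2*s + (10751861/500000000)*A.H*A.T^2 + (6162593/2500000000)*A.H*A.T*s + (4169339/39062500)*A.H*A.pqq + (-49999267/1250000000)*A.H*A.pqx + (-86540079/250000000)*A.H*A.pxx + (23435281/2500000000)*A.T^3 + (76744373/1250000000)*A.T*A.pqq + (6334271/100000000)*A.T*A.pqx + (-147372891/2500000000)*A.T*A.pxx + (251317609/2500000000)*A.b11 + (407945249/1250000000)*A.b12 + (662187289/2500000000)*A.b22 + (-386004697/2500000000)*A.bc11 + (-540793389/1250000000)*A.bc12 + (452301943/1250000000)*A.bc13 + (-626572817/2500000000)*A.bc21 + (-877829829/1250000000)*A.bc22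 + (734188223/1250000000)*A.bc23 + (592873801/10000000000)*A.c11 + (830617437/2500000000)*A.c12 + (-694701319/2500000000)*A.c13 + (1163696769/2500000000)*A.c22 + (-973278003/1250000000)*A.c23 + (814017961/2500000000)*A.c33 + (20180869/2500000000)*A.pqx*s + (32758109/2500000000)*A.pxx*s

lemma chunk19 (A : Atoms) (s : ℝ) (ht : ∀ a1 a2 a3 a4 a5 a6 a7 b1 b2 b3 b4 b5 b6 b7 c1 c2 c3 c4 c5 c6 c7 d1 d2 d3 d4 d5 d6 d7 : ℝ,
      0 ≤ A.fTens a1 a2 a3 a4 a5 a6 a7 b1 b2 b3 b4 b5 b6 b7 c1 c2 c3 c4 c5 c6 c7 d1 d2 d3 d4 d5 d6 d7)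
    (hv : ∀ z1 z2 z3 z4 z5 z6 z7 : ℝ, 0 ≤ A.fPV z1 z2 z3 z4 z5 z6 z7 z1 z2 z3 z4 z5 z6 z7) :
    0 ≤ nf19 A s := by
  have e : 1 * (A.fPV (-15853/50000) (-25733/50000) (24349/100000) (34113/50000) (-28531/50000) ((-4841/50000)*A.T+(-526/3125)*A.H+(387/2000)*A.G) ((5727/100000)*A.T+(3363/10000)*A.H+(-15913/100000)*A.G+(-1273/100000)*s) (-15853/50000) (-25733/50000) (24349/100000) (34113/50000) (-28531/50000) ((-4841/50000)*A.T+(-526/3125)*A.H+(387/2000)*A.G) ((5727/100000)*A.T+(3363/10000)*A.H+(-15913/100000)*A.G+(-1273/100000)*s)) = nf19 A s := by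
    unfold nf19 Atoms.fPV
    ring
  rw [← e]
  exact mul_nonneg (by norm_num) (hv _ _ _ _ _ _ _)

noncomputable def nf20 (A : Atoms) (s : ℝ) : ℝ :=
  (18313211/625000000)*A.Aqqq*A.G + (2549407/312500000)*A.Aqqq*A.H + (-2932433/125000000)*A.Aqqq*A.T + (-216005769/5000000000)*A.Aqqx*A.G + (-35382701/2500000000)*A.Aqqx*A.H + (180729159/5000000000)*A.Aqqx*A.T + (36897/39062500)*A.Aqqx*s + (-11278289/625000000)*A.Aqxx*A.G + (-6456511/2500000000)*A.Aqxx*A.H + (15822419/1250000000)*A.Aqxx*A.T + (-339171/312500000)*A.Aqxx*s + (47172201/5000000000)*A.Axxx*A.G + (236487/50000000)*A.Axxx*A.H + (-45475059/5000000000)*A.Axxx*A.T + (-292131/312500000)*A.Axxx*s + (11498881/10000000000)*A.G^3 + (-29579693/5000000000)*A.G^2*A.H + (86468571/10000000000)*A.G^2*A.T + (-71211/312500000)*A.G^2*s + (-13057391/2500000000)*A.G*A.H^2 + (1360327/78125000)*A.G*A.H*A.T + (183183/312500000)*A.G*A.H*s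 + (-163273509/10000000000)*A.G*A.T^2 + (68649/312500000)*A.G*A.T*s + (93692347/5000000000)*A.G*A.pqq + (-6183893/1000000000)*A.G*A.pqx + (71211/2500000000)*A.G*A.pxx + (441/39062500)*A.G*s^2 + (-24667/25000000)*A.H^3 + (1394197/250000000)*A.H^2*A.T + (30471/156250000)*A.H^2*s + (-10299399/1000000000)*A.H*A.T^2 + (-35049/62500000)*A.H*A.T*s + (13043039/2500000000)*A.H*A.pqq + (-962699/312500000)*A.H*A.pqx + (357/25000000)*A.H*A.pxx + (2785561/400000000)*A.T^3 + (-15002641/1000000000)*A.T*A.pqq + (29735531/5000000000)*A.T*A.pqx + (-68649/2500000000)*A.T*A.pxx + (80802121/10000000000)*A.b11 + (-188769/2500000000)*A.b12 + (441/2500000000)*A.b22 + (15793673/625000000)*A.bc11 + (-145181339/5000000000)*A.bc12 + (-125045979/5000000000)*A.bc13 + (-36897/312500000)*A.bc21 + (339171/2500000000)*A.bc22 + (292131/2500000000)*A.bc23 + (3087049/156250000)*A.c11 + (-28377307/625000000)*A.c12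 + (-24441627/625000000)*A.c13 + (260854801/10000000000)*A.c22 + (224676561/5000000000)*A.c23 + (193515921/10000000000)*A.c33 + (188769/312500000)*A.pqx*s + (-441/156250000)*A.pxx*s

lemma chunk20 (A : Atoms) (s : ℝ) (ht : ∀ a1 a2 a3 a4 a5 a6 a7 b1 b2 b3 b4 b5 b6 b7 c1 c2 c3 c4 c5 c6 c7 d1 d2 d3 d4 d5 d6 d7 : ℝ,
      0 ≤ A.fTens a1 a2 a3 a4 a5 a6 a7 b1 b2 b3 b4 b5 b6 b7 c1 c2 c3 c4 c5 c6 c7 d1 d2 d3 d4 d5 d6 d7)
    (hv : ∀ z1 z2 z3 z4 z5 z6 z7 : ℝ, 0 ≤ A.fPV z1 z2 z3 z4 z5 z6 z7 z1 z2 z3 z4 z5 z6 z7) :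
    0 ≤ nf20 A s := by
  have e : 1 * (A.fPV (-8989/100000) (21/50000) (-1757/12500) (16151/100000) (13911/100000) ((1669/20000)*A.T+(-1451/50000)*A.H+(-10423/100000)*A.G) ((-3269/100000)*A.T+(17/1000)*A.H+(3391/100000)*A.G+(-21/6250)*s) (-8989/100000) (21/50000) (-1757/12500) (16151/100000) (13911/100000) ((1669/20000)*A.T+(-1451/50000)*A.H+(-10423/100000)*A.G) ((-3269/100000)*A.T+(17/1000)*A.H+(3391/100000)*A.G+(-21/6250)*s)) = nf20 A s := by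
    unfold nf20 Atoms.fPV
    ring
  rw [← e]
  exact mul_nonneg (by norm_num) (hv _ _ _ _ _ _ _)

noncomputable def nf21 (A : Atoms) (s : ℝ) : ℝ :=
  (2511/5000000000)*A.Aqqq*A.G + (1971/1250000000)*A.Aqqq*A.H + (-99/5000000000)*A.Aqqq*A.T + (19017/1000000000)*A.Aqqx*A.G + (290943/5000000000)*A.Aqqx*A.H + (-7203/5000000000)*A.Aqqx*A.T + (25401/5000000000)*A.Aqxx*A.G + (-206643/5000000000)*A.Aqxx*A.H + (-131107/5000000000)*A.Aqxx*A.T + (161/625000000)*A.Axxx*A.G + (-15387/5000000000)*A.Axxx*A.H + (-4439/2500000000)*A.Axxx*A.T + (49/156250000)*A.G^3 + (-273/62500000)*A.G^2*A.H + (34609/10000000000)*A.G^2*A.T + (172371/10000000000)*A.G*A.H^2 + (49291/625000000)*A.G*A.H*A.T + (71429/5000000000)*A.G*A.T^2 + (837/312500000)*A.G*A.pqq + (-37437/2500000000)*A.G*A.pqx + (-973/312500000)*A.G*A.pxx + (-146511/1250000000)*A.H^3 + (52911/5000000000)*A.H^2*A.T + (-539/500000000)*A.H*A.T^2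 + (657/78125000)*A.H*A.pqq + (-6891/125000000)*A.H*A.pqx + (92991/2500000000)*A.H*A.pxx + (121/10000000000)*A.T^3 + (-33/312500000)*A.T*A.pqq + (-1547/500000000)*A.T*A.pqx + (26827/1250000000)*A.T*A.pxx + (9/39062500)*A.b11 + (-417/156250000)*A.b12 + (19321/2500000000)*A.b22 + (27/312500000)*A.bc11 + (1017/312500000)*A.bc12 + (69/312500000)*A.bc13 + (-1251/2500000000)*A.bc21 + (-47121/2500000000)*A.bc22 + (-3197/2500000000)*A.bc23 + (81/10000000000)*A.c11 + (3051/5000000000)*A.c12 + (207/5000000000)*A.c13 + (114921/10000000000)*A.c22 + (7797/5000000000)*A.c23 + (529/10000000000)*A.c33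

lemma chunk21 (A : Atoms) (s : ℝ) (ht : ∀ a1 a2 a3 a4 a5 a6 a7 b1 b2 b3 b4 b5 b6 b7 c1 c2 c3 c4 c5 c6 c7 d1 d2 d3 d4 d5 d6 d7 : ℝ,
      0 ≤ A.fTens a1 a2 a3 a4 a5 a6 a7 b1 b2 b3 b4 b5 b6 b7 c1 c2 c3 c4 c5 c6 c7 d1 d2 d3 d4 d5 d6 d7)
    (hv : ∀ z1 z2 z3 z4 z5 z6 z7 : ℝ, 0 ≤ A.fPV z1 z2 z3 z4 z5 z6 z7 z1 z2 z3 z4 z5 z6 z7) :
    0 ≤ nf21 A s := by
  have e : 1 * (A.fPV (3/6250) (-139/50000) (9/100000) (339/100000) (23/100000) ((-11/100000)*A.T+(219/25000)*A.H+(279/100000)*A.G) ((-193/50000)*A.T+(-669/100000)*A.H+(7/12500)*A.G) (3/6250) (-139/50000) (9/100000) (339/100000) (23/100000) ((-11/100000)*A.T+(219/25000)*A.H+(279/100000)*A.G) ((-193/50000)*A.T+(-669/100000)*A.H+(7/12500)*A.G)) = nf21 A s := by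
    unfold nf21 Atoms.fPV
    ring
  rw [← e]
  exact mul_nonneg (by norm_num) (hv _ _ _ _ _ _ _)

noncomputable def nf22 (A : Atoms) (s : ℝ) : ℝ :=
  (329/2500000000)*A.Aqqq*A.G + (-1463/2500000000)*A.Aqqq*A.H + (-1677/2500000000)*A.Aqqx*A.G + (27267/2500000000)*A.Aqqx*A.H + (-2849/1250000000)*A.Aqqx*A.T + (-38411/1250000000)*A.Aqxx*A.G + (-4651/1250000000)*A.Aqxx*A.H + (12617/312500000)*A.Aqxx*A.T + (-4151/250000000)*A.Axxx*A.G + (-1351/250000000)*A.Axxx*A.H + (2849/125000000)*A.Axxx*A.T + (351649/10000000000)*A.G^3 + (1779/62500000)*A.G^2*A.H + (-192639/2000000000)*A.G^2*A.T + (-192483/10000000000)*A.G*A.H^2 + (-205183/5000000000)*A.G*A.H*A.T + (165649/2500000000)*A.G*A.T^2 + (-1081/1000000000)*A.G*A.pqq + (-75621/5000000000)*A.G*A.pqx + (-46847/2500000000)*A.G*A.pxx + (-40337/5000000000)*A.H^3 + (383933/10000000000)*A.H^2*A.T + (4807/1000000000)*A.H*A.pqq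 + (10827/5000000000)*A.H*A.pqx + (-15247/2500000000)*A.H*A.pxx + (9361/500000000)*A.T*A.pqx + (32153/1250000000)*A.T*A.pxx + (529/400000000)*A.b11 + (1817/500000000)*A.b12 + (6241/2500000000)*A.b22 + (-161/500000000)*A.bc11 + (713/125000000)*A.bc12 + (161/50000000)*A.bc13 + (-553/1250000000)*A.bc21 + (2449/312500000)*A.bc22 + (553/125000000)*A.bc23 + (49/2500000000)*A.c11 + (-217/312500000)*A.c12 + (-49/125000000)*A.c13 + (961/156250000)*A.c22 + (217/31250000)*A.c23 + (49/25000000)*A.c33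

lemma chunk22 (A : Atoms) (s : ℝ) (ht : ∀ a1 a2 a3 a4 a5 a6 a7 b1 b2 b3 b4 b5 b6 b7 c1 c2 c3 c4 c5 c6 c7 d1 d2 d3 d4 d5 d6 d7 : ℝ,
      0 ≤ A.fTens a1 a2 a3 a4 a5 a6 a7 b1 b2 b3 b4 b5 b6 b7 c1 c2 c3 c4 c5 c6 c7 d1 d2 d3 d4 d5 d6 d7)
    (hv : ∀ z1 z2 z3 z4 z5 z6 z7 : ℝ, 0 ≤ A.fPV z1 z2 z3 z4 z5 z6 z7 z1 z2 z3 z4 z5 z6 z7) :
    0 ≤ nf22 A s := by
  have e : 1 * (A.fPV (23/20000) (79/50000) (-7/50000) (31/12500) (7/5000) ((209/100000)*A.H+(-47/100000)*A.G) ((407/50000)*A.T+(-193/100000)*A.H+(-593/100000)*A.G) (23/20000) (79/50000) (-7/50000) (31/12500) (7/5000) ((209/100000)*A.H+(-47/100000)*A.G) ((407/50000)*A.T+(-193/100000)*A.H+(-593/100000)*A.G)) = nf22 A s := by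
    unfold nf22 Atoms.fPV
    ring
  rw [← e]
  exact mul_nonneg (by norm_num) (hv _ _ _ _ _ _ _)

noncomputable def nf23 (A : Atoms) (s : ℝ) : ℝ :=
  (-81/39062500)*A.Aqqq*A.G + (69/7812500)*A.Aqqq*A.H + (-21/15625000)*A.Aqqq*A.T + (2229/625000000)*A.Aqqx*A.G + (4299/625000000)*A.Aqqx*A.H + (693/250000000)*A.Aqqx*A.T + (-18279/2500000000)*A.Aqxx*A.G + (46821/2500000000)*A.Aqxx*A.H + (-2499/500000000)*A.Aqxx*A.T + (69/10000000)*A.Axxx*A.G + (42573/1250000000)*A.Axxx*A.H + (1449/250000000)*A.Axxx*A.T + (1/640000)*A.G^3 + (509/40000000)*A.G^2*A.H + (18957/5000000000)*A.G^2*A.T + (362417/10000000000)*A.G*A.H^2 + (-997/1000000000)*A.G*A.H*A.T + (5229/2000000000)*A.G*A.T^2 + (-1161/250000000)*A.G*A.pqq + (55603/5000000000)*A.G*A.pqx + (-133/20000000)*A.G*A.pxx + (14191/250000000)*A.H^3 + (11091/500000000)*A.H^2*A.T + (-791/100000000)*A.H*A.T^2 + (989/50000000)*A.H*A.pqq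 + (2059/1000000000)*A.H*A.pqx + (-82061/2500000000)*A.H*A.pxx + (49/100000000)*A.T^3 + (-301/100000000)*A.T*A.pqq + (8239/1000000000)*A.T*A.pqx + (-2793/500000000)*A.T*A.pxx + (1849/400000000)*A.b11 + (-5719/500000000)*A.b12 + (17689/2500000000)*A.b22 + (129/31250000)*A.bc11 + (-1161/500000000)*A.bc12 + (2967/250000000)*A.bc13 + (-399/78125000)*A.bc21 + (3591/1250000000)*A.bc22 + (-9177/625000000)*A.bc23 + (9/9765625)*A.c11 + (-81/78125000)*A.c12 + (207/39062500)*A.c13 + (729/2500000000)*A.c22 + (-1863/625000000)*A.c23 + (4761/625000000)*A.c33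

lemma chunk23 (A : Atoms) (s : ℝ) (ht : ∀ a1 a2 a3 a4 a5 a6 a7 b1 b2 b3 b4 b5 b6 b7 c1 c2 c3 c4 c5 c6 c7 d1 d2 d3 d4 d5 d6 d7 : ℝ,
      0 ≤ A.fTens a1 a2 a3 a4 a5 a6 a7 b1 b2 b3 b4 b5 b6 b7 c1 c2 c3 c4 c5 c6 c7 d1 d2 d3 d4 d5 d6 d7)
    (hv : ∀ z1 z2 z3 z4 z5 z6 z7 : ℝ, 0 ≤ A.fPV z1 z2 z3 z4 z5 z6 z7 z1 z2 z3 z4 z5 z6 z7) :
    0 ≤ nf23 A s := by
  have e : 1 * (A.fPV (43/20000) (-133/50000) (3/3125) (-27/50000) (69/25000) ((-7/10000)*A.T+(23/5000)*A.H+(-27/25000)*A.G) ((21/20000)*A.T+(617/100000)*A.H+(1/800)*A.G) (43/20000) (-133/50000) (3/3125) (-27/50000) (69/25000) ((-7/10000)*A.T+(23/5000)*A.H+(-27/25000)*A.G) ((21/20000)*A.T+(617/100000)*A.H+(1/800)*A.G)) = nf23 A s := by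
    unfold nf23 Atoms.fPV
    ring
  rw [← e]
  exact mul_nonneg (by norm_num) (hv _ _ _ _ _ _ _)

noncomputable def nf24 (A : Atoms) (s : ℝ) : ℝ :=
  (-252351/9765625)*A.Aqqq*A.G + (97713/1953125)*A.Aqqq*A.H + (-97317/1953125)*A.Aqqq*A.T + (41265281/1250000000)*A.Aqqx*A.G + (-78112011/1250000000)*A.Aqqx*A.H + (75361159/1250000000)*A.Aqqx*A.T + (-68044383/19531250)*A.Aqqx*s + (-55353239/2500000000)*A.Aqxx*A.G + (10474969/250000000)*A.Aqxx*A.H + (-20203827/500000000)*A.Aqxx*A.T + (1182872557/500000000)*A.Aqxx*s + (4353777/625000000)*A.Axxx*A.G + (-4014151/312500000)*A.Axxx*A.H + (7447513/625000000)*A.Axxx*A.T + (-980801359/625000000)*A.Axxx*s + (9308601/10000000000)*A.G^3 + (-8179731/1250000000)*A.G^2*A.H + (28917971/5000000000)*A.G^2*A.T + (-2097004167/5000000000)*A.G^2*s + (4663791/312500000)*A.G*A.H^2 + (-68138573/2500000000)*A.G*A.H*A.T + (1842696877/1250000000)*A.G*A.H*s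 + (127464641/10000000000)*A.G*A.T^2 + (-3587107423/5000000000)*A.G*A.T*s + (90186169/2500000000)*A.G*A.pqq + (-148629471/5000000000)*A.G*A.pqx + (1217349/250000000)*A.G*A.pxx + (472404658489/10000000000)*A.G*s^2 + (-2776431/250000000)*A.H^3 + (3888089/125000000)*A.H^2*A.T + (-678381879/500000000)*A.H^2*s + (-14832487/500000000)*A.H*A.T^2 + (675632611/500000000)*A.H*A.T*s + (-34921047/500000000)*A.H*A.pqq + (138908053/2500000000)*A.H*A.pqx + (-1122387/125000000)*A.H*A.pxx + (966289/100000000)*A.T^3 + (34779523/500000000)*A.T*A.pqq + (-263096839/5000000000)*A.T*A.pqx + (2082381/250000000)*A.T*A.pxx + (1251815161/10000000000)*A.b11 + (-14117019/250000000)*A.b12 + (159201/25000000)*A.b22 + (-3502719/19531250)*A.bc11 + (60890701/500000000)*A.bc12 + (-50488687/625000000)*A.bc13 + (79002/1953125)*A.bc21 + (-686679/25000000)*A.bc22 + (569373/31250000)*A.bc23 +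 (627264/9765625)*A.c11 + (-170379/1953125)*A.c12 + (565092/9765625)*A.c13 + (2961841/100000000)*A.c22 + (-2455867/62500000)*A.c23 + (2036329/156250000)*A.c33 + (24317962777/5000000000)*A.pqx*s + (-274239483/250000000)*A.pxx*s

lemma chunk24 (A : Atoms) (s : ℝ) (ht : ∀ a1 a2 a3 a4 a5 a6 a7 b1 b2 b3 b4 b5 b6 b7 c1 c2 c3 c4 c5 c6 c7 d1 d2 d3 d4 d5 d6 d7 : ℝ,
      0 ≤ A.fTens a1 a2 a3 a4 a5 a6 a7 b1 b2 b3 b4 b5 b6 b7 c1 c2 c3 c4 c5 c6 c7 d1 d2 d3 d4 d5 d6 d7)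
    (hv : ∀ z1 z2 z3 z4 z5 z6 z7 : ℝ, 0 ≤ A.fPV z1 z2 z3 z4 z5 z6 z7 z1 z2 z3 z4 z5 z6 z7) :
    0 ≤ nf24 A s := by
  have e : 1 * (A.fPV (35381/100000) (-399/5000) (-792/3125) (1721/10000) (-1427/12500) ((983/10000)*A.T+(-987/10000)*A.H+(2549/50000)*A.G) ((-5219/100000)*A.T+(2813/50000)*A.H+(-3051/100000)*A.G+(687317/100000)*s) (35381/100000) (-399/5000) (-792/3125) (1721/10000) (-1427/12500) ((983/10000)*A.T+(-987/10000)*A.H+(2549/50000)*A.G) ((-5219/100000)*A.T+(2813/50000)*A.H+(-3051/100000)*A.G+(687317/100000)*s)) = nf24 A s := by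
    unfold nf24 Atoms.fPV
    ring
  rw [← e]
  exact mul_nonneg (by norm_num) (hv _ _ _ _ _ _ _)

noncomputable def nf25 (A : Atoms) (s : ℝ) : ℝ :=
  (43887/625000000)*A.Aqqq*A.T + (81751/10000000000)*A.Aqqx*A.H + (46589/2000000000)*A.Aqqx*A.T + (757699/5000000000)*A.Aqxx*A.G + (-524949/5000000000)*A.Aqxx*A.H + (215231/2000000000)*A.Aqxx*A.T + (4643423/20000000000)*A.G^3 + (552247/2000000000)*A.G^2*A.T + (33289/800000000)*A.G*A.HH + (63823/2500000000)*A.G*A.MM + (524949/10000000000)*A.G*A.NN + (524949/20000000000)*A.G*A.T^2 + (-16247/250000000)*A.G*A.pqq + (33289/400000000)*A.G*A.pqx + (385101/10000000000)*A.H^2*A.T + (-21251/1250000000)*A.H*A.HM + (-97229/10000000000)*A.H*A.pxx + (1158709/20000000000)*A.HH*A.T + (6741/312500000)*A.HM*A.T + (1994059/20000000000)*A.MM*A.T + (757699/10000000000)*A.NN*A.T + (1401027/20000000000)*A.T^3 + (647/250000000)*A.bc21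

lemma chunk25 (A : Atoms) (s : ℝ) (ht : ∀ a1 a2 a3 a4 a5 a6 a7 b1 b2 b3 b4 b5 b6 b7 c1 c2 c3 c4 c5 c6 c7 d1 d2 d3 d4 d5 d6 d7 : ℝ,
      0 ≤ A.fTens a1 a2 a3 a4 a5 a6 a7 b1 b2 b3 b4 b5 b6 b7 c1 c2 c3 c4 c5 c6 c7 d1 d2 d3 d4 d5 d6 d7)
    (hv : ∀ z1 z2 z3 z4 z5 z6 z7 : ℝ, 0 ≤ A.fPV z1 z2 z3 z4 z5 z6 z7 z1 z2 z3 z4 z5 z6 z7) :
    0 ≤ nf25 A s := by
  have e : (16247/500000000) * (A.fTens 1 0 0 0 0 0 0 0 0 0 0 0 0 0 0 0 0 0 0 0 ((-1)*A.G) 0 0 0 0 0 0 0) +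
    ((21251/2500000000) * (A.fTens 1 0 0 0 0 0 0 0 (-1) 0 0 0 0 0 0 0 0 0 0 0 0 0 0 0 0 0 0 0) +
    ((97229/20000000000) * (A.fTens 1 0 0 0 0 0 0 0 0 0 0 0 (-1) 0 0 0 0 0 0 0 0 0 0 0 0 0 0 0) +
    ((647/500000000) * (A.fTens 1 0 0 0 0 0 0 0 0 0 0 0 0 0 0 0 0 0 0 0 0 0 1 0 0 0 0 0) +
    ((215231/4000000000) * (A.fTens 0 1 0 0 0 1 0 0 0 0 0 0 0 0 0 0 0 0 0 0 0 0 0 0 0 0 0 0) +
    ((757699/10000000000) * (A.fTens 0 0 1 0 0 0 0 0 0 0 0 0 0 0 0 0 0 0 0 0 0 0 0 0 0 0 0 (1*A.G)) +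
    ((43887/1250000000) * (A.fTens 0 0 0 1 0 0 0 0 0 0 0 0 0 0 0 1 0 0 0 0 0 0 0 0 0 0 0 0) +
    ((524949/10000000000) * (A.fTens 0 0 0 0 1 0 0 0 0 (-1) 0 0 0 0 0 0 0 0 0 0 0 0 0 0 0 0 0 0) +
    ((46589/4000000000) * (A.fTens 0 0 0 0 0 0 (1*A.T) 0 0 0 0 0 0 0 0 0 0 0 0 0 0 0 1 0 0 0 0 0) +
    ((81751/20000000000) * (A.fTens 0 0 0 0 0 0 (1*A.H) 0 0 0 0 0 0 0 0 0 0 0 0 0 0 0 1 0 0 0 0 0) +
    ((33289/800000000) * (A.fTens 0 0 0 0 0 0 (1*A.G) 0 0 0 0 0 0 0 0 0 0 0 0 0 0 1 0 0 0 0 0 0) +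
    ((6741/625000000) * (A.fTens 0 0 0 0 0 0 0 0 0 0 0 0 0 0 1 1 0 0 0 0 0 0 0 0 0 0 0 0)))))))))))) = nf25 A s := by
    unfold nf25 Atoms.fTens Atoms.fIP Atoms.fPV
    ring
  rw [← e]
  exact add_nonneg (mul_nonneg (by norm_num) (ht _ _ _ _ _ _ _ _ _ _ _ _ _ _ _ _ _ _ _ _ _ _ _ _ _ _ _ _)) (add_nonneg (mul_nonneg (by norm_num) (ht _ _ _ _ _ _ _ _ _ _ _ _ _ _ _ _ _ _ _ _ _ _ _ _ _ _ _ _)) (add_nonneg (mul_nonneg (by norm_num) (ht _ _ _ _ _ _ _ _ _ _ _ _ _ _ _ _ _ _ _ _ _ _ _ _ _ _ _ _)) (add_nonneg (mul_nonneg (by norm_num) (ht _ _ _ _ _ _ _ _ _ _ _ _ _ _ _ _ _ _ _ _ _ _ _ _ _ _ _ _)) (add_nonneg (mul_nonneg (by norm_num) (ht _ _ _ _ _ _ _ _ _ _ _ _ _ _ _ _ _ _ _ _ _ _ _ _ _ _ _ _)) (add_nonneg (mul_nonneg (by norm_num) (ht _ _ _ _ _ _ _ _ _ _ _ _ _ _ _ _ _ _ _ _ _ _ _ _ _ _ _ _)) (add_nonneg (mul_nonneg (by norm_num) (ht _ _ _ _ _ _ _ _ _ _ _ _ _ _ _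 _ _ _ _ _ _ _ _ _ _ _ _ _)) (add_nonneg (mul_nonneg (by norm_num) (ht _ _ _ _ _ _ _ _ _ _ _ _ _ _ _ _ _ _ _ _ _ _ _ _ _ _ _ _)) (add_nonneg (mul_nonneg (by norm_num) (ht _ _ _ _ _ _ _ _ _ _ _ _ _ _ _ _ _ _ _ _ _ _ _ _ _ _ _ _)) (add_nonneg (mul_nonneg (by norm_num) (ht _ _ _ _ _ _ _ _ _ _ _ _ _ _ _ _ _ _ _ _ _ _ _ _ _ _ _ _)) (add_nonneg (mul_nonneg (by norm_num) (ht _ _ _ _ _ _ _ _ _ _ _ _ _ _ _ _ _ _ _ _ _ _ _ _ _ _ _ _)) (mul_nonneg (by norm_num) (ht _ _ _ _ _ _ _ _ _ _ _ _ _ _ _ _ _ _ _ _ _ _ _ _ _ _ _ _))))))))))))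

noncomputable def nf26 (A : Atoms) (s : ℝ) : ℝ :=
  (-88499/1250000000)*A.Axxx*A.T + (88499/2500000000)*A.G^2*A.T + (114169/5000000000)*A.G*A.HH + (20023/1250000000)*A.G*A.HM + (7587/1250000000)*A.G*A.HN + (133273/10000000000)*A.G*A.MM + (212029/10000000000)*A.G*A.NN + (143873/10000000000)*A.G*A.T^2 + (-453/39062500)*A.H*A.HH + (135699/5000000000)*A.H*A.HN + (21217/5000000000)*A.H*A.MM + (7991/1250000000)*A.H*A.MN + (22991/2500000000)*A.H*A.NN + (103317/2500000000)*A.HH*A.T + (7899/2500000000)*A.HN*A.T + (41901/5000000000)*A.MM*A.T + (-12517/1000000000)*A.MN*A.T + (20413/400000000)*A.NN*A.T + (143873/5000000000)*A.T*A.pqx + (-29957/2500000000)*A.b12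

lemma chunk26 (A : Atoms) (s : ℝ) (ht : ∀ a1 a2 a3 a4 a5 a6 a7 b1 b2 b3 b4 b5 b6 b7 c1 c2 c3 c4 c5 c6 c7 d1 d2 d3 d4 d5 d6 d7 : ℝ,
      0 ≤ A.fTens a1 a2 a3 a4 a5 a6 a7 b1 b2 b3 b4 b5 b6 b7 c1 c2 c3 c4 c5 c6 c7 d1 d2 d3 d4 d5 d6 d7)
    (hv : ∀ z1 z2 z3 z4 z5 z6 z7 : ℝ, 0 ≤ A.fPV z1 z2 z3 z4 z5 z6 z7 z1 z2 z3 z4 z5 z6 z7) :
    0 ≤ nf26 A s := by
  have e : (7899/5000000000) * (A.fTens 0 0 0 0 0 0 0 0 0 0 0 0 0 0 1 0 1 0 0 0 0 0 0 0 0 0 0 0) +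
    ((29957/5000000000) * (A.fTens 0 0 0 0 0 0 0 (-1) 0 0 0 0 0 0 1 0 0 0 0 0 0 0 0 0 0 0 0 0) +
    ((143873/10000000000) * (A.fTens 0 0 0 0 0 0 0 0 0 0 1 0 0 0 1 0 0 0 0 0 0 0 0 0 0 0 0 0) +
    ((453/78125000) * (A.fTens 0 0 0 0 0 0 0 0 0 0 0 0 0 0 1 0 0 0 0 0 0 (-1) 0 0 0 0 0 0) +
    ((135699/10000000000) * (A.fTens 0 0 0 0 0 0 0 0 0 0 0 0 0 0 1 0 0 0 0 0 0 0 0 1 0 0 0 0) +
    ((12517/2000000000) * (A.fTens 0 0 0 0 0 0 0 0 0 0 0 0 0 0 0 1 (-1) 0 0 0 0 0 0 0 0 0 0 0) +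
    ((21217/10000000000) * (A.fTens 0 0 0 0 0 0 0 0 0 0 0 0 0 0 0 1 0 0 0 0 0 0 1 0 0 0 0 0) +
    ((88499/2500000000) * (A.fTens 0 0 0 0 0 0 0 0 0 0 0 0 0 0 0 0 1 0 0 (-1) 0 0 0 0 0 0 0 0) +
    ((7991/2500000000) * (A.fTens 0 0 0 0 0 0 0 0 0 0 0 0 0 0 0 0 1 0 0 0 0 0 1 0 0 0 0 0) +
    ((22991/5000000000) * (A.fTens 0 0 0 0 0 0 0 0 0 0 0 0 0 0 0 0 1 0 0 0 0 0 0 1 0 0 0 0) +
    ((20023/2500000000) * (A.fTens 0 0 0 0 0 0 0 1 1 0 0 0 0 0 0 0 0 0 0 0 0 0 0 0 0 0 0 0) +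
    ((7587/2500000000) * (A.fTens 0 0 0 0 0 0 0 1 0 1 0 0 0 0 0 0 0 0 0 0 0 0 0 0 0 0 0 0)))))))))))) = nf26 A s := by
    unfold nf26 Atoms.fTens Atoms.fIP Atoms.fPV
    ring
  rw [← e]
  exact add_nonneg (mul_nonneg (by norm_num) (ht _ _ _ _ _ _ _ _ _ _ _ _ _ _ _ _ _ _ _ _ _ _ _ _ _ _ _ _)) (add_nonneg (mul_nonneg (by norm_num) (ht _ _ _ _ _ _ _ _ _ _ _ _ _ _ _ _ _ _ _ _ _ _ _ _ _ _ _ _)) (add_nonneg (mul_nonneg (by norm_num) (ht _ _ _ _ _ _ _ _ _ _ _ _ _ _ _ _ _ _ _ _ _ _ _ _ _ _ _ _)) (add_nonneg (mul_nonneg (by norm_num) (ht _ _ _ _ _ _ _ _ _ _ _ _ _ _ _ _ _ _ _ _ _ _ _ _ _ _ _ _)) (add_nonneg (mul_nonneg (by norm_num) (ht _ _ _ _ _ _ _ _ _ _ _ _ _ _ _ _ _ _ _ _ _ _ _ _ _ _ _ _)) (add_nonneg (mul_nonneg (by norm_num) (ht _ _ _ _ _ _ _ _ _ _ _ _ _ _ _ _ _ _ _ _ _ _ _ _ _ _ _ _)) (add_nonneg (mul_nonneg (by norm_num) (ht _ _ _ _ _ _ _ _ _ _ _ _ _ _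 _ _ _ _ _ _ _ _ _ _ _ _ _ _)) (add_nonneg (mul_nonneg (by norm_num) (ht _ _ _ _ _ _ _ _ _ _ _ _ _ _ _ _ _ _ _ _ _ _ _ _ _ _ _ _)) (add_nonneg (mul_nonneg (by norm_num) (ht _ _ _ _ _ _ _ _ _ _ _ _ _ _ _ _ _ _ _ _ _ _ _ _ _ _ _ _)) (add_nonneg (mul_nonneg (by norm_num) (ht _ _ _ _ _ _ _ _ _ _ _ _ _ _ _ _ _ _ _ _ _ _ _ _ _ _ _ _)) (add_nonneg (mul_nonneg (by norm_num) (ht _ _ _ _ _ _ _ _ _ _ _ _ _ _ _ _ _ _ _ _ _ _ _ _ _ _ _ _)) (mul_nonneg (by norm_num) (ht _ _ _ _ _ _ _ _ _ _ _ _ _ _ _ _ _ _ _ _ _ _ _ _ _ _ _ _))))))))))))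

noncomputable def nf27 (A : Atoms) (s : ℝ) : ℝ :=
  (109159/2500000000)*A.Aqqx*A.G + (-175439/2500000000)*A.Axxx*A.G + (175439/5000000000)*A.G^3 + (109159/10000000000)*A.G^2*A.T + (412097/20000000000)*A.G*A.H^2 + (952219/20000000000)*A.G*A.HH + (64977/2000000000)*A.G*A.MM + (106567/5000000000)*A.G*A.MN + (91489/2000000000)*A.G*A.NN + (1833927/20000000000)*A.G*A.T^2 + (77131/10000000000)*A.G*s^2 + (10307/1000000000)*A.H^2*A.T + (10307/500000000)*A.H*A.pqq + (-193779/10000000000)*A.H*A.pqx + (11143/1250000000)*A.T^3 + (-11143/625000000)*A.T*A.pqq + (611309/10000000000)*A.T*A.pxx + (939731/20000000000)*A.b11 + (34091/2000000000)*A.b22 + (-39609/5000000000)*A.bc11 + (-19987/2500000000)*A.bc12 + (-1503/312500000)*A.bc13 + (39609/10000000000)*A.c11 + (19987/5000000000)*A.c22 + (1503/625000000)*A.c33 + (-77131/5000000000)*A.pqx*s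

lemma chunk27 (A : Atoms) (s : ℝ) (ht : ∀ a1 a2 a3 a4 a5 a6 a7 b1 b2 b3 b4 b5 b6 b7 c1 c2 c3 c4 c5 c6 c7 d1 d2 d3 d4 d5 d6 d7 : ℝ,
      0 ≤ A.fTens a1 a2 a3 a4 a5 a6 a7 b1 b2 b3 b4 b5 b6 b7 c1 c2 c3 c4 c5 c6 c7 d1 d2 d3 d4 d5 d6 d7)
    (hv : ∀ z1 z2 z3 z4 z5 z6 z7 : ℝ, 0 ≤ A.fPV z1 z2 z3 z4 z5 z6 z7 z1 z2 z3 z4 z5 z6 z7) :
    0 ≤ nf27 A s := by
  have e : (34091/4000000000) * (A.fTens 0 0 0 0 0 0 0 1 0 0 0 0 0 0 0 0 0 0 0 0 0 1 0 0 0 0 0 0) +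
    ((611309/20000000000) * (A.fTens 0 0 0 0 0 0 0 1 0 0 0 0 0 0 0 0 0 0 0 0 0 0 0 0 0 0 0 (1*A.T)) +
    ((109159/5000000000) * (A.fTens 0 0 0 0 0 0 0 0 1 0 0 1 0 0 0 0 0 0 0 0 0 0 0 0 0 0 0 0) +
    ((175439/5000000000) * (A.fTens 0 0 0 0 0 0 0 0 0 0 0 0 1 0 0 0 0 0 0 0 0 0 0 (-1) 0 0 0 0) +
    ((106567/10000000000) * (A.fTens 0 0 0 0 0 0 0 0 0 0 0 0 0 0 0 0 0 0 0 0 0 0 1 1 0 0 0 0) +
    ((39609/10000000000) * (A.fPV 1 0 (-1) 0 0 0 0 1 0 (-1) 0 0 0 0) +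
    ((19987/5000000000) * (A.fPV 1 0 0 (-1) 0 0 0 1 0 0 (-1) 0 0 0) +
    ((1503/625000000) * (A.fPV 1 0 0 0 (-1) 0 0 1 0 0 0 (-1) 0 0) +
    ((11143/1250000000) * (A.fPV 1 0 0 0 0 ((-1)*A.T) 0 1 0 0 0 0 ((-1)*A.T) 0) +
    ((10307/1000000000) * (A.fPV 1 0 0 0 0 (1*A.H) 0 1 0 0 0 0 (1*A.H) 0) +
    ((193779/20000000000) * (A.fPV 1 0 0 0 0 0 ((-1)*A.H) 1 0 0 0 0 0 ((-1)*A.H)) +
    ((77131/10000000000) * (A.fPV 1 0 0 0 0 0 ((-1)*s) 1 0 0 0 0 0 ((-1)*s))))))))))))) = nf27 A s := by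
    unfold nf27 Atoms.fTens Atoms.fIP Atoms.fPV
    ring
  rw [← e]
  exact add_nonneg (mul_nonneg (by norm_num) (ht _ _ _ _ _ _ _ _ _ _ _ _ _ _ _ _ _ _ _ _ _ _ _ _ _ _ _ _)) (add_nonneg (mul_nonneg (by norm_num) (ht _ _ _ _ _ _ _ _ _ _ _ _ _ _ _ _ _ _ _ _ _ _ _ _ _ _ _ _)) (add_nonneg (mul_nonneg (by norm_num) (ht _ _ _ _ _ _ _ _ _ _ _ _ _ _ _ _ _ _ _ _ _ _ _ _ _ _ _ _)) (add_nonneg (mul_nonneg (by norm_num) (ht _ _ _ _ _ _ _ _ _ _ _ _ _ _ _ _ _ _ _ _ _ _ _ _ _ _ _ _)) (add_nonneg (mul_nonneg (by norm_num) (ht _ _ _ _ _ _ _ _ _ _ _ _ _ _ _ _ _ _ _ _ _ _ _ _ _ _ _ _)) (add_nonneg (mul_nonneg (by norm_num) (hv _ _ _ _ _ _ _)) (add_nonneg (mul_nonneg (by norm_num) (hv _ _ _ _ _ _ _)) (add_nonneg (mul_nonneg (by norm_num) (hv _ _ _ _ _ _ _)) (add_nonneg (mul_nonneg (by norm_num) (hv _ _ _ _ _ _ _)) (add_nonneg (mul_nonneg (by norm_num) (hv _ _ _ _ _ _ _))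 (add_nonneg (mul_nonneg (by norm_num) (hv _ _ _ _ _ _ _)) (mul_nonneg (by norm_num) (hv _ _ _ _ _ _ _))))))))))))

noncomputable def nf28 (A : Atoms) (s : ℝ) : ℝ :=
  (98293/5000000000)*A.Aqqq*A.G + (145501/10000000000)*A.Aqqq*A.H + (-47917/1250000000)*A.Aqqx*s + (9841/1000000000)*A.Aqxx*s + (687/62500000)*A.Axxx*A.H + (159159/10000000000)*A.G^3 + (98293/10000000000)*A.G^2*A.T + (687/125000000)*A.G*A.H^2 + (159159/5000000000)*A.G*A.pxx + (23517/625000000)*A.G*s^2 + (145501/20000000000)*A.H^2*A.T + (117113/2000000000)*A.b22 + (120047/2500000000)*A.bc22 + (50913/5000000000)*A.bc23 + (936087/20000000000)*A.c11 + (18197/2500000000)*A.c12 + (-34469/2500000000)*A.c13 + (8749/200000000)*A.c22 + (111757/5000000000)*A.c23 + (35821/1250000000)*A.c33 + (135399/5000000000)*A.pxx*s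

lemma chunk28 (A : Atoms) (s : ℝ) (ht : ∀ a1 a2 a3 a4 a5 a6 a7 b1 b2 b3 b4 b5 b6 b7 c1 c2 c3 c4 c5 c6 c7 d1 d2 d3 d4 d5 d6 d7 : ℝ,
      0 ≤ A.fTens a1 a2 a3 a4 a5 a6 a7 b1 b2 b3 b4 b5 b6 b7 c1 c2 c3 c4 c5 c6 c7 d1 d2 d3 d4 d5 d6 d7)
    (hv : ∀ z1 z2 z3 z4 z5 z6 z7 : ℝ, 0 ≤ A.fPV z1 z2 z3 z4 z5 z6 z7 z1 z2 z3 z4 z5 z6 z7) :
    0 ≤ nf28 A s := by
  have e : (120047/5000000000) * (A.fPV 0 1 0 1 0 0 0 0 1 0 1 0 0 0) +
    ((50913/10000000000) * (A.fPV 0 1 0 0 1 0 0 0 1 0 0 1 0 0) +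
    ((159159/10000000000) * (A.fPV 0 1 0 0 0 0 (1*A.G) 0 1 0 0 0 0 (1*A.G)) +
    ((135399/10000000000) * (A.fPV 0 1 0 0 0 0 (1*s) 0 1 0 0 0 0 (1*s)) +
    ((18197/5000000000) * (A.fPV 0 0 1 1 0 0 0 0 0 1 1 0 0 0) +
    ((34469/5000000000) * (A.fPV 0 0 1 0 (-1) 0 0 0 0 1 0 (-1) 0 0) +
    ((145501/20000000000) * (A.fPV 0 0 1 0 0 (1*A.H) 0 0 0 1 0 0 (1*A.H) 0) +
    ((98293/10000000000) * (A.fPV 0 0 1 0 0 (1*A.G) 0 0 0 1 0 0 (1*A.G) 0) +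
    ((47917/2500000000) * (A.fPV 0 0 1 0 0 0 ((-1)*s) 0 0 1 0 0 0 ((-1)*s)) +
    ((111757/10000000000) * (A.fPV 0 0 0 1 1 0 0 0 0 0 1 1 0 0) +
    ((9841/2000000000) * (A.fPV 0 0 0 1 0 0 (1*s) 0 0 0 1 0 0 (1*s)) +
    ((687/125000000) * (A.fPV 0 0 0 0 1 0 (1*A.H) 0 0 0 0 1 0 (1*A.H))))))))))))) = nf28 A s := by
    unfold nf28 Atoms.fPV
    ring
  rw [← e]
  exact add_nonneg (mul_nonneg (by norm_num) (hv _ _ _ _ _ _ _)) (add_nonneg (mul_nonneg (by norm_num) (hv _ _ _ _ _ _ _)) (add_nonneg (mul_nonneg (by norm_num) (hv _ _ _ _ _ _ _)) (add_nonneg (mul_nonneg (by norm_num) (hv _ _ _ _ _ _ _)) (add_nonneg (mul_nonneg (by norm_num) (hv _ _ _ _ _ _ _)) (add_nonneg (mul_nonneg (by norm_num) (hv _ _ _ _ _ _ _)) (add_nonneg (mul_nonneg (by norm_num) (hv _ _ _ _ _ _ _)) (add_nonneg (mul_nonneg (by norm_num) (hv _ _ _ _ _ _ _)) (add_nonneg (mul_nonneg (by norm_num)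 (hv _ _ _ _ _ _ _)) (add_nonneg (mul_nonneg (by norm_num) (hv _ _ _ _ _ _ _)) (add_nonneg (mul_nonneg (by norm_num) (hv _ _ _ _ _ _ _)) (mul_nonneg (by norm_num) (hv _ _ _ _ _ _ _))))))))))))

noncomputable def nf29 (A : Atoms) (s : ℝ) : ℝ :=
  (10383/5000000000)*A.Axxx*s + (570717/2000000000)*A.G^2*A.T + (635051/20000000000)*A.G*A.T^2 + (10383/10000000000)*A.G*s^2 + (3674899/10000000000)*A.H^2*A.T + (2899373/20000000000)*A.HH*A.T + (2687889/20000000000)*A.MM*A.T + (402301/10000000000)*A.NN*A.T + (7878973/20000000000)*A.T^3 + (10383/10000000000)*A.c33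

lemma chunk29 (A : Atoms) (s : ℝ) (ht : ∀ a1 a2 a3 a4 a5 a6 a7 b1 b2 b3 b4 b5 b6 b7 c1 c2 c3 c4 c5 c6 c7 d1 d2 d3 d4 d5 d6 d7 : ℝ,
      0 ≤ A.fTens a1 a2 a3 a4 a5 a6 a7 b1 b2 b3 b4 b5 b6 b7 c1 c2 c3 c4 c5 c6 c7 d1 d2 d3 d4 d5 d6 d7)
    (hv : ∀ z1 z2 z3 z4 z5 z6 z7 : ℝ, 0 ≤ A.fPV z1 z2 z3 z4 z5 z6 z7 z1 z2 z3 z4 z5 z6 z7) :
    0 ≤ nf29 A s := by
  have e : (10383/10000000000) * (A.fPV 0 0 0 0 1 0 (1*s) 0 0 0 0 1 0 (1*s)) +
    ((1377003/20000000000) * (A.fTens 1 0 0 0 0 0 0 0 0 0 0 0 0 0 0 0 0 0 0 0 0 0 0 0 0 0 0 0) +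
    ((248769/4000000000) * (A.fTens 0 1 0 0 0 0 0 0 0 0 0 0 0 0 0 0 0 0 0 0 0 0 0 0 0 0 0 0) +
    ((402301/10000000000) * (A.fTens 0 0 1 0 0 0 0 0 0 0 0 0 0 0 0 0 0 0 0 0 0 0 0 0 0 0 0 0) +
    ((101113/1250000000) * (A.fTens 0 0 0 1 0 0 0 0 0 0 0 0 0 0 0 0 0 0 0 0 0 0 0 0 0 0 0 0) +
    ((635051/10000000000) * (A.fTens 0 0 0 0 1 0 0 0 0 0 0 0 0 0 0 0 0 0 0 0 0 0 0 0 0 0 0 0) +
    ((248769/4000000000) * (A.fTens 0 0 0 0 0 1 0 0 0 0 0 0 0 0 0 0 0 0 0 0 0 0 0 0 0 0 0 0) +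
    ((417411/4000000000) * (A.fTens 0 0 0 0 0 0 (1*A.T) 0 0 0 0 0 0 0 0 0 0 0 0 0 0 0 0 0 0 0 0 0) +
    ((2238249/20000000000) * (A.fTens 0 0 0 0 0 0 (1*A.H) 0 0 0 0 0 0 0 0 0 0 0 0 0 0 0 0 0 0 0 0 0) +
    ((59511/800000000) * (A.fTens 0 0 0 0 0 0 (1*A.G) 0 0 0 0 0 0 0 0 0 0 0 0 0 0 0 0 0 0 0 0 0) +
    ((152237/2000000000) * (A.fTens 0 0 0 0 0 0 0 0 0 0 0 0 0 0 1 0 0 0 0 0 0 0 0 0 0 0 0 0) +
    ((361011/5000000000) * (A.fTens 0 0 0 0 0 0 0 0 0 0 0 0 0 0 0 1 0 0 0 0 0 0 0 0 0 0 0 0)))))))))))) = nf29 A s := by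
    unfold nf29 Atoms.fTens Atoms.fIP Atoms.fPV
    ring
  rw [← e]
  exact add_nonneg (mul_nonneg (by norm_num) (hv _ _ _ _ _ _ _)) (add_nonneg (mul_nonneg (by norm_num) (ht _ _ _ _ _ _ _ _ _ _ _ _ _ _ _ _ _ _ _ _ _ _ _ _ _ _ _ _)) (add_nonneg (mul_nonneg (by norm_num) (ht _ _ _ _ _ _ _ _ _ _ _ _ _ _ _ _ _ _ _ _ _ _ _ _ _ _ _ _)) (add_nonneg (mul_nonneg (by norm_num) (ht _ _ _ _ _ _ _ _ _ _ _ _ _ _ _ _ _ _ _ _ _ _ _ _ _ _ _ _)) (add_nonneg (mul_nonneg (by norm_num) (ht _ _ _ _ _ _ _ _ _ _ _ _ _ _ _ _ _ _ _ _ _ _ _ _ _ _ _ _)) (add_nonneg (mul_nonneg (by norm_num) (ht _ _ _ _ _ _ _ _ _ _ _ _ _ _ _ _ _ _ _ _ _ _ _ _ _ _ _ _)) (add_nonneg (mul_nonneg (by norm_num) (ht _ _ _ _ _ _ _ _ _ _ _ _ _ _ _ _ _ _ _ _ _ _ _ _ _ _ _ _)) (add_nonneg (mul_nonneg (by norm_num) (ht _ _ _ _ _ _ _ _ _ _ _ _ _ _ _ _ _ _ _ _ _ _ _ _ _ _ _ _)) (add_nonneg (mul_nonneg (by norm_num)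 (ht _ _ _ _ _ _ _ _ _ _ _ _ _ _ _ _ _ _ _ _ _ _ _ _ _ _ _ _)) (add_nonneg (mul_nonneg (by norm_num) (ht _ _ _ _ _ _ _ _ _ _ _ _ _ _ _ _ _ _ _ _ _ _ _ _ _ _ _ _)) (add_nonneg (mul_nonneg (by norm_num) (ht _ _ _ _ _ _ _ _ _ _ _ _ _ _ _ _ _ _ _ _ _ _ _ _ _ _ _ _)) (mul_nonneg (by norm_num) (ht _ _ _ _ _ _ _ _ _ _ _ _ _ _ _ _ _ _ _ _ _ _ _ _ _ _ _ _))))))))))))

noncomputable def nf30 (A : Atoms) (s : ℝ) : ℝ :=
  (304203/4000000000)*A.G^3 + (151281/400000000)*A.G^2*A.T + (470841/10000000000)*A.G*A.H^2 + (1011577/10000000000)*A.G*A.HH + (388293/5000000000)*A.G*A.MM + (604703/10000000000)*A.G*A.NN + (4496127/10000000000)*A.G*A.T^2 + (87/250000)*A.H^2*A.T + (127703/1250000000)*A.NN*A.T + (87/250000)*A.T^3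

lemma chunk30 (A : Atoms) (s : ℝ) (ht : ∀ a1 a2 a3 a4 a5 a6 a7 b1 b2 b3 b4 b5 b6 b7 c1 c2 c3 c4 c5 c6 c7 d1 d2 d3 d4 d5 d6 d7 : ℝ,
      0 ≤ A.fTens a1 a2 a3 a4 a5 a6 a7 b1 b2 b3 b4 b5 b6 b7 c1 c2 c3 c4 c5 c6 c7 d1 d2 d3 d4 d5 d6 d7)
    (hv : ∀ z1 z2 z3 z4 z5 z6 z7 : ℝ, 0 ≤ A.fPV z1 z2 z3 z4 z5 z6 z7 z1 z2 z3 z4 z5 z6 z7) :
    0 ≤ nf30 A s := by
  have e : (127703/1250000000) * (A.fTens 0 0 0 0 0 0 0 0 0 0 0 0 0 0 0 0 1 0 0 0 0 0 0 0 0 0 0 0) +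
    ((201501/2500000000) * (A.fTens 0 0 0 0 0 0 0 0 0 0 0 0 0 0 0 0 0 0 0 1 0 0 0 0 0 0 0 0) +
    ((29/250000) * (A.fTens 0 0 0 0 0 0 0 0 0 0 0 0 0 0 0 0 0 0 0 0 (1*A.T) 0 0 0 0 0 0 0) +
    ((29/250000) * (A.fTens 0 0 0 0 0 0 0 0 0 0 0 0 0 0 0 0 0 0 0 0 (1*A.H) 0 0 0 0 0 0 0) +
    ((41753/500000000) * (A.fTens 0 0 0 0 0 0 0 0 0 0 0 0 0 0 0 0 0 0 0 0 (1*A.G) 0 0 0 0 0 0 0) +
    ((1011577/10000000000) * (A.fTens 0 0 0 0 0 0 0 1 0 0 0 0 0 0 0 0 0 0 0 0 0 0 0 0 0 0 0 0) +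
    ((388293/5000000000) * (A.fTens 0 0 0 0 0 0 0 0 1 0 0 0 0 0 0 0 0 0 0 0 0 0 0 0 0 0 0 0) +
    ((604703/10000000000) * (A.fTens 0 0 0 0 0 0 0 0 0 1 0 0 0 0 0 0 0 0 0 0 0 0 0 0 0 0 0 0) +
    ((1016127/10000000000) * (A.fTens 0 0 0 0 0 0 0 0 0 0 1 0 0 0 0 0 0 0 0 0 0 0 0 0 0 0 0 0) +
    ((470841/5000000000) * (A.fTens 0 0 0 0 0 0 0 0 0 0 0 1 0 0 0 0 0 0 0 0 0 0 0 0 0 0 0 0) +
    ((304203/4000000000) * (A.fTens 0 0 0 0 0 0 0 0 0 0 0 0 1 0 0 0 0 0 0 0 0 0 0 0 0 0 0 0) +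
    ((29/250000) * (A.fTens 0 0 0 0 0 0 0 0 0 0 0 0 0 (1*A.T) 0 0 0 0 0 0 0 0 0 0 0 0 0 0)))))))))))) = nf30 A s := by
    unfold nf30 Atoms.fTens Atoms.fIP Atoms.fPV
    ring
  rw [← e]
  exact add_nonneg (mul_nonneg (by norm_num) (ht _ _ _ _ _ _ _ _ _ _ _ _ _ _ _ _ _ _ _ _ _ _ _ _ _ _ _ _)) (add_nonneg (mul_nonneg (by norm_num) (ht _ _ _ _ _ _ _ _ _ _ _ _ _ _ _ _ _ _ _ _ _ _ _ _ _ _ _ _)) (add_nonneg (mul_nonneg (by norm_num) (ht _ _ _ _ _ _ _ _ _ _ _ _ _ _ _ _ _ _ _ _ _ _ _ _ _ _ _ _)) (add_nonneg (mul_nonneg (by norm_num) (ht _ _ _ _ _ _ _ _ _ _ _ _ _ _ _ _ _ _ _ _ _ _ _ _ _ _ _ _)) (add_nonneg (mul_nonneg (by norm_num) (ht _ _ _ _ _ _ _ _ _ _ _ _ _ _ _ _ _ _ _ _ _ _ _ _ _ _ _ _)) (add_nonneg (mul_nonneg (by norm_num) (ht _ _ _ _ _ _ _ _ _ _ _ _ _ _ _ _ _ _ _ _ _ _ _ _ _ _ _ _)) (add_nonneg (mul_nonneg (by norm_num) (ht _ _ _ _ _ _ _ _ _ _ _ _ _ _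 _ _ _ _ _ _ _ _ _ _ _ _ _ _)) (add_nonneg (mul_nonneg (by norm_num) (ht _ _ _ _ _ _ _ _ _ _ _ _ _ _ _ _ _ _ _ _ _ _ _ _ _ _ _ _)) (add_nonneg (mul_nonneg (by norm_num) (ht _ _ _ _ _ _ _ _ _ _ _ _ _ _ _ _ _ _ _ _ _ _ _ _ _ _ _ _)) (add_nonneg (mul_nonneg (by norm_num) (ht _ _ _ _ _ _ _ _ _ _ _ _ _ _ _ _ _ _ _ _ _ _ _ _ _ _ _ _)) (add_nonneg (mul_nonneg (by norm_num) (ht _ _ _ _ _ _ _ _ _ _ _ _ _ _ _ _ _ _ _ _ _ _ _ _ _ _ _ _)) (mul_nonneg (by norm_num) (ht _ _ _ _ _ _ _ _ _ _ _ _ _ _ _ _ _ _ _ _ _ _ _ _ _ _ _ _))))))))))))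

noncomputable def nf31 (A : Atoms) (s : ℝ) : ℝ :=
  (4686903/10000000000)*A.G^3 + (87/125000)*A.G*A.H^2 + (150169/2500000000)*A.G*A.HH + (231693/2500000000)*A.G*A.MM + (436411/5000000000)*A.G*A.NN + (7446073/20000000000)*A.G*A.T^2 + (1606423/20000000000)*A.b11 + (114887/2000000000)*A.b22 + (360467/4000000000)*A.c11

lemma chunk31 (A : Atoms) (s : ℝ) (ht : ∀ a1 a2 a3 a4 a5 a6 a7 b1 b2 b3 b4 b5 b6 b7 c1 c2 c3 c4 c5 c6 c7 d1 d2 d3 d4 d5 d6 d7 : ℝ,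
      0 ≤ A.fTens a1 a2 a3 a4 a5 a6 a7 b1 b2 b3 b4 b5 b6 b7 c1 c2 c3 c4 c5 c6 c7 d1 d2 d3 d4 d5 d6 d7)
    (hv : ∀ z1 z2 z3 z4 z5 z6 z7 : ℝ, 0 ≤ A.fPV z1 z2 z3 z4 z5 z6 z7 z1 z2 z3 z4 z5 z6 z7) :
    0 ≤ nf31 A s := by
  have e : (29/250000) * (A.fTens 0 0 0 0 0 0 0 0 0 0 0 0 0 (1*A.H) 0 0 0 0 0 0 0 0 0 0 0 0 0 0) +
    ((29/250000) * (A.fTens 0 0 0 0 0 0 0 0 0 0 0 0 0 (1*A.G) 0 0 0 0 0 0 0 0 0 0 0 0 0 0) +
    ((150169/2500000000) * (A.fTens 0 0 0 0 0 0 0 0 0 0 0 0 0 0 0 0 0 0 0 0 0 1 0 0 0 0 0 0) +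
    ((231693/2500000000) * (A.fTens 0 0 0 0 0 0 0 0 0 0 0 0 0 0 0 0 0 0 0 0 0 0 1 0 0 0 0 0) +
    ((436411/5000000000) * (A.fTens 0 0 0 0 0 0 0 0 0 0 0 0 0 0 0 0 0 0 0 0 0 0 0 1 0 0 0 0) +
    ((29/250000) * (A.fTens 0 0 0 0 0 0 0 0 0 0 0 0 0 0 0 0 0 0 0 0 0 0 0 0 1 0 0 0) +
    ((1708691/20000000000) * (A.fTens 0 0 0 0 0 0 0 0 0 0 0 0 0 0 0 0 0 0 0 0 0 0 0 0 0 0 0 (1*A.T)) +
    ((29/250000) * (A.fTens 0 0 0 0 0 0 0 0 0 0 0 0 0 0 0 0 0 0 0 0 0 0 0 0 0 0 0 (1*A.H)) +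
    ((402301/10000000000) * (A.fTens 0 0 0 0 0 0 0 0 0 0 0 0 0 0 0 0 0 0 0 0 0 0 0 0 0 0 0 (1*A.G)) +
    ((1606423/20000000000) * (A.fPV 1 0 0 0 0 0 0 1 0 0 0 0 0 0) +
    ((114887/2000000000) * (A.fPV 0 1 0 0 0 0 0 0 1 0 0 0 0 0) +
    ((360467/4000000000) * (A.fPV 0 0 1 0 0 0 0 0 0 1 0 0 0 0)))))))))))) = nf31 A s := by
    unfold nf31 Atoms.fTens Atoms.fIP Atoms.fPV
    ring
  rw [← e]
  exact add_nonneg (mul_nonneg (by norm_num) (ht _ _ _ _ _ _ _ _ _ _ _ _ _ _ _ _ _ _ _ _ _ _ _ _ _ _ _ _)) (add_nonneg (mul_nonneg (by norm_num) (ht _ _ _ _ _ _ _ _ _ _ _ _ _ _ _ _ _ _ _ _ _ _ _ _ _ _ _ _)) (add_nonneg (mul_nonneg (by norm_num) (ht _ _ _ _ _ _ _ _ _ _ _ _ _ _ _ _ _ _ _ _ _ _ _ _ _ _ _ _)) (add_nonneg (mul_nonneg (by norm_num) (ht _ _ _ _ _ _ _ _ _ _ _ _ _ _ _ _ _ _ _ _ _ _ _ _ _ _ _ _)) (add_nonneg (mul_nonneg (by norm_num) (ht _ _ _ _ _ _ _ _ _ _ _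 _ _ _ _ _ _ _ _ _ _ _ _ _ _ _ _ _)) (add_nonneg (mul_nonneg (by norm_num) (ht _ _ _ _ _ _ _ _ _ _ _ _ _ _ _ _ _ _ _ _ _ _ _ _ _ _ _ _)) (add_nonneg (mul_nonneg (by norm_num) (ht _ _ _ _ _ _ _ _ _ _ _ _ _ _ _ _ _ _ _ _ _ _ _ _ _ _ _ _)) (add_nonneg (mul_nonneg (by norm_num) (ht _ _ _ _ _ _ _ _ _ _ _ _ _ _ _ _ _ _ _ _ _ _ _ _ _ _ _ _)) (add_nonneg (mul_nonneg (by norm_num) (ht _ _ _ _ _ _ _ _ _ _ _ _ _ _ _ _ _ _ _ _ _ _ _ _ _ _ _ _)) (add_nonneg (mul_nonneg (by norm_num) (hv _ _ _ _ _ _ _)) (add_nonneg (mul_nonneg (by norm_num) (hv _ _ _ _ _ _ _)) (mul_nonneg (by norm_num) (hv _ _ _ _ _ _ _))))))))))))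

noncomputable def nf32 (A : Atoms) (s : ℝ) : ℝ :=
  (1000841/10000000000)*A.G^3 + (1061707/10000000000)*A.G^2*A.T + (2016301/20000000000)*A.G*A.H^2 + (29/250000)*A.G*A.T^2 + (348107/5000000000)*A.G*s^2 + (1968359/20000000000)*A.H^2*A.T + (133857/1250000000)*A.T^3 + (914651/10000000000)*A.c22 + (278427/2500000000)*A.c33

lemma chunk32 (A : Atoms) (s : ℝ) (ht : ∀ a1 a2 a3 a4 a5 a6 a7 b1 b2 b3 b4 b5 b6 b7 c1 c2 c3 c4 c5 c6 c7 d1 d2 d3 d4 d5 d6 d7 : ℝ,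
      0 ≤ A.fTens a1 a2 a3 a4 a5 a6 a7 b1 b2 b3 b4 b5 b6 b7 c1 c2 c3 c4 c5 c6 c7 d1 d2 d3 d4 d5 d6 d7)
    (hv : ∀ z1 z2 z3 z4 z5 z6 z7 : ℝ, 0 ≤ A.fPV z1 z2 z3 z4 z5 z6 z7 z1 z2 z3 z4 z5 z6 z7) :
    0 ≤ nf32 A s := by
  have e : (914651/10000000000) * (A.fPV 0 0 0 1 0 0 0 0 0 0 1 0 0 0) +
    ((278427/2500000000) * (A.fPV 0 0 0 0 1 0 0 0 0 0 0 1 0 0) +
    ((133857/1250000000) * (A.fPV 0 0 0 0 0 (1*A.T) 0 0 0 0 0 0 (1*A.T) 0) +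
    ((1968359/20000000000) * (A.fPV 0 0 0 0 0 (1*A.H) 0 0 0 0 0 0 (1*A.H) 0) +
    ((1061707/10000000000) * (A.fPV 0 0 0 0 0 (1*A.G) 0 0 0 0 0 0 (1*A.G) 0) +
    ((29/250000) * (A.fPV 0 0 0 0 0 0 (1*A.T) 0 0 0 0 0 0 (1*A.T)) +
    ((2016301/20000000000) * (A.fPV 0 0 0 0 0 0 (1*A.H) 0 0 0 0 0 0 (1*A.H)) +
    ((1000841/10000000000) * (A.fPV 0 0 0 0 0 0 (1*A.G) 0 0 0 0 0 0 (1*A.G)) +
    ((348107/5000000000) * (A.fPV 0 0 0 0 0 0 (1*s) 0 0 0 0 0 0 (1*s)))))))))) = nf32 A s := by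
    unfold nf32 Atoms.fPV
    ring
  rw [← e]
  exact add_nonneg (mul_nonneg (by norm_num) (hv _ _ _ _ _ _ _)) (add_nonneg (mul_nonneg (by norm_num) (hv _ _ _ _ _ _ _)) (add_nonneg (mul_nonneg (by norm_num) (hv _ _ _ _ _ _ _)) (add_nonneg (mul_nonneg (by norm_num) (hv _ _ _ _ _ _ _)) (add_nonneg (mul_nonneg (by norm_num) (hv _ _ _ _ _ _ _)) (add_nonneg (mul_nonneg (by norm_num) (hv _ _ _ _ _ _ _)) (add_nonneg (mul_nonneg (by norm_num) (hv _ _ _ _ _ _ _)) (add_nonneg (mul_nonneg (by norm_num) (hv _ _ _ _ _ _ _)) (mul_nonneg (by norm_num) (hv _ _ _ _ _ _ _)))))))))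

lemma key (A : Atoms) (s : ℝ) :
    psi A s = (1/1000) * (A.T + A.G) ^ 3 + rem A s + (nf0 A s + nf1 A s + nf2 A s + nf3 A s + nf4 A s + nf5 A s + nf6 A s + nf7 A s + nf8 A s + nf9 A s + nf10 A s + nf11 A s + nf12 A s + nf13 A s + nf14 A s + nf15 A s + nf16 A s + nf17 A s + nf18 A s + nf19 A s + nf20 A s + nf21 A s + nf22 A s + nf23 A s + nf24 A s + nf25 A s + nf26 A s + nf27 A s + nf28 A s + nf29 A s + nf30 A s + nf31 A s + nf32 A s) := by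
  unfold psi rem nf0 nf1 nf2 nf3 nf4 nf5 nf6 nf7 nf8 nf9 nf10 nf11 nf12 nf13 nf14 nf15 nf16 nf17 nf18 nf19 nf20 nf21 nf22 nf23 nf24 nf25 nf26 nf27 nf28 nf29 nf30 nf31 nf32
  ring

/-- The certificate. -/
lemma main (A : Atoms) (s : ℝ) (ht : ∀ a1 a2 a3 a4 a5 a6 a7 b1 b2 b3 b4 b5 b6 b7 c1 c2 c3 c4 c5 c6 c7 d1 d2 d3 d4 d5 d6 d7 : ℝ,
      0 ≤ A.fTens a1 a2 a3 a4 a5 a6 a7 b1 b2 b3 b4 b5 b6 b7 c1 c2 c3 c4 c5 c6 c7 d1 d2 d3 d4 d5 d6 d7)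
    (hv : ∀ z1 z2 z3 z4 z5 z6 z7 : ℝ, 0 ≤ A.fPV z1 z2 z3 z4 z5 z6 z7 z1 z2 z3 z4 z5 z6 z7) :
    (1/1000) * (A.T + A.G) ^ 3 + rem A s ≤ psi A s := by
  rw [key]
  exact le_add_of_nonneg_right (add_nonneg (add_nonneg (add_nonneg (add_nonneg (add_nonneg (add_nonneg (add_nonneg (add_nonneg (add_nonneg (add_nonneg (add_nonneg (add_nonneg (add_nonneg (add_nonneg (add_nonneg (add_nonneg (add_nonneg (add_nonneg (add_nonneg (add_nonneg (add_nonneg (add_nonneg (add_nonneg (add_nonneg (add_nonneg (add_nonneg (add_nonneg (add_nonneg (add_nonneg (add_nonneg (add_nonneg (add_nonneg (chunk0 A s ht hv) (chunk1 A s ht hv)) (chunk2 A s ht hv)) (chunk3 A s ht hv)) (chunk4 A s ht hv)) (chunk5 A s ht hv)) (chunk6 A s ht hv)) (chunk7 A s ht hv)) (chunk8 A s ht hv)) (chunk9 A s ht hv)) (chunk10 A s ht hv)) (chunk11 A s ht hv)) (chunk12 A s ht hv)) (chunk13 A s ht hv)) (chunk14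 A s ht hv)) (chunk15 A s ht hv)) (chunk16 A s ht hv)) (chunk17 A s ht hv)) (chunk18 A s ht hv)) (chunk19 A s ht hv)) (chunk20 A s ht hv)) (chunk21 A s ht hv)) (chunk22 A s ht hv)) (chunk23 A s ht hv)) (chunk24 A s ht hv)) (chunk25 A s ht hv)) (chunk26 A s ht hv)) (chunk27 A s ht hv)) (chunk28 A s ht hv)) (chunk29 A s ht hv)) (chunk30 A s ht hv)) (chunk31 A s ht hv)) (chunk32 A s ht hv))

lemma rem_bound (A : Atoms) (s : ℝ) (hs : 0 ≤ s) (hT : 0 ≤ A.T) (hG : 0 ≤ A.G)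
    (hH : A.H ^ 2 ≤ A.T * A.G) :
    (2/3125) * (A.T + A.G) ^ 3 - 805413629 * s ^ 3 ≤ (1/1000) * (A.T + A.G) ^ 3 + rem A s := by
  obtain ⟨hY0, hTa, hGa, hHa⟩ := scal_bounds A.T A.H A.G hT hG hH
  generalize A.T + A.G = Y at *
  have b1 := bnd2 A.H A.T Y s hHa hTa hs
  have b2 := bnd2 A.T A.T Y s hTa hTa hs
  have b3 := bnd2 A.G A.T Y s hGa hTa hs
  have b4 := bnd2 A.H A.H Y s hHa hHa hs
  have b5 := bnd2 A.G A.H Y s hGa hHa hs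
  have b6 := bnd2 A.G A.G Y s hGa hGa hs
  have b7 := bnd1 A.G Y s hGa hs
  have b9 := bnd3 A.H A.T A.T Y hHa hTa hTa
  have b11 := bnd3 A.G A.H A.T Y hGa hHa hTa
  have b15 := bnd3 A.G A.G A.H Y hGa hGa hHa
  have b17 := bnd3 A.H A.H A.H Y hHa hHa hHa
  have y1 := young1 Y s 25255 (1/10000) hY0 hs (by norm_num) (by norm_num)
  have y2 := young2 Y s 399 (1/10000) hY0 hs (by norm_num) (by norm_num)
  have p1 : 0 ≤ s * Y ^ 2 := by positivity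
  have p2 : 0 ≤ s ^ 2 * Y := by positivity
  have p3 : 0 ≤ s ^ 3 := by positivity
  have p4 : 0 ≤ Y ^ 3 := by positivity
  unfold rem
  linarith [b1.1, b1.2, b2.1, b2.2, b3.1, b3.2, b4.1, b4.2, b5.1, b5.2, b6.1, b6.2, b7.1, b7.2, (pow_nonneg hT 3), b9.1, b9.2, (mul_nonneg (pow_nonneg hT 2) hG), b11.1, b11.2, (mul_nonneg (sq_nonneg A.H) hT), (mul_nonneg (sq_nonneg A.H) hG), (mul_nonneg (pow_nonneg hG 2) hT), b15.1, b15.2, (pow_nonneg hG 3), b17.1, b17.2]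

/-- The certificate with the scalar remainder absorbed. -/
lemma final (A : Atoms) (s : ℝ) (hs : 0 ≤ s) (hT : 0 ≤ A.T) (hG : 0 ≤ A.G)
    (hH : A.H ^ 2 ≤ A.T * A.G) (ht : ∀ a1 a2 a3 a4 a5 a6 a7 b1 b2 b3 b4 b5 b6 b7 c1 c2 c3 c4 c5 c6 c7 d1 d2 d3 d4 d5 d6 d7 : ℝ,
      0 ≤ A.fTens a1 a2 a3 a4 a5 a6 a7 b1 b2 b3 b4 b5 b6 b7 c1 c2 c3 c4 c5 c6 c7 d1 d2 d3 d4 d5 d6 d7)
    (hv : ∀ z1 z2 z3 z4 z5 z6 z7 : ℝ, 0 ≤ A.fPV z1 z2 z3 z4 z5 z6 z7 z1 z2 z3 z4 z5 z6 z7) :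
    (2/3125) * (A.T + A.G) ^ 3 - 805413629 * s ^ 3 ≤ psi A s :=
  (rem_bound A s hs hT hG hH).trans (main A s ht hv)

end Cert32

end Vale.Agent.Lib.P252
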