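import Vale.Agent.Lib.P252.Hess12
import Vale.Agent.Lib.P252.CertAux

/-!
The sum of squares certificate for the exponents CertR2.
-/

namespace Vale.Agent.Lib.P252

namespace CertR2

/-- The polynomial form. -/
noncomputable def psi (A : Atoms) (s : ℝ) : ℝ :=
  (-16279/12500)*A.Aqqq*A.G + (60533/100000)*A.Aqqq*A.H + (-58373/50000)*A.Aqqq*A.T + (239588063/125025000)*A.Aqqx*A.G + (-1369/3125)*A.Aqqx*A.H + (23591/12500)*A.Aqqx*A.T + (-74953/50000)*A.Aqqx*s + (-76548597/41675000)*A.Aqxx*A.G + (60533/100000)*A.Aqxx*A.H + (-70991959/41675000)*A.Aqxx*A.T + (76383/50000)*A.Aqxx*s + (437098183/500100000)*A.Axxx*A.G + (-1369/3125)*A.Axxx*A.H + (422327339/500100000)*A.Axxx*A.T + (-50221/50000)*A.Axxx*s + (5812901/31256250)*A.G^3 + (-376897327/500100000)*A.G^2*A.H + (124425373/208375000)*A.G^2*A.T + (-130837/100000)*A.G^2*s + (50302923/83350000)*A.G*A.H^2 + (-889417583/625125000)*A.G*A.H*A.T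 + (144921/50000)*A.G*A.H*s + 1*A.G*A.HH + (-74953/50000)*A.G*A.HM + (76383/100000)*A.G*A.HN + (74953/100000)*A.G*A.MM + (-76383/100000)*A.G*A.MN + (50221/100000)*A.G*A.NN + (348863297/625125000)*A.G*A.T^2 + (-88879/50000)*A.G*A.T*s + (185511/100000)*A.G*A.pqq + (-491453371/250050000)*A.G*A.pqx + (34948049/166700000)*A.G*A.pxx + (75605717/125025000)*A.H^2*A.T + (-60533/50000)*A.H^2*s + (-333997/500000)*A.H*A.T^2 + (87627/50000)*A.H*A.T*s + (-60533/50000)*A.H*A.pqq + (2738/3125)*A.H*A.pqx + 1*A.HH*A.T + (-74953/50000)*A.HM*A.T + (76383/100000)*A.HN*A.T + (74953/100000)*A.MM*A.T + (-76383/100000)*A.MN*A.T + (50221/100000)*A.NN*A.T + (18373/125000)*A.T^3 + (-53029/100000)*A.T^2*s + (158539/100000)*A.T*A.pqq + (-95317/50000)*A.T*A.pqx + (105118747/500100000)*A.T*A.pxx + 2*A.b11 + (-1373/2500)*A.b12 + (-124953/50000)*A.bc11 + (76383/50000)*A.bc12 + (-100221/50000)*A.bc13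 + (1373/5000)*A.bc21 + (1373/5000)*A.bc23 + (74953/100000)*A.c11 + (-76383/100000)*A.c12 + (62587/50000)*A.c13 + (-76383/100000)*A.c23 + (50221/100000)*A.c33 + 2*A.pqx*s + (-1373/2500)*A.pxx*s

/-- The scalar remainder. -/
noncomputable def rem (A : Atoms) (s : ℝ) : ℝ :=
  (33223459/25005000000000)*A.G^3 + (-95134397/25005000000000)*A.G^2*A.H + (-62008619/16670000000000)*A.G^2*A.T + (-4783890511/5000000000)*A.G^2*s + (78540083/8335000000000)*A.G*A.H^2 + (-1718219173/125025000000000)*A.G*A.H*A.T + (9417580593/5000000000)*A.G*A.H*s + (677049617/62512500000000)*A.G*A.T^2 + (-6256037433/5000000000)*A.G*A.T*s + (-470218485343/10000000000)*A.G*s^2 + (1453/1000000000)*A.H^3 + (116948803/10002000000000)*A.H^2*A.T + (-563118401/1250000000)*A.H^2*s + (-241683/25000000000)*A.H*A.T^2 + (6193995283/5000000000)*A.H*A.T*s + (96653/50000000000)*A.T^3 + (-53029/100000)*A.T^2*s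

noncomputable def nf0 (A : Atoms) (s : ℝ) : ℝ :=
  (-3437751557/5000000000)*A.Aqqq*A.G + (-2211763547/5000000000)*A.Aqqq*A.H + (-121103143/5000000000)*A.Aqqq*A.T + (3721761763/5000000000)*A.Aqqx*A.G + (3617056299/2500000000)*A.Aqqx*A.H + (1536231099/5000000000)*A.Aqqx*A.T + (-475245277/2500000000)*A.Aqxx*A.G + (-5330312133/5000000000)*A.Aqxx*A.H + (-3943157239/5000000000)*A.Aqxx*A.T + (3262533/625000000)*A.Axxx*A.G + (181045657/1000000000)*A.Axxx*A.H + (2039055213/5000000000)*A.Axxx*A.T + (571499/2500000000)*A.G^3 + (-13554487/2500000000)*A.G^2*A.H + (1085017/10000000)*A.G^2*A.T + (-524778919/5000000000)*A.G*A.H^2 + (-12018478531/25000000000)*A.G*A.H*A.T + (1467422281/2500000000)*A.G*A.HH + (-2341795591/2500000000)*A.G*A.HM + (1075179633/2500000000)*A.G*A.HN + (373721081/1000000000)*A.G*A.MM + (-1716106521/5000000000)*A.G*A.MN + (157924953/2000000000)*A.G*A.NN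 + (1738706837/10000000000)*A.G*A.T^2 + (4245723953/5000000000)*A.G*A.pqq + (-1257011123/2500000000)*A.G*A.pqx + (8226753/625000000)*A.G*A.pxx + (1978906131/5000000000)*A.H^3 + (-3561274031/12500000000)*A.H^2*A.T + (142923047/250000000)*A.H*A.HH + (-5252186339/5000000000)*A.H*A.HM + (553459213/625000000)*A.H*A.HN + (2370789281/5000000000)*A.H*A.MM + (-3785102003/5000000000)*A.H*A.MN + (123860271/500000000)*A.H*A.NN + (529150887/25000000000)*A.H*A.T^2 + (2127083469/5000000000)*A.H*A.pqq + (-168834581/156250000)*A.H*A.pqx + (1235952073/2500000000)*A.H*A.pxx + (55742117/400000000)*A.HH*A.T + (-144732183/500000000)*A.HM*A.T + (164614041/500000000)*A.HN*A.T + (1504019393/10000000000)*A.MM*A.T + (-855235663/2500000000)*A.MN*A.T + (48632261/250000000)*A.NN*A.T + (2337227/312500000)*A.T^3 + (45778/1953125)*A.T*A.pqq + (-645566317/2500000000)*A.T*A.pqx + (234876661/500000000)*A.T*A.pxx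 + (-13874273/100000000)*A.b11 + (-285474349/500000000)*A.b12 + (-36671457/62500000)*A.b22 + (288838191/1000000000)*A.bc11 + (663599057/2500000000)*A.bc12 + (-844071703/1250000000)*A.bc13 + (455484597/1000000000)*A.bc21 + (3638603449/5000000000)*A.bc22 + (-536662707/1250000000)*A.bc23 + (-46950599/312500000)*A.c11 + (-132112167/1000000000)*A.c12 + (13468361/25000000)*A.c13 + (-70117027/200000000)*A.c22 + (477977859/5000000000)*A.c23 + (-195882201/2500000000)*A.c33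

lemma chunk0 (A : Atoms) (s : ℝ) (ht : ∀ a1 a2 a3 a4 a5 a6 a7 b1 b2 b3 b4 b5 b6 b7 c1 c2 c3 c4 c5 c6 c7 d1 d2 d3 d4 d5 d6 d7 : ℝ,
      0 ≤ A.fTens a1 a2 a3 a4 a5 a6 a7 b1 b2 b3 b4 b5 b6 b7 c1 c2 c3 c4 c5 c6 c7 d1 d2 d3 d4 d5 d6 d7)
    (hv : ∀ z1 z2 z3 z4 z5 z6 z7 : ℝ, 0 ≤ A.fPV z1 z2 z3 z4 z5 z6 z7 z1 z2 z3 z4 z5 z6 z7) :
    0 ≤ nf0 A s := by
  have e : 1 * (A.fTens (2513/10000) (-26783/100000) (15169/50000) (-827/100000) (983/50000) (27711/100000) ((-1939/100000)*A.T+(-3071/100000)*A.H+(-31/800)*A.G) (26709/50000) (-42479/100000) (18597/100000) (18733/50000) (1001/50000) (-161/12500) ((-1663/20000)*A.T+(2341/50000)*A.H+(-7/2000)*A.G) (-5521/20000) (1753/6250) (-16007/50000) 0 0 (-28091/100000) ((613/25000)*A.T+(3007/100000)*A.H+(3987/100000)*A.G) (-1373/2500) (43963/100000) (-10533/50000) (-38077/100000) 0 0 ((1677/20000)*A.T+(-2267/50000)*A.H+(209/25000)*A.G))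 = nf0 A s := by
    unfold nf0 Atoms.fTens Atoms.fIP Atoms.fPV
    ring
  rw [← e]
  exact mul_nonneg (by norm_num) (ht _ _ _ _ _ _ _ _ _ _ _ _ _ _ _ _ _ _ _ _ _ _ _ _ _ _ _ _)

noncomputable def nf1 (A : Atoms) (s : ℝ) : ℝ :=
  (-56527/2500000000)*A.Aqqq*A.G + (-4537/1000000000)*A.Aqqq*A.H + (-301/125000000)*A.Aqqq*A.T + (-723181/2500000000)*A.Aqqx*A.G + (4412191/10000000000)*A.Aqqx*A.H + (38181/2500000000)*A.Aqqx*A.T + (2737773/10000000000)*A.Aqxx*A.G + (3127509/5000000000)*A.Aqxx*A.H + (-2872403/10000000000)*A.Aqxx*A.T + (50891/625000000)*A.Axxx*A.G + (-777633/10000000000)*A.Axxx*A.H + (-1394561/5000000000)*A.Axxx*A.T + (3779789/10000000000)*A.G^3 + (-620659/5000000000)*A.G^2*A.H + (-72230801/100000000000)*A.G^2*A.T + (10636091/20000000000)*A.G*A.H^2 + (-3620023/12500000000)*A.G*A.H*A.T + (966197/10000000000)*A.G*A.HH + (1673/15625000)*A.G*A.HM + (60379/5000000000)*A.G*A.HN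 + (3581/100000000)*A.G*A.MM + (2917/100000000)*A.G*A.MN + (104653/5000000000)*A.G*A.NN + (30449211/50000000000)*A.G*A.T^2 + (-12977/2500000000)*A.G*A.pqq + (-1781/15625000)*A.G*A.pqx + (500911/2500000000)*A.G*A.pxx + (584511/2500000000)*A.H^3 + (-9244107/12500000000)*A.H^2*A.T + (-21733/1000000000)*A.H*A.HH + (-5207/312500000)*A.H*A.HM + (347113/2500000000)*A.H*A.HN + (-1451/500000000)*A.H*A.MM + (339571/5000000000)*A.H*A.MN + (-4647/625000000)*A.H*A.NN + (160109/12500000000)*A.H*A.T^2 + (-32489/625000000)*A.H*A.pqq + (3089359/10000000000)*A.H*A.pqx + (322383/2500000000)*A.H*A.pxx + (37949/5000000000)*A.HH*A.T + (6517/1000000000)*A.HM*A.T + (-10663/1250000000)*A.HN*A.T + (23137/10000000000)*A.MM*A.T + (30911/2500000000)*A.MN*A.T + (18149/250000000)*A.NN*A.T + (-53/15625000)*A.T^3 + (-1961/500000000)*A.T*A.pqq + (73143/1250000000)*A.T*A.pqx + (-1918497/10000000000)*A.T*A.pxx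 + (34251/5000000000)*A.b11 + (349/200000000)*A.b12 + (-224257/2500000000)*A.b22 + (8151/1000000000)*A.bc11 + (-1173/200000000)*A.bc12 + (-414021/2500000000)*A.bc13 + (-6343/500000000)*A.bc21 + (-265389/2500000000)*A.bc22 + (109519/5000000000)*A.bc23 + (441/312500000)*A.c11 + (-66309/2500000000)*A.c12 + (-21357/250000000)*A.c13 + (-481457/5000000000)*A.c22 + (88429/2500000000)*A.c23 + (20801/1000000000)*A.c33

lemma chunk1 (A : Atoms) (s : ℝ) (ht : ∀ a1 a2 a3 a4 a5 a6 a7 b1 b2 b3 b4 b5 b6 b7 c1 c2 c3 c4 c5 c6 c7 d1 d2 d3 d4 d5 d6 d7 : ℝ,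
      0 ≤ A.fTens a1 a2 a3 a4 a5 a6 a7 b1 b2 b3 b4 b5 b6 b7 c1 c2 c3 c4 c5 c6 c7 d1 d2 d3 d4 d5 d6 d7)
    (hv : ∀ z1 z2 z3 z4 z5 z6 z7 : ℝ, 0 ≤ A.fPV z1 z2 z3 z4 z5 z6 z7 z1 z2 z3 z4 z5 z6 z7) :
    0 ≤ nf1 A s := by
  have e : 1 * (A.fTens (147/100000) (9/6250) (313/50000) (3/12500) (29/10000) (-137/20000) ((-2/3125)*A.T+(-649/50000)*A.H+(261/25000)*A.G) (551/100000) (1/1000) (-341/100000) (-239/100000) (-13/100000) (-171/100000) ((327/25000)*A.T+(-217/20000)*A.H+(-1099/100000)*A.G) (233/100000) (49/100000) (-289/50000) 0 0 (1019/100000) ((-47/50000)*A.T+(307/50000)*A.H+(-217/20000)*A.G) (-407/50000) (-59/10000) (-61/20000) (-43/25000) 0 0 ((-27/50000)*A.T+(933/50000)*A.H+(113/100000)*A.G)) = nf1 A s := by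
    unfold nf1 Atoms.fTens Atoms.fIP Atoms.fPV
    ring
  rw [← e]
  exact mul_nonneg (by norm_num) (ht _ _ _ _ _ _ _ _ _ _ _ _ _ _ _ _ _ _ _ _ _ _ _ _ _ _ _ _)

noncomputable def nf2 (A : Atoms) (s : ℝ) : ℝ :=
  (20923661/5000000000)*A.Aqqq*A.G + (7579257/5000000000)*A.Aqqq*A.H + (61900143/2500000000)*A.Aqqq*A.T + (16742781/2500000000)*A.Aqqx*A.G + (33997687/10000000000)*A.Aqqx*A.H + (9048049/5000000000)*A.Aqqx*A.T + (-82443/78125000)*A.Aqxx*A.G + (-5570201/625000000)*A.Aqxx*A.H + (122521551/10000000000)*A.Aqxx*A.T + (-2354661/5000000000)*A.Axxx*A.G + (33918089/5000000000)*A.Axxx*A.H + (2462553/1250000000)*A.Axxx*A.T + (305099/10000000000)*A.G^3 + (444623/5000000000)*A.G^2*A.H + (3494319/25000000000)*A.G^2*A.T + (-34357263/10000000000)*A.G*A.H^2 + (-98976003/50000000000)*A.G*A.H*A.T + (731189/250000000)*A.G*A.HH + (-2354839/1250000000)*A.G*A.HM + (-24778051/2500000000)*A.G*A.HN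 + (758693/2500000000)*A.G*A.MM + (3989179/1250000000)*A.G*A.MN + (83974321/10000000000)*A.G*A.NN + (-218574399/100000000000)*A.G*A.T^2 + (-10594087/5000000000)*A.G*A.pqq + (-1428161/5000000000)*A.G*A.pqx + (710193/2500000000)*A.G*A.pxx + (6408989/10000000000)*A.H^3 + (-1371571919/100000000000)*A.H^2*A.T + (-26889499/2500000000)*A.H*A.HH + (-37016419/2500000000)*A.H*A.HM + (51239549/5000000000)*A.H*A.HN + (7369581/1250000000)*A.H*A.MM + (167506719/5000000000)*A.H*A.MN + (16876441/1250000000)*A.H*A.NN + (-23626061/25000000000)*A.H*A.T^2 + (2064617/2500000000)*A.H*A.pqq + (2533337/250000000)*A.H*A.pqx + (-4953899/1250000000)*A.H*A.pxx + (98938661/10000000000)*A.HH*A.T + (168351963/5000000000)*A.HM*A.T + (36690393/2500000000)*A.HN*A.T + (287887833/10000000000)*A.MM*A.T + (7819269/312500000)*A.MN*A.T + (2178689/400000000)*A.NN*A.T + (-1286897783/50000000000)*A.T^3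 + (4559403/312500000)*A.T*A.pqq + (-73477431/5000000000)*A.T*A.pqx + (128511/62500000)*A.T*A.pxx + (-4935841/500000000)*A.b11 + (26787763/2500000000)*A.b12 + (-3632617/1250000000)*A.b22 + (-84384399/2500000000)*A.bc11 + (3677997/1000000000)*A.bc12 + (19917861/2500000000)*A.bc13 + (-8642717/2500000000)*A.bc21 + (-40657847/2500000000)*A.bc22 + (24592507/2500000000)*A.bc23 + (-8972019/312500000)*A.c11 + (-154718493/5000000000)*A.c12 + (-3211323/1250000000)*A.c13 + (-9208077/250000000)*A.c22 + (-83334489/5000000000)*A.c23 + (-2080911/250000000)*A.c33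

lemma chunk2 (A : Atoms) (s : ℝ) (ht : ∀ a1 a2 a3 a4 a5 a6 a7 b1 b2 b3 b4 b5 b6 b7 c1 c2 c3 c4 c5 c6 c7 d1 d2 d3 d4 d5 d6 d7 : ℝ,
      0 ≤ A.fTens a1 a2 a3 a4 a5 a6 a7 b1 b2 b3 b4 b5 b6 b7 c1 c2 c3 c4 c5 c6 c7 d1 d2 d3 d4 d5 d6 d7)
    (hv : ∀ z1 z2 z3 z4 z5 z6 z7 : ℝ, 0 ≤ A.fPV z1 z2 z3 z4 z5 z6 z7 z1 z2 z3 z4 z5 z6 z7) :
    0 ≤ nf2 A s := by
  have e : 1 * (A.fTens (1453/20000) (11547/100000) (164/3125) (171/50000) (-7/100000) (91/12500) ((-5149/100000)*A.T+(277/12500)*A.H+(-1/160)*A.G) (-2017/50000) (319/25000) (1379/20000) (1187/50000) (-199/50000) (223/50000) ((-1/2500)*A.T+(-1923/100000)*A.H+(1/625)*A.G) (-3397/50000) (-777/6250) (-5189/100000) 0 0 (-167/25000) ((1301/25000)*A.T+(-443/20000)*A.H+(301/50000)*A.G) (1801/50000) (-593/50000) (-1509/25000) (-167/6250) 0 0 ((187/100000)*A.T+(349/20000)*A.H+(-257/100000)*A.G)) = nf2 A s := by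
    unfold nf2 Atoms.fTens Atoms.fIP Atoms.fPV
    ring
  rw [← e]
  exact mul_nonneg (by norm_num) (ht _ _ _ _ _ _ _ _ _ _ _ _ _ _ _ _ _ _ _ _ _ _ _ _ _ _ _ _)

noncomputable def nf3 (A : Atoms) (s : ℝ) : ℝ :=
  (-39/1250000000)*A.Aqqq*A.G + (119001/10000000000)*A.Aqqq*A.H + (-2313/2500000000)*A.Aqqq*A.T + (35951/2500000000)*A.Aqqx*A.G + (-128569/500000000)*A.Aqqx*A.H + (-181273/10000000000)*A.Aqqx*A.T + (236633/5000000000)*A.Aqxx*A.G + (10851/2500000000)*A.Aqxx*A.H + (319899/2500000000)*A.Aqxx*A.T + (-50547/5000000000)*A.Axxx*A.G + (158517/5000000000)*A.Axxx*A.H + (-175633/2500000000)*A.Axxx*A.T + (75843/5000000000)*A.G^3 + (-176053/5000000000)*A.G^2*A.H + (93643/1250000000)*A.G^2*A.T + (-2123229/10000000000)*A.G*A.H^2 + (-2858191/12500000000)*A.G*A.H*A.T + (18329/1000000000)*A.G*A.HH + (-9531/5000000000)*A.G*A.HM + (7421/1000000000)*A.G*A.HN + (1297/2000000000)*A.G*A.MM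 + (24319/5000000000)*A.G*A.MN + (24509/2000000000)*A.G*A.NN + (7132123/100000000000)*A.G*A.T^2 + (-911009/10000000000)*A.G*A.pqq + (84401/2500000000)*A.G*A.pqx + (99103/5000000000)*A.G*A.pxx + (1939331/5000000000)*A.H^3 + (6571977/20000000000)*A.H^2*A.T + (-1007/156250000)*A.H*A.HH + (2281/1250000000)*A.H*A.HM + (341703/5000000000)*A.H*A.HN + (4249/2500000000)*A.H*A.MM + (493/1250000000)*A.H*A.MN + (-1173/312500000)*A.H*A.NN + (1186313/25000000000)*A.H*A.T^2 + (391697/10000000000)*A.H*A.pqq + (180279/10000000000)*A.H*A.pqx + (-297703/5000000000)*A.H*A.pxx + (15821/5000000000)*A.HH*A.T + (18037/5000000000)*A.HM*A.T + (-8877/500000000)*A.HN*A.T + (2293/2000000000)*A.MM*A.T + (-16293/2500000000)*A.MN*A.T + (130833/2500000000)*A.NN*A.T + (-45237/50000000000)*A.T^3 + (-253/2500000000)*A.T*A.pqq + (-267879/10000000000)*A.T*A.pqx + (6283/500000000)*A.T*A.pxx + (8379/5000000000)*A.b11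 + (5183/625000000)*A.b12 + (-90763/5000000000)*A.b22 + (14743/5000000000)*A.bc11 + (43293/5000000000)*A.bc12 + (-152199/2500000000)*A.bc13 + (9391/5000000000)*A.bc21 + (1141/78125000)*A.bc22 + (-16651/5000000000)*A.bc23 + (671/625000000)*A.c11 + (1589/5000000000)*A.c12 + (2751/2500000000)*A.c13 + (-188419/5000000000)*A.c22 + (-4943/312500000)*A.c23 + (1791/156250000)*A.c33

lemma chunk3 (A : Atoms) (s : ℝ) (ht : ∀ a1 a2 a3 a4 a5 a6 a7 b1 b2 b3 b4 b5 b6 b7 c1 c2 c3 c4 c5 c6 c7 d1 d2 d3 d4 d5 d6 d7 : ℝ,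
      0 ≤ A.fTens a1 a2 a3 a4 a5 a6 a7 b1 b2 b3 b4 b5 b6 b7 c1 c2 c3 c4 c5 c6 c7 d1 d2 d3 d4 d5 d6 d7)
    (hv : ∀ z1 z2 z3 z4 z5 z6 z7 : ℝ, 0 ≤ A.fPV z1 z2 z3 z4 z5 z6 z7 z1 z2 z3 z4 z5 z6 z7) :
    0 ≤ nf3 A s := by
  have e : 1 * (A.fTens (-171/100000) (-11/12500) (39/6250) (-7/100000) (49/20000) (-69/12500) ((129/100000)*A.T+(117/20000)*A.H+(23/12500)*A.G) (281/100000) (-73/100000) (-199/100000) (-751/100000) (-53/50000) (21/20000) ((29/50000)*A.T+(31/25000)*A.H+(-143/100000)*A.G) (-49/100000) (-61/100000) (-183/50000) 0 0 (51/100000) ((-1/4000)*A.T+(-91/12500)*A.H+(271/100000)*A.G) (-323/100000) (-17/50000) (-9/3125) (463/100000) 0 0 ((-23/50000)*A.T+(-57/20000)*A.H+(51/25000)*A.G)) = nf3 A s := by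
    unfold nf3 Atoms.fTens Atoms.fIP Atoms.fPV
    ring
  rw [← e]
  exact mul_nonneg (by norm_num) (ht _ _ _ _ _ _ _ _ _ _ _ _ _ _ _ _ _ _ _ _ _ _ _ _ _ _ _ _)

noncomputable def nf4 (A : Atoms) (s : ℝ) : ℝ :=
  (2559007/10000000000)*A.Aqqq*A.G + (-477651/2500000000)*A.Aqqq*A.H + (-45223/312500000)*A.Aqqq*A.T + (75977/500000000)*A.Aqqx*A.G + (-2888559/10000000000)*A.Aqqx*A.H + (-1355573/5000000000)*A.Aqqx*A.T + (402301/2000000000)*A.Aqxx*A.G + (-40841/156250000)*A.Aqxx*A.H + (-73941/1250000000)*A.Aqxx*A.T + (10443/1250000000)*A.Axxx*A.G + (-371373/2000000000)*A.Axxx*A.H + (524959/5000000000)*A.Axxx*A.T + (777169/2000000000)*A.G^3 + (-352679/625000000)*A.G^2*A.H + (-75575469/100000000000)*A.G^2*A.T + (14241167/20000000000)*A.G*A.H^2 + (30250639/50000000000)*A.G*A.H*A.T + (26689/10000000000)*A.G*A.HH + (-5271/2500000000)*A.G*A.HM + (-1541/625000000)*A.G*A.HN +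 (612757/10000000000)*A.G*A.MM + (-36193/5000000000)*A.G*A.MN + (1693/2000000000)*A.G*A.NN + (7381247/20000000000)*A.G*A.T^2 + (213/20000000)*A.G*A.pqq + (1199641/5000000000)*A.G*A.pqx + (-1953/125000000)*A.G*A.pxx + (-4826293/10000000000)*A.H^3 + (-12766533/100000000000)*A.H^2*A.T + (-267/500000000)*A.H*A.HH + (-466171/2500000000)*A.H*A.HM + (24607/2500000000)*A.H*A.HN + (-186871/1250000000)*A.H*A.MM + (-166791/1250000000)*A.H*A.MN + (871/78125000)*A.H*A.NN + (1427669/5000000000)*A.H*A.T^2 + (-638641/2500000000)*A.H*A.pqq + (-36361/312500000)*A.H*A.pqx + (-1035281/5000000000)*A.H*A.pxx + (343969/2500000000)*A.HH*A.T + (284143/1250000000)*A.HM*A.T + (275483/1250000000)*A.HN*A.T + (47437/500000000)*A.MM*A.T + (229333/1250000000)*A.MN*A.T + (221897/2500000000)*A.NN*A.T + (-3336477/50000000000)*A.T^3 + (-10611/62500000)*A.T*A.pqq + (-38371/156250000)*A.T*A.pqx +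 (138931/1000000000)*A.T*A.pxx + (1011/7812500)*A.b11 + (-8449/625000000)*A.b12 + (-621/250000000)*A.b22 + (17321/78125000)*A.bc11 + (128011/625000000)*A.bc12 + (-169/19531250)*A.bc13 + (-414777/2500000000)*A.bc21 + (145417/5000000000)*A.bc22 + (8329/5000000000)*A.bc23 + (7337/78125000)*A.c11 + (93009/2500000000)*A.c12 + (-344123/2500000000)*A.c13 + (4791/31250000)*A.c22 + (567/625000000)*A.c23 + (23/1250000000)*A.c33

lemma chunk4 (A : Atoms) (s : ℝ) (ht : ∀ a1 a2 a3 a4 a5 a6 a7 b1 b2 b3 b4 b5 b6 b7 c1 c2 c3 c4 c5 c6 c7 d1 d2 d3 d4 d5 d6 d7 : ℝ,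
      0 ≤ A.fTens a1 a2 a3 a4 a5 a6 a7 b1 b2 b3 b4 b5 b6 b7 c1 c2 c3 c4 c5 c6 c7 d1 d2 d3 d4 d5 d6 d7)
    (hv : ∀ z1 z2 z3 z4 z5 z6 z7 : ℝ, 0 ≤ A.fPV z1 z2 z3 z4 z5 z6 z7 z1 z2 z3 z4 z5 z6 z7) :
    0 ≤ nf4 A s := by
  have e : 1 * (A.fTens (-337/50000) (-319/50000) (-299/50000) (23/25000) (-897/100000) (-313/100000) ((371/100000)*A.T+(-91/20000)*A.H+(-83/100000)*A.G) (27/20000) (193/50000) (-23/25000) (359/50000) (283/100000) (667/100000) ((231/100000)*A.T+(3/500)*A.H+(-487/100000)*A.G) (-6/625) (-23/3125) (-91/12500) 0 0 (-127/20000) ((127/25000)*A.T+(-131/100000)*A.H+(-1/20000)*A.G) (-23/25000) (681/100000) (-1/100000) (913/50000) 0 0 ((231/100000)*A.T+(79/10000)*A.H+(-1123/100000)*A.G)) = nf4 A s := by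
    unfold nf4 Atoms.fTens Atoms.fIP Atoms.fPV
    ring
  rw [← e]
  exact mul_nonneg (by norm_num) (ht _ _ _ _ _ _ _ _ _ _ _ _ _ _ _ _ _ _ _ _ _ _ _ _ _ _ _ _)

noncomputable def nf5 (A : Atoms) (s : ℝ) : ℝ :=
  (-59633/5000000000)*A.Aqqq*A.G + (1233/312500000)*A.Aqqq*A.H + (1269/1250000000)*A.Aqqq*A.T + (5599/80000000)*A.Aqqx*A.G + (61479/5000000000)*A.Aqqx*A.H + (2613/625000000)*A.Aqqx*A.T + (7403/156250000)*A.Aqxx*A.G + (149153/10000000000)*A.Aqxx*A.H + (42333/5000000000)*A.Aqxx*A.T + (-19893/2500000000)*A.Axxx*A.G + (-79011/5000000000)*A.Axxx*A.H + (-957/78125000)*A.Axxx*A.T + (173409/10000000000)*A.G^3 + (-26251/1000000000)*A.G^2*A.H + (1595821/4000000000)*A.G^2*A.T + (-632839/4000000000)*A.G*A.H^2 + (-2662929/25000000000)*A.G*A.H*A.T + (4969/1250000000)*A.G*A.HH + (5943/1250000000)*A.G*A.HM + (5197/1250000000)*A.G*A.HN + (2597/1000000000)*A.G*A.MM + (3003/500000000)*A.G*A.MN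 + (1861/500000000)*A.G*A.NN + (67043/5000000000)*A.G*A.T^2 + (-8219/312500000)*A.G*A.pqq + (266267/5000000000)*A.G*A.pqx + (411/125000000)*A.G*A.pxx + (-40379/5000000000)*A.H^3 + (172571/5000000000)*A.H^2*A.T + (-13003/2500000000)*A.H*A.HH + (-29989/5000000000)*A.H*A.HM + (-4751/2500000000)*A.H*A.HN + (-4277/2500000000)*A.H*A.MM + (10063/5000000000)*A.H*A.MN + (12333/2500000000)*A.H*A.NN + (61659/25000000000)*A.H*A.T^2 + (341/78125000)*A.H*A.pqq + (-8859/400000000)*A.H*A.pqx + (-9841/625000000)*A.H*A.pxx + (18241/10000000000)*A.HH*A.T + (1269/500000000)*A.HM*A.T + (409/312500000)*A.HN*A.T + (2209/2500000000)*A.MM*A.T + (517/625000000)*A.MN*A.T + (24737/10000000000)*A.NN*A.T + (-90637/50000000000)*A.T^3 + (143/100000000)*A.T*A.pqq + (357/40000000)*A.T*A.pqx + (95367/10000000000)*A.T*A.pxx + (27/250000000)*A.b11 + (2717/2500000000)*A.b12 + (-2231/1250000000)*A.b22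 + (47/625000000)*A.bc11 + (4977/1000000000)*A.bc12 + (-2727/500000000)*A.bc13 + (17591/5000000000)*A.bc21 + (-2837/2500000000)*A.bc22 + (-9563/1250000000)*A.bc23 + (3337/625000000)*A.c12 + (-7889/5000000000)*A.c13 + (11649/5000000000)*A.c22 + (-2673/500000000)*A.c23 + (-91/39062500)*A.c33

lemma chunk5 (A : Atoms) (s : ℝ) (ht : ∀ a1 a2 a3 a4 a5 a6 a7 b1 b2 b3 b4 b5 b6 b7 c1 c2 c3 c4 c5 c6 c7 d1 d2 d3 d4 d5 d6 d7 : ℝ,
      0 ≤ A.fTens a1 a2 a3 a4 a5 a6 a7 b1 b2 b3 b4 b5 b6 b7 c1 c2 c3 c4 c5 c6 c7 d1 d2 d3 d4 d5 d6 d7)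
    (hv : ∀ z1 z2 z3 z4 z5 z6 z7 : ℝ, 0 ≤ A.fPV z1 z2 z3 z4 z5 z6 z7 z1 z2 z3 z4 z5 z6 z7) :
    0 ≤ nf5 A s := by
  have e : 1 * (A.fTens (1/25000) 0 (151/100000) (1/2500) (69/50000) (-19/5000) ((7/50000)*A.T+(33/100000)*A.H+(-427/50000)*A.G) (23/50000) (133/100000) (91/50000) (33/12500) (203/100000) (-19/20000) ((1/2500)*A.T+(-9/5000)*A.H+(-27/50000)*A.G) (27/20000) (47/50000) (11/25000) 0 0 (361/100000) ((-3/4000)*A.T+(6/3125)*A.H+(311/50000)*A.G) (-97/50000) (-91/100000) (-2/3125) (9/10000) 0 0 ((-119/100000)*A.T+(147/100000)*A.H+(-11/6250)*A.G)) = nf5 A s := by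
    unfold nf5 Atoms.fTens Atoms.fIP Atoms.fPV
    ring
  rw [← e]
  exact mul_nonneg (by norm_num) (ht _ _ _ _ _ _ _ _ _ _ _ _ _ _ _ _ _ _ _ _ _ _ _ _ _ _ _ _)

noncomputable def nf6 (A : Atoms) (s : ℝ) : ℝ :=
  (57/400000000)*A.Aqqq*A.G + (-2221/1000000000)*A.Aqqq*A.H + (3341/125000000)*A.Aqqq*A.T + (-27/1250000000)*A.Aqqx*A.G + (2079/5000000000)*A.Aqqx*A.H + (-21747/5000000000)*A.Aqqx*A.T + (3/2000000000)*A.Aqxx*A.G + (-293/10000000000)*A.Aqxx*A.H + (3569/10000000000)*A.Aqxx*A.T + (9/10000000000)*A.Axxx*A.H + (-111/10000000000)*A.Axxx*A.T + (91/20000000000)*A.G^2*A.T + (167/20000000000)*A.G*A.H^2 + (-12687/50000000000)*A.G*A.H*A.T + (1/312500000)*A.G*A.HH + (7/625000000)*A.G*A.HM + (-1/625000000)*A.G*A.HN + (49/5000000000)*A.G*A.MM + (-7/2500000000)*A.G*A.MN + (1/5000000000)*A.G*A.NN + (202727/100000000000)*A.G*A.T^2 + (39/500000000)*A.G*A.pqq + (-3/500000000)*A.G*A.pqx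 + (-139/2000000000)*A.H^3 + (266167/100000000000)*A.H^2*A.T + (-7/62500000)*A.H*A.HH + (-101/250000000)*A.H*A.HM + (49/1250000000)*A.H*A.HN + (-91/250000000)*A.H*A.MM + (179/2500000000)*A.H*A.MN + (-7/2500000000)*A.H*A.NN + (-836743/25000000000)*A.H*A.T^2 + (-1213/1000000000)*A.H*A.pqq + (691/5000000000)*A.H*A.pqx + (-9/2500000000)*A.H*A.pxx + (49/50000000)*A.HH*A.T + (91/25000000)*A.HM*A.T + (-49/250000000)*A.HN*A.T + (169/50000000)*A.MM*A.T + (-91/250000000)*A.MN*A.T + (49/5000000000)*A.NN*A.T + (1388389/10000000000)*A.T^3 + (1799/125000000)*A.T*A.pqq + (-7987/5000000000)*A.T*A.pqx + (327/5000000000)*A.T*A.pxx + (49/50000000)*A.b11 + (-7/62500000)*A.b12 + (1/312500000)*A.b22 + (91/25000000)*A.bc11 + (-101/250000000)*A.bc12 + (7/625000000)*A.bc13 + (-49/250000000)*A.bc21 + (49/1250000000)*A.bc22 + (-1/625000000)*A.bc23 + (169/50000000)*A.c11 + (-91/125000000)*A.c12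 + (49/2500000000)*A.c13 + (179/2500000000)*A.c22 + (-7/1250000000)*A.c23 + (1/5000000000)*A.c33

lemma chunk6 (A : Atoms) (s : ℝ) (ht : ∀ a1 a2 a3 a4 a5 a6 a7 b1 b2 b3 b4 b5 b6 b7 c1 c2 c3 c4 c5 c6 c7 d1 d2 d3 d4 d5 d6 d7 : ℝ,
      0 ≤ A.fTens a1 a2 a3 a4 a5 a6 a7 b1 b2 b3 b4 b5 b6 b7 c1 c2 c3 c4 c5 c6 c7 d1 d2 d3 d4 d5 d6 d7)
    (hv : ∀ z1 z2 z3 z4 z5 z6 z7 : ℝ, 0 ≤ A.fPV z1 z2 z3 z4 z5 z6 z7 z1 z2 z3 z4 z5 z6 z7) :
    0 ≤ nf6 A s := by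
  have e : 1 * (A.fTens (7/10000) (13/10000) (-7/100000) (37/20000) (-11/100000) (1/100000) ((329/100000)*A.T+(-19/100000)*A.H+(1/50000)*A.G) (-1/25000) (-7/100000) (1/100000) (-11/100000) (1/100000) 0 ((-19/100000)*A.T+(1/100000)*A.H) (7/10000) (13/10000) (-7/100000) 0 0 (1/100000) ((329/100000)*A.T+(-19/100000)*A.H+(1/50000)*A.G) (-1/25000) (-7/100000) (1/100000) (-11/100000) 0 0 ((-19/100000)*A.T+(1/100000)*A.H)) = nf6 A s := by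
    unfold nf6 Atoms.fTens Atoms.fIP Atoms.fPV
    ring
  rw [← e]
  exact mul_nonneg (by norm_num) (ht _ _ _ _ _ _ _ _ _ _ _ _ _ _ _ _ _ _ _ _ _ _ _ _ _ _ _ _)

noncomputable def nf7 (A : Atoms) (s : ℝ) : ℝ :=
  (-77/39062500)*A.Aqqq*A.G + (-87/1250000000)*A.Aqqq*A.H + (7/156250000)*A.Aqqq*A.T + (-118707/10000000000)*A.Aqqx*A.G + (-30087/10000000000)*A.Aqqx*A.H + (3747/5000000000)*A.Aqqx*A.T + (724263/10000000000)*A.Aqxx*A.G + (-533/125000000)*A.Aqxx*A.H + (1039/2000000000)*A.Aqxx*A.T + (-60601/5000000000)*A.Axxx*A.G + (353533/10000000000)*A.Axxx*A.H + (-125461/10000000000)*A.Axxx*A.T + (128131/10000000000)*A.G^3 + (-257851/1250000000)*A.G^2*A.H + (40836689/100000000000)*A.G^2*A.T + (8902651/20000000000)*A.G*A.H^2 + (-1428087/6250000000)*A.G*A.H*A.T + (13/2500000000)*A.G*A.HH + (9/500000000)*A.G*A.HM + (-147/2500000000)*A.G*A.HN + (1053/10000000000)*A.G*A.MM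 + (-7803/5000000000)*A.G*A.MN + (60961/10000000000)*A.G*A.NN + (28557/2500000000)*A.G*A.T^2 + (-237/125000000)*A.G*A.pqq + (291/2500000000)*A.G*A.pqx + (151/2500000000)*A.G*A.pxx + (22831/1000000000)*A.H^3 + (-103297/6250000000)*A.H^2*A.T + (-7/2500000000)*A.H*A.HH + (331/5000000000)*A.H*A.HM + (-2767/5000000000)*A.H*A.HN + (387/5000000000)*A.H*A.MM + (-1361/2500000000)*A.H*A.MN + (-3097/5000000000)*A.H*A.NN + (7533/3125000000)*A.H*A.T^2 + (-503/5000000000)*A.H*A.pqq + (-20519/10000000000)*A.H*A.pqx + (-639/5000000000)*A.H*A.pxx + (73/5000000000)*A.HH*A.T + (39/1250000000)*A.HM*A.T + (3/125000000)*A.HN*A.T + (17/1000000000)*A.MM*A.T + (73/2500000000)*A.MN*A.T + (97/5000000000)*A.NN*A.T + (969/10000000000)*A.T^3 + (51/1250000000)*A.T*A.pqq + (29/50000000)*A.T*A.pqx + (-8639/10000000000)*A.T*A.pxx + (11/1000000000)*A.b11 + (23/2500000000)*A.b12 + (-3/625000000)*A.b22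 + (33/1250000000)*A.bc11 + (103/2500000000)*A.bc12 + (-11/2500000000)*A.bc13 + (387/5000000000)*A.bc21 + (-2759/5000000000)*A.bc22 + (-101/1250000000)*A.bc23 + (77/5000000000)*A.c11 + (601/5000000000)*A.c12 + (369/5000000000)*A.c13 + (-321/625000000)*A.c22 + (-11087/5000000000)*A.c23 + (1521/250000000)*A.c33

lemma chunk7 (A : Atoms) (s : ℝ) (ht : ∀ a1 a2 a3 a4 a5 a6 a7 b1 b2 b3 b4 b5 b6 b7 c1 c2 c3 c4 c5 c6 c7 d1 d2 d3 d4 d5 d6 d7 : ℝ,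
      0 ≤ A.fTens a1 a2 a3 a4 a5 a6 a7 b1 b2 b3 b4 b5 b6 b7 c1 c2 c3 c4 c5 c6 c7 d1 d2 d3 d4 d5 d6 d7)
    (hv : ∀ z1 z2 z3 z4 z5 z6 z7 : ℝ, 0 ≤ A.fPV z1 z2 z3 z4 z5 z6 z7 z1 z2 z3 z4 z5 z6 z7) :
    0 ≤ nf7 A s := by
  have e : 1 * (A.fTens (11/100000) (11/100000) (1/20000) (1/20000) (-1/50000) (-123/50000) ((1/20000)*A.T+(-1/2000)*A.H+(-287/50000)*A.G) (-1/25000) (9/50000) (-9/5000) (1/6250) (-211/100000) (2/3125) ((157/100000)*A.T+(-193/100000)*A.H+(21/20000)*A.G) (1/20000) (7/100000) (13/100000) 0 0 (-17/6250) ((9/100000)*A.T+(-49/100000)*A.H+(-303/50000)*A.G) (3/50000) (27/100000) (-169/100000) (21/100000) 0 0 ((167/100000)*A.T+(-97/50000)*A.H+(57/50000)*A.G)) = nf7 A s := by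
    unfold nf7 Atoms.fTens Atoms.fIP Atoms.fPV
    ring
  rw [← e]
  exact mul_nonneg (by norm_num) (ht _ _ _ _ _ _ _ _ _ _ _ _ _ _ _ _ _ _ _ _ _ _ _ _ _ _ _ _)

noncomputable def nf8 (A : Atoms) (s : ℝ) : ℝ :=
  (51113/5000000000)*A.Aqqq*A.G + (24419/5000000000)*A.Aqqq*A.H + (1131/2500000000)*A.Aqqq*A.T + (32801/2000000000)*A.Aqqx*A.G + (163941/5000000000)*A.Aqqx*A.H + (8233/1000000000)*A.Aqqx*A.T + (307643/10000000000)*A.Aqxx*A.G + (141951/10000000000)*A.Aqxx*A.H + (192221/5000000000)*A.Aqxx*A.T + (9897/5000000000)*A.Axxx*A.G + (52391/10000000000)*A.Axxx*A.H + (2303/625000000)*A.Axxx*A.T + (139477/2000000000)*A.G^3 + (57793/625000000)*A.G^2*A.H + (21179151/100000000000)*A.G^2*A.T + (2674033/20000000000)*A.G*A.H^2 + (9574991/50000000000)*A.G*A.H*A.T + (11449/5000000000)*A.G*A.HH + (14231/2500000000)*A.G*A.HM + (107/200000000)*A.G*A.HN + (1769/500000000)*A.G*A.MM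 + (1663/2500000000)*A.G*A.MN + (313/10000000000)*A.G*A.NN + (15953803/100000000000)*A.G*A.T^2 + (87071/10000000000)*A.G*A.pqq + (111217/10000000000)*A.G*A.pqx + (10593/625000000)*A.G*A.pxx + (317643/10000000000)*A.H^3 + (19903031/100000000000)*A.H^2*A.T + (7169/5000000000)*A.H*A.HH + (7237/2500000000)*A.H*A.HM + (19027/5000000000)*A.H*A.HN + (1729/1250000000)*A.H*A.MM + (11629/2500000000)*A.H*A.MN + (531/1250000000)*A.H*A.NN + (211877/6250000000)*A.H*A.T^2 + (11079/2000000000)*A.H*A.pqq + (9097/500000000)*A.H*A.pqx + (67899/10000000000)*A.H*A.pxx + (449/2000000000)*A.HH*A.T + (871/2500000000)*A.HM*A.T + (89/78125000)*A.HN*A.T + (169/1250000000)*A.MM*A.T + (221/250000000)*A.MN*A.T + (3613/2500000000)*A.NN*A.T + (18169/25000000000)*A.T^3 + (583/1000000000)*A.T*A.pqq + (83363/10000000000)*A.T*A.pqx + (154157/10000000000)*A.T*A.pxx + (561/2500000000)*A.b11 + (7169/5000000000)*A.b12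 + (11449/5000000000)*A.b22 + (871/2500000000)*A.bc11 + (5629/2500000000)*A.bc12 + (1819/500000000)*A.bc13 + (557/312500000)*A.bc21 + (293/50000000)*A.bc22 + (107/200000000)*A.bc23 + (169/1250000000)*A.c11 + (1417/625000000)*A.c12 + (5653/1250000000)*A.c13 + (12781/2500000000)*A.c22 + (109/100000000)*A.c23 + (39/1250000000)*A.c33

lemma chunk8 (A : Atoms) (s : ℝ) (ht : ∀ a1 a2 a3 a4 a5 a6 a7 b1 b2 b3 b4 b5 b6 b7 c1 c2 c3 c4 c5 c6 c7 d1 d2 d3 d4 d5 d6 d7 : ℝ,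
      0 ≤ A.fTens a1 a2 a3 a4 a5 a6 a7 b1 b2 b3 b4 b5 b6 b7 c1 c2 c3 c4 c5 c6 c7 d1 d2 d3 d4 d5 d6 d7)
    (hv : ∀ z1 z2 z3 z4 z5 z6 z7 : ℝ, 0 ≤ A.fPV z1 z2 z3 z4 z5 z6 z7 z1 z2 z3 z4 z5 z6 z7) :
    0 ≤ nf8 A s := by
  have e : 1 * (A.fTens (17/50000) (13/50000) (43/50000) (29/100000) (121/100000) (23/50000) ((7/50000)*A.T+(37/25000)*A.H+(97/100000)*A.G) (107/100000) (33/25000) (3/25000) (7/5000) (9/20000) (137/100000) ((169/50000)*A.T+(57/100000)*A.H+(8/3125)*A.G) (33/100000) (13/50000) (21/25000) 0 0 (3/6250) ((3/20000)*A.T+(149/100000)*A.H+(99/100000)*A.G) (107/100000) (67/50000) (13/100000) (29/20000) 0 0 ((173/50000)*A.T+(29/50000)*A.H+(131/50000)*A.G)) = nf8 A s := by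
    unfold nf8 Atoms.fTens Atoms.fIP Atoms.fPV
    ring
  rw [← e]
  exact mul_nonneg (by norm_num) (ht _ _ _ _ _ _ _ _ _ _ _ _ _ _ _ _ _ _ _ _ _ _ _ _ _ _ _ _)

noncomputable def nf9 (A : Atoms) (s : ℝ) : ℝ :=
  (-3414541/5000000000)*A.Aqqq*A.G + (3777437/156250000)*A.Aqqq*A.H + (-21128571/156250000)*A.Aqqq*A.T + (733872233/5000000000)*A.Aqqx*A.G + (-2007202909/10000000000)*A.Aqqx*A.H + (542783643/2500000000)*A.Aqqx*A.T + (-798986467/5000000000)*A.Aqxx*A.G + (65786003/2000000000)*A.Aqxx*A.H + (-15564047/10000000000)*A.Aqxx*A.T + (350168/9765625)*A.Axxx*A.G + (413794781/5000000000)*A.Axxx*A.H + (-431751201/10000000000)*A.Axxx*A.T + (49651283/10000000000)*A.G^3 + (-39073477/1000000000)*A.G^2*A.H + (3408691001/100000000000)*A.G^2*A.T + (591304751/20000000000)*A.G*A.H^2 + (-637292357/10000000000)*A.G*A.H*A.T + (672882893/5000000000)*A.G*A.HH + (-10713543/39062500)*A.G*A.HM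 + (1318887299/5000000000)*A.G*A.HN + (34935169/250000000)*A.G*A.MM + (-671978397/2500000000)*A.G*A.MN + (1292553457/10000000000)*A.G*A.NN + (167748143/4000000000)*A.G*A.T^2 + (15919241/2000000000)*A.G*A.pqq + (-1730965869/10000000000)*A.G*A.pqx + (7319009/200000000)*A.G*A.pxx + (-294382097/10000000000)*A.H^3 + (11474118249/100000000000)*A.H^2*A.T + (-1410276639/2500000000)*A.H*A.HH + (1262989587/1250000000)*A.H*A.HM + (-1896319687/2500000000)*A.H*A.HN + (-277390537/625000000)*A.H*A.MM + (1591057543/2500000000)*A.H*A.MN + (-503901749/2500000000)*A.H*A.NN + (-570952917/5000000000)*A.H*A.T^2 + (-500647/16000000)*A.H*A.pqq + (56548103/250000000)*A.H*A.pqx + (844033007/10000000000)*A.H*A.pxx + (2956720149/5000000000)*A.HH*A.T + (-1141322841/1250000000)*A.HM*A.T + (2155867383/5000000000)*A.HN*A.T + (44056469/125000000)*A.MM*A.T + (-41609329/125000000)*A.MN*A.T + (157193257/2000000000)*A.NN*A.T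 + (1051693273/50000000000)*A.T^3 + (437852931/2500000000)*A.T*A.pqq + (-343549257/2000000000)*A.T*A.pqx + (-1520844309/10000000000)*A.T*A.pxx + (-2956561101/5000000000)*A.b11 + (1409937111/2500000000)*A.b12 + (-134431617/1000000000)*A.b22 + (1141230909/1250000000)*A.bc11 + (-4332582311/5000000000)*A.bc12 + (1028033813/5000000000)*A.bc13 + (-89804847/156250000)*A.bc21 + (4133842657/5000000000)*A.bc22 + (-1317617079/5000000000)*A.bc23 + (-6882993/19531250)*A.c11 + (970671103/1250000000)*A.c12 + (-20953567/100000000)*A.c13 + (-1612328947/2500000000)*A.c22 + (2350444707/5000000000)*A.c23 + (-80715027/625000000)*A.c33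

lemma chunk9 (A : Atoms) (s : ℝ) (ht : ∀ a1 a2 a3 a4 a5 a6 a7 b1 b2 b3 b4 b5 b6 b7 c1 c2 c3 c4 c5 c6 c7 d1 d2 d3 d4 d5 d6 d7 : ℝ,
      0 ≤ A.fTens a1 a2 a3 a4 a5 a6 a7 b1 b2 b3 b4 b5 b6 b7 c1 c2 c3 c4 c5 c6 c7 d1 d2 d3 d4 d5 d6 d7)
    (hv : ∀ z1 z2 z3 z4 z5 z6 z7 : ℝ, 0 ≤ A.fPV z1 z2 z3 z4 z5 z6 z7 z1 z2 z3 z4 z5 z6 z7) :
    0 ≤ nf9 A s := by
  have e : 1 * (A.fTens (-54093/100000) (10413/25000) (-9857/50000) (299/100000) (-233/100000) (4099/50000) ((1607/20000)*A.T+(-3561/100000)*A.H+(683/50000)*A.G) (25331/100000) (-12957/50000) (24889/100000) (-611/25000) (201/20000) (-11/2500) ((-927/50000)*A.T+(-233/100000)*A.H+(-3439/100000)*A.G) (54657/100000) (-1322/3125) (19933/100000) 0 0 (-13/160) ((-8067/100000)*A.T+(3573/100000)*A.H+(-697/50000)*A.G) (-5307/20000) (13471/50000) (-3243/12500) (1939/100000) 0 0 ((249/12500)*A.T+(243/100000)*A.H+(9/250)*A.G)) =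 nf9 A s := by
    unfold nf9 Atoms.fTens Atoms.fIP Atoms.fPV
    ring
  rw [← e]
  exact mul_nonneg (by norm_num) (ht _ _ _ _ _ _ _ _ _ _ _ _ _ _ _ _ _ _ _ _ _ _ _ _ _ _ _ _)

noncomputable def nf10 (A : Atoms) (s : ℝ) : ℝ :=
  (-13563/100000000)*A.Aqqq*A.G + (13025617/5000000000)*A.Aqqq*A.H + (-616833/31250000)*A.Aqqq*A.T + (-13483679/5000000000)*A.Aqqx*A.G + (229873037/10000000000)*A.Aqqx*A.H + (-26544181/1000000000)*A.Aqqx*A.T + (-8851977/2000000000)*A.Aqxx*A.G + (56241927/10000000000)*A.Aqxx*A.H + (-2763927/2000000000)*A.Aqxx*A.T + (5360391/1000000000)*A.Axxx*A.G + (-79385537/10000000000)*A.Axxx*A.H + (30477637/10000000000)*A.Axxx*A.T + (11828267/10000000000)*A.G^3 + (-19763907/5000000000)*A.G^2*A.H + (167696963/100000000000)*A.G^2*A.T + (86157027/20000000000)*A.G*A.H^2 + (13702643/50000000000)*A.G*A.H*A.T + (2773017/1250000000)*A.G*A.HH + (-3688353/2500000000)*A.G*A.HM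 + (-15001587/2500000000)*A.G*A.HN + (3014117/10000000000)*A.G*A.MM + (4957509/2500000000)*A.G*A.MN + (40584897/10000000000)*A.G*A.NN + (8177617/5000000000)*A.G*A.T^2 + (1109457/5000000000)*A.G*A.pqq + (914841/250000000)*A.G*A.pqx + (-9905361/2500000000)*A.G*A.pxx + (178259/2000000000)*A.H^3 + (-6204589/1562500000)*A.H^2*A.T + (2217429/2500000000)*A.H*A.HH + (25060413/2500000000)*A.H*A.HM + (3839253/1000000000)*A.H*A.HN + (-17313039/5000000000)*A.H*A.MM + (-9901583/625000000)*A.H*A.MN + (-33956457/5000000000)*A.H*A.NN + (119354869/25000000000)*A.H*A.T^2 + (-27630117/5000000000)*A.H*A.pqq + (-53356011/10000000000)*A.H*A.pqx + (11753421/5000000000)*A.H*A.pxx + (1719513/10000000000)*A.HH*A.T + (10364787/5000000000)*A.HM*A.T + (5200239/5000000000)*A.HN*A.T + (61605169/5000000000)*A.MM*A.T + (29588593/2500000000)*A.MN*A.T + (14240321/5000000000)*A.NN*A.T + (17781401/10000000000)*A.T^3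 + (-358293/250000000)*A.T*A.pqq + (-20943051/5000000000)*A.T*A.pqx + (-9004419/10000000000)*A.T*A.pxx + (-30411/1250000000)*A.b11 + (1813941/2500000000)*A.b12 + (546309/250000000)*A.b22 + (8649963/5000000000)*A.bc11 + (55474299/5000000000)*A.bc12 + (6146139/1250000000)*A.bc13 + (-411339/5000000000)*A.bc21 + (-1165239/500000000)*A.bc22 + (-14810643/2500000000)*A.bc23 + (60856081/5000000000)*A.c11 + (42254603/5000000000)*A.c12 + (-7342067/5000000000)*A.c13 + (-27681293/2500000000)*A.c22 + (-3031617/625000000)*A.c23 + (2509083/625000000)*A.c33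

lemma chunk10 (A : Atoms) (s : ℝ) (ht : ∀ a1 a2 a3 a4 a5 a6 a7 b1 b2 b3 b4 b5 b6 b7 c1 c2 c3 c4 c5 c6 c7 d1 d2 d3 d4 d5 d6 d7 : ℝ,
      0 ≤ A.fTens a1 a2 a3 a4 a5 a6 a7 b1 b2 b3 b4 b5 b6 b7 c1 c2 c3 c4 c5 c6 c7 d1 d2 d3 d4 d5 d6 d7)
    (hv : ∀ z1 z2 z3 z4 z5 z6 z7 : ℝ, 0 ≤ A.fPV z1 z2 z3 z4 z5 z6 z7 z1 z2 z3 z4 z5 z6 z7) :
    0 ≤ nf10 A s := by
  have e : 1 * (A.fTens (327/25000) (8437/100000) (4209/100000) (-859/20000) (-4943/50000) (443/50000) ((-2421/100000)*A.T+(223/100000)*A.H+(-51/100000)*A.G) (1803/50000) (-1681/100000) (-603/12500) (649/100000) (713/20000) (-13/500) ((-867/100000)*A.T+(1287/100000)*A.H+(-187/100000)*A.G) (-93/100000) (7213/100000) (3281/100000) 0 0 (-113/20000) ((-1661/100000)*A.T+(1/50000)*A.H+(7/10000)*A.G) (303/10000) (-217/50000) (-4161/100000) (901/20000) 0 0 ((-81/10000)*A.T+(229/20000)*A.H+(-69/12500)*A.G)) = nf10 A s := by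
    unfold nf10 Atoms.fTens Atoms.fIP Atoms.fPV
    ring
  rw [← e]
  exact mul_nonneg (by norm_num) (ht _ _ _ _ _ _ _ _ _ _ _ _ _ _ _ _ _ _ _ _ _ _ _ _ _ _ _ _)

noncomputable def nf11 (A : Atoms) (s : ℝ) : ℝ :=
  (537/250000000)*A.Aqqq*A.G + (-6709/500000000)*A.Aqqq*A.H + (-3091/1250000000)*A.Aqqq*A.T + (-40519/1000000000)*A.Aqqx*A.G + (-29933/625000000)*A.Aqqx*A.H + (7337/500000000)*A.Aqqx*A.T + (-587157/5000000000)*A.Aqxx*A.G + (-971087/5000000000)*A.Aqxx*A.H + (-3949/1000000000)*A.Aqxx*A.T + (-298291/625000000)*A.Axxx*A.G + (-66807/1250000000)*A.Axxx*A.H + (205149/1000000000)*A.Axxx*A.T + (2420429/10000000000)*A.G^3 + (425357/1250000000)*A.G^2*A.H + (-8222991/25000000000)*A.G^2*A.T + (3230087/10000000000)*A.G*A.H^2 + (-5130239/25000000000)*A.G*A.H*A.T + (22877/5000000000)*A.G*A.HH + (-23069/5000000000)*A.G*A.HM + (-225283/5000000000)*A.G*A.HN + (12013/10000000000)*A.G*A.MM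 + (116939/5000000000)*A.G*A.MN + (227737/2000000000)*A.G*A.NN + (6511737/25000000000)*A.G*A.T^2 + (-2517/5000000000)*A.G*A.pqq + (12853/1250000000)*A.G*A.pqx + (59661/625000000)*A.G*A.pxx + (24183/100000000)*A.H^3 + (-10845393/50000000000)*A.H^2*A.T + (14619/2500000000)*A.H*A.HH + (-38953/5000000000)*A.H*A.HM + (-42237/2500000000)*A.H*A.HN + (5887/2500000000)*A.H*A.MM + (40109/2500000000)*A.H*A.MN + (-10579/156250000)*A.H*A.NN + (4197/1250000000)*A.H*A.T^2 + (10449/500000000)*A.H*A.pqq + (322097/5000000000)*A.H*A.pqx + (529587/5000000000)*A.H*A.pxx + (11393/5000000000)*A.HH*A.T + (-383/125000000)*A.HM*A.T + (41869/5000000000)*A.HN*A.T + (1453/1250000000)*A.MM*A.T + (-17433/2500000000)*A.MN*A.T + (22201/2000000000)*A.NN*A.T + (401/781250000)*A.T^3 + (9137/2500000000)*A.T*A.pqq + (-50629/5000000000)*A.T*A.pqx + (-55571/2500000000)*A.T*A.pxx + (393/200000000)*A.b11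 + (643/100000000)*A.b12 + (861/200000000)*A.b22 + (-1999/625000000)*A.bc11 + (27877/5000000000)*A.bc12 + (62729/5000000000)*A.bc13 + (-15937/5000000000)*A.bc21 + (-11189/312500000)*A.bc22 + (-224399/5000000000)*A.bc23 + (287/250000000)*A.c11 + (-5323/1250000000)*A.c12 + (-34717/5000000000)*A.c13 + (16499/500000000)*A.c22 + (-219039/5000000000)*A.c23 + (284599/2500000000)*A.c33

lemma chunk11 (A : Atoms) (s : ℝ) (ht : ∀ a1 a2 a3 a4 a5 a6 a7 b1 b2 b3 b4 b5 b6 b7 c1 c2 c3 c4 c5 c6 c7 d1 d2 d3 d4 d5 d6 d7 : ℝ,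
      0 ≤ A.fTens a1 a2 a3 a4 a5 a6 a7 b1 b2 b3 b4 b5 b6 b7 c1 c2 c3 c4 c5 c6 c7 d1 d2 d3 d4 d5 d6 d7)
    (hv : ∀ z1 z2 z3 z4 z5 z6 z7 : ℝ, 0 ≤ A.fPV z1 z2 z3 z4 z5 z6 z7 z1 z2 z3 z4 z5 z6 z7) :
    0 ≤ nf11 A s := by
  have e : 1 * (A.fTens (131/100000) (-7/10000) (149/100000) (57/50000) (299/50000) (323/100000) ((-13/25000)*A.T+(49/50000)*A.H+(-141/100000)*A.G) (123/100000) (-39/50000) (-373/50000) (-39/100000) (31/25000) (1627/100000) ((-143/25000)*A.T+(33/10000)*A.H+(77/100000)*A.G) (3/4000) (-41/50000) (149/50000) 0 0 (227/100000) ((-1/10000)*A.T+(417/100000)*A.H+(-29/20000)*A.G) (7/4000) (-77/100000) (-763/100000) (-117/100000) 0 0 ((-61/10000)*A.T+(377/100000)*A.H+(-171/100000)*A.G)) = nf11 A s := by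
    unfold nf11 Atoms.fTens Atoms.fIP Atoms.fPV
    ring
  rw [← e]
  exact mul_nonneg (by norm_num) (ht _ _ _ _ _ _ _ _ _ _ _ _ _ _ _ _ _ _ _ _ _ _ _ _ _ _ _ _)

noncomputable def nf12 (A : Atoms) (s : ℝ) : ℝ :=
  (104421/5000000000)*A.Aqqq*A.G + (80483/2500000000)*A.Aqqq*A.H + (-3599/625000000)*A.Aqqq*A.T + (-38007/312500000)*A.Aqqx*A.G + (-1832407/5000000000)*A.Aqqx*A.H + (496323/5000000000)*A.Aqqx*A.T + (-558707/10000000000)*A.Aqxx*A.G + (-601403/5000000000)*A.Aqxx*A.H + (-56051/500000000)*A.Aqxx*A.T + (-11689/2500000000)*A.Axxx*A.G + (272347/10000000000)*A.Axxx*A.H + (-1186029/5000000000)*A.Axxx*A.T + (1066593/5000000000)*A.G^3 + (-4419/100000000)*A.G^2*A.H + (-14942923/100000000000)*A.G^2*A.T + (-424233/4000000000)*A.G*A.H^2 + (1526833/10000000000)*A.G*A.H*A.T + (1099117/10000000000)*A.G*A.HH + (144117/1000000000)*A.G*A.HM + (51919/312500000)*A.G*A.HN +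 (604873/10000000000)*A.G*A.MM + (274139/2500000000)*A.G*A.MN + (627941/10000000000)*A.G*A.NN + (2955039/50000000000)*A.G*A.T^2 + (-67649/1000000000)*A.G*A.pqq + (-471621/5000000000)*A.G*A.pqx + (-8873/1000000000)*A.G*A.pxx + (-1460973/10000000000)*A.H^3 + (-2134809/50000000000)*A.H^2*A.T + (-204583/5000000000)*A.H*A.HH + (-485973/5000000000)*A.H*A.HM + (209457/1000000000)*A.H*A.HN + (-24207/625000000)*A.H*A.MM + (81871/625000000)*A.H*A.MN + (456021/2500000000)*A.H*A.NN + (481521/12500000000)*A.H*A.T^2 + (11121/625000000)*A.H*A.pqq + (-241377/2000000000)*A.H*A.pqx + (-57299/500000000)*A.H*A.pxx + (14393/1000000000)*A.HH*A.T + (19939/1250000000)*A.HM*A.T + (-26223/500000000)*A.HN*A.T + (3877/625000000)*A.MM*A.T + (-33621/625000000)*A.MN*A.T + (66753/500000000)*A.NN*A.T + (-410129/50000000000)*A.T^3 + (1087/5000000000)*A.T*A.pqq + (654187/5000000000)*A.T*A.pqx +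 (-166043/10000000000)*A.T*A.pxx + (-6443/5000000000)*A.b11 + (-321403/5000000000)*A.b12 + (253023/2500000000)*A.b22 + (10831/1250000000)*A.bc11 + (-293481/2500000000)*A.bc12 + (578697/2500000000)*A.bc13 + (-129377/5000000000)*A.bc21 + (571667/5000000000)*A.bc22 + (769049/5000000000)*A.bc23 + (837/156250000)*A.c11 + (-112229/1250000000)*A.c12 + (441453/2500000000)*A.c13 + (7117/50000000)*A.c22 + (1491461/5000000000)*A.c23 + (29213/500000000)*A.c33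

lemma chunk12 (A : Atoms) (s : ℝ) (ht : ∀ a1 a2 a3 a4 a5 a6 a7 b1 b2 b3 b4 b5 b6 b7 c1 c2 c3 c4 c5 c6 c7 d1 d2 d3 d4 d5 d6 d7 : ℝ,
      0 ≤ A.fTens a1 a2 a3 a4 a5 a6 a7 b1 b2 b3 b4 b5 b6 b7 c1 c2 c3 c4 c5 c6 c7 d1 d2 d3 d4 d5 d6 d7)
    (hv : ∀ z1 z2 z3 z4 z5 z6 z7 : ℝ, 0 ≤ A.fPV z1 z2 z3 z4 z5 z6 z7 z1 z2 z3 z4 z5 z6 z7) :
    0 ≤ nf12 A s := by
  have e : 1 * (A.fTens (379/100000) (27/12500) (-183/25000) (-7/50000) (-11/25000) (427/50000) ((-103/50000)*A.T+(-23/25000)*A.H+(-53/50000)*A.G) (-579/100000) (-683/100000) (-223/50000) (-563/100000) (-1009/100000) (-301/100000) ((53/25000)*A.T+(-7/12500)*A.H+(893/100000)*A.G) (-17/100000) (31/25000) (-447/50000) 0 0 (79/10000) ((7/100000)*A.T+(39/5000)*A.H+(151/50000)*A.G) (-437/50000) (-93/25000) (-131/20000) (183/20000) 0 0 ((187/50000)*A.T+(-399/100000)*A.H+(-129/25000)*A.G)) = nf12 A s := by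
    unfold nf12 Atoms.fTens Atoms.fIP Atoms.fPV
    ring
  rw [← e]
  exact mul_nonneg (by norm_num) (ht _ _ _ _ _ _ _ _ _ _ _ _ _ _ _ _ _ _ _ _ _ _ _ _ _ _ _ _)

noncomputable def nf13 (A : Atoms) (s : ℝ) : ℝ :=
  (-43/625000000)*A.Aqqq*A.G + (43/62500000)*A.Aqqq*A.H + (-3053/250000000)*A.Aqqq*A.T + (1/125000000)*A.Aqqx*A.G + (-143/1250000000)*A.Aqqx*A.H + (527/250000000)*A.Aqqx*A.T + (1/250000000)*A.Aqxx*A.H + (-1/12500000)*A.Aqxx*A.T + (1/625000000)*A.G^2*A.T + (1/500000000)*A.G*A.H^2 + (-1209/12500000000)*A.G*A.H*A.T + (49/5000000000)*A.G*A.HH + (7/500000000)*A.G*A.HM + (1/200000000)*A.G*A.MM + (2999/3125000000)*A.G*A.T^2 + (-61/625000000)*A.G*A.pqq + (7/1250000000)*A.G*A.pqx + (-9/500000000)*A.H^3 + (783/781250000)*A.H^2*A.T + (-427/1250000000)*A.H*A.HH + (-303/625000000)*A.H*A.HM + (7/500000000)*A.H*A.HN + (-43/250000000)*A.H*A.MM + (1/100000000)*A.H*A.MN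 + (-20641/1250000000)*A.H*A.T^2 + (61/62500000)*A.H*A.pqq + (-131/1250000000)*A.H*A.pqx + (7/2500000000)*A.H*A.pxx + (3721/1250000000)*A.HH*A.T + (2623/625000000)*A.HM*A.T + (-61/250000000)*A.HN*A.T + (1849/1250000000)*A.MM*A.T + (-43/250000000)*A.MN*A.T + (1/200000000)*A.NN*A.T + (191203/2500000000)*A.T^3 + (-4331/250000000)*A.T*A.pqq + (197/100000000)*A.T*A.pqx + (-7/125000000)*A.T*A.pxx + (-3721/1250000000)*A.b11 + (427/1250000000)*A.b12 + (-49/5000000000)*A.b22 + (-2623/625000000)*A.bc11 + (303/625000000)*A.bc12 + (-7/500000000)*A.bc13 + (61/250000000)*A.bc21 + (-7/500000000)*A.bc22 + (-1849/1250000000)*A.c11 + (43/125000000)*A.c12 + (-1/100000000)*A.c13 + (-1/100000000)*A.c22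

lemma chunk13 (A : Atoms) (s : ℝ) (ht : ∀ a1 a2 a3 a4 a5 a6 a7 b1 b2 b3 b4 b5 b6 b7 c1 c2 c3 c4 c5 c6 c7 d1 d2 d3 d4 d5 d6 d7 : ℝ,
      0 ≤ A.fTens a1 a2 a3 a4 a5 a6 a7 b1 b2 b3 b4 b5 b6 b7 c1 c2 c3 c4 c5 c6 c7 d1 d2 d3 d4 d5 d6 d7)
    (hv : ∀ z1 z2 z3 z4 z5 z6 z7 : ℝ, 0 ≤ A.fPV z1 z2 z3 z4 z5 z6 z7 z1 z2 z3 z4 z5 z6 z7) :
    0 ≤ nf13 A s := by
  have e : 1 * (A.fTens (-61/50000) (-43/50000) (1/20000) 0 0 0 ((-71/20000)*A.T+(1/5000)*A.H+(-1/50000)*A.G) (7/100000) (1/20000) 0 0 0 0 ((1/5000)*A.T+(-1/100000)*A.H) (61/50000) (43/50000) (-1/20000) 0 0 0 ((71/20000)*A.T+(-1/5000)*A.H+(1/50000)*A.G) (-7/100000) (-1/20000) 0 0 0 0 ((-1/5000)*A.T+(1/100000)*A.H)) = nf13 A s := by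
    unfold nf13 Atoms.fTens Atoms.fIP Atoms.fPV
    ring
  rw [← e]
  exact mul_nonneg (by norm_num) (ht _ _ _ _ _ _ _ _ _ _ _ _ _ _ _ _ _ _ _ _ _ _ _ _ _ _ _ _)

noncomputable def nf14 (A : Atoms) (s : ℝ) : ℝ :=
  (141/5000000000)*A.Aqqq*A.G + (-4621/2500000000)*A.Aqqq*A.H + (3703/312500000)*A.Aqqq*A.T + (-1/1000000000)*A.Aqqx*A.G + (229/1250000000)*A.Aqqx*A.H + (-4487/2500000000)*A.Aqqx*A.T + (-1/250000000)*A.Aqxx*A.H + (591/5000000000)*A.Aqxx*A.T + (-3/1000000000)*A.Axxx*A.T + (1/1250000000)*A.G^2*A.T + (1/1250000000)*A.G*A.H^2 + (-319/25000000000)*A.G*A.H*A.T + (81/5000000000)*A.G*A.HH + (-9/500000000)*A.G*A.HM + (1/200000000)*A.G*A.MM + (3837/25000000000)*A.G*A.T^2 + (-283/5000000000)*A.G*A.pqq + (27/5000000000)*A.G*A.pqx + (-37/5000000000)*A.H^3 + (9877/25000000000)*A.H^2*A.T + (-1359/2500000000)*A.H*A.HH + (1583/2500000000)*A.H*A.HM + (-9/500000000)*A.H*A.HN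 + (-23/125000000)*A.H*A.MM + (1/100000000)*A.H*A.MN + (-42399/12500000000)*A.H*A.T^2 + (15891/5000000000)*A.H*A.pqq + (-573/2500000000)*A.H*A.pqx + (9/5000000000)*A.H*A.pxx + (22801/5000000000)*A.HH*A.T + (-3473/625000000)*A.HM*A.T + (151/500000000)*A.HN*A.T + (529/312500000)*A.MM*A.T + (-23/125000000)*A.MN*A.T + (1/200000000)*A.NN*A.T + (608993/50000000000)*A.T^3 + (-24311/1250000000)*A.T*A.pqq + (9233/5000000000)*A.T*A.pqx + (-327/5000000000)*A.T*A.pxx + (22801/5000000000)*A.b11 + (-1359/2500000000)*A.b12 + (81/5000000000)*A.b22 + (-3473/625000000)*A.bc11 + (1583/2500000000)*A.bc12 + (-9/500000000)*A.bc13 + (151/500000000)*A.bc21 + (-9/500000000)*A.bc22 + (529/312500000)*A.c11 + (-23/62500000)*A.c12 + (1/100000000)*A.c13 + (1/100000000)*A.c22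

lemma chunk14 (A : Atoms) (s : ℝ) (ht : ∀ a1 a2 a3 a4 a5 a6 a7 b1 b2 b3 b4 b5 b6 b7 c1 c2 c3 c4 c5 c6 c7 d1 d2 d3 d4 d5 d6 d7 : ℝ,
      0 ≤ A.fTens a1 a2 a3 a4 a5 a6 a7 b1 b2 b3 b4 b5 b6 b7 c1 c2 c3 c4 c5 c6 c7 d1 d2 d3 d4 d5 d6 d7)
    (hv : ∀ z1 z2 z3 z4 z5 z6 z7 : ℝ, 0 ≤ A.fPV z1 z2 z3 z4 z5 z6 z7 z1 z2 z3 z4 z5 z6 z7) :
    0 ≤ nf14 A s := by
  have e : 1 * (A.fTens (-151/100000) (23/25000) (-1/20000) (91/20000) (-13/50000) (1/100000) ((-133/100000)*A.T+(7/100000)*A.H+(-1/100000)*A.G) (9/100000) (-1/20000) 0 (-13/50000) (1/50000) 0 ((7/100000)*A.T+(-1/100000)*A.H) (-151/100000) (23/25000) (-1/20000) 0 0 (1/100000) ((-133/100000)*A.T+(7/100000)*A.H+(-1/100000)*A.G) (9/100000) (-1/20000) 0 (-13/50000) 0 0 ((7/100000)*A.T+(-1/100000)*A.H)) = nf14 A s := by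
    unfold nf14 Atoms.fTens Atoms.fIP Atoms.fPV
    ring
  rw [← e]
  exact mul_nonneg (by norm_num) (ht _ _ _ _ _ _ _ _ _ _ _ _ _ _ _ _ _ _ _ _ _ _ _ _ _ _ _ _)

noncomputable def nf15 (A : Atoms) (s : ℝ) : ℝ :=
  (1441/125000000)*A.Aqqq*A.G + (-63/1250000000)*A.Aqqq*A.H + (2191/5000000000)*A.Aqqq*A.T + (6369/2500000000)*A.Aqqx*A.G + (-103013/5000000000)*A.Aqqx*A.H + (8803/5000000000)*A.Aqqx*A.T + (-54287/2500000000)*A.Aqxx*A.G + (-133813/10000000000)*A.Aqxx*A.H + (-120971/5000000000)*A.Aqxx*A.T + (-5353/500000000)*A.Axxx*A.G + (-8847/5000000000)*A.Axxx*A.H + (-138213/10000000000)*A.Axxx*A.T + (70981/1250000000)*A.G^3 + (78223/1250000000)*A.G^2*A.H + (21048423/100000000000)*A.G^2*A.T + (684093/20000000000)*A.G*A.H^2 + (6208383/50000000000)*A.G*A.H*A.T + (89/62500000)*A.G*A.HH + (5957/1250000000)*A.G*A.HM + (297/125000000)*A.G*A.HN + (40069/10000000000)*A.G*A.MM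 + (2509/625000000)*A.G*A.MN + (101/100000000)*A.G*A.NN + (9089117/50000000000)*A.G*A.T^2 + (20867/2500000000)*A.G*A.pqq + (18507/5000000000)*A.G*A.pqx + (-157/12500000)*A.G*A.pxx + (94783/10000000000)*A.H^3 + (2599313/50000000000)*A.H^2*A.T + (-2089/1250000000)*A.H*A.HH + (-8511/2500000000)*A.H*A.HM + (-5059/2500000000)*A.H*A.HN + (-4977/5000000000)*A.H*A.MM + (-7593/5000000000)*A.H*A.MN + (-1263/2500000000)*A.H*A.NN + (112467/5000000000)*A.H*A.T^2 + (-567/2500000000)*A.H*A.pqq + (-111143/10000000000)*A.H*A.pqx + (-5209/2500000000)*A.H*A.pxx + (4913/10000000000)*A.HH*A.T + (7/20000000)*A.HM*A.T + (1807/5000000000)*A.HN*A.T + (637/10000000000)*A.MM*A.T + (133/1000000000)*A.MN*A.T + (349/5000000000)*A.NN*A.T + (2963/25000000000)*A.T^3 + (6153/5000000000)*A.T*A.pqq + (56809/5000000000)*A.T*A.pqx + (-163977/10000000000)*A.T*A.pxx + (-611/1250000000)*A.b11 + (2069/1250000000)*A.b12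 + (-437/312500000)*A.b22 + (-343/1000000000)*A.bc11 + (1127/5000000000)*A.bc12 + (23/39062500)*A.bc13 + (13991/5000000000)*A.bc21 + (-521/156250000)*A.bc22 + (-1497/625000000)*A.bc23 + (-147/2500000000)*A.c11 + (4333/5000000000)*A.c12 + (5059/5000000000)*A.c13 + (-17803/5000000000)*A.c22 + (-2191/625000000)*A.c23 + (-629/625000000)*A.c33

lemma chunk15 (A : Atoms) (s : ℝ) (ht : ∀ a1 a2 a3 a4 a5 a6 a7 b1 b2 b3 b4 b5 b6 b7 c1 c2 c3 c4 c5 c6 c7 d1 d2 d3 d4 d5 d6 d7 : ℝ,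
      0 ≤ A.fTens a1 a2 a3 a4 a5 a6 a7 b1 b2 b3 b4 b5 b6 b7 c1 c2 c3 c4 c5 c6 c7 d1 d2 d3 d4 d5 d6 d7)
    (hv : ∀ z1 z2 z3 z4 z5 z6 z7 : ℝ, 0 ≤ A.fPV z1 z2 z3 z4 z5 z6 z7 z1 z2 z3 z4 z5 z6 z7) :
    0 ≤ nf15 A s := by
  have e : 1 * (A.fTens (-13/25000) (-21/100000) (-23/100000) (-3/50000) (-47/50000) (9/100000) ((13/20000)*A.T+(179/100000)*A.H+(51/50000)*A.G) (23/25000) (29/20000) (17/25000) (163/100000) (-1/20000) (1/12500) ((499/100000)*A.T+(73/100000)*A.H+(391/100000)*A.G) (47/100000) (7/50000) (13/100000) 0 0 (-9/100000) ((-59/100000)*A.T+(-181/100000)*A.H+(-99/100000)*A.G) (-19/25000) (-69/50000) (-37/50000) (-87/50000) 0 0 ((-117/25000)*A.T+(-71/100000)*A.H+(-361/100000)*A.G)) = nf15 A s := by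
    unfold nf15 Atoms.fTens Atoms.fIP Atoms.fPV
    ring
  rw [← e]
  exact mul_nonneg (by norm_num) (ht _ _ _ _ _ _ _ _ _ _ _ _ _ _ _ _ _ _ _ _ _ _ _ _ _ _ _ _)

noncomputable def nf16 (A : Atoms) (s : ℝ) : ℝ :=
  (-577017519/5000000000)*A.Aqqq*A.G + (2766052357/10000000000)*A.Aqqq*A.H + (-178396067/1250000000)*A.Aqqq*A.T + (39386257/125000000)*A.Aqqx*A.G + (-3171369759/5000000000)*A.Aqqx*A.H + (463034941/2000000000)*A.Aqqx*A.T + (-1455645787/5000000000)*A.Aqxx*A.G + (4994791827/10000000000)*A.Aqxx*A.H + (-177636039/1250000000)*A.Aqxx*A.T + (419791023/5000000000)*A.Axxx*A.G + (-684962693/5000000000)*A.Axxx*A.H + (236823967/10000000000)*A.Axxx*A.T + (108883003/10000000000)*A.G^3 + (-92209331/1000000000)*A.G^2*A.H + (3694811049/100000000000)*A.G^2*A.T + (4113982873/20000000000)*A.G*A.H^2 + (-4382823609/25000000000)*A.G*A.H*A.T + (3606601/31250000)*A.G*A.HH + (-120847671/625000000)*A.G*A.HM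 + (108103967/625000000)*A.G*A.HN + (811466693/10000000000)*A.G*A.MM + (-721982421/5000000000)*A.G*A.MN + (651860537/10000000000)*A.G*A.NN + (3574477829/100000000000)*A.G*A.T^2 + (348376873/2500000000)*A.G*A.pqq + (-253646113/1000000000)*A.G*A.pqx + (69563817/625000000)*A.G*A.pxx + (-202204951/1250000000)*A.H^3 + (4779461459/20000000000)*A.H^2*A.T + (-120466717/625000000)*A.H*A.HH + (1778724551/5000000000)*A.H*A.HM + (-1177826899/5000000000)*A.H*A.HN + (-816322461/5000000000)*A.H*A.MM + (222289093/1000000000)*A.H*A.MN + (-41569797/625000000)*A.H*A.NN + (-3117165469/25000000000)*A.H*A.T^2 + (-767716079/2500000000)*A.H*A.pqq + (1196631399/2500000000)*A.H*A.pqx + (-142787891/625000000)*A.H*A.pxx + (814033249/10000000000)*A.HH*A.T + (-815981209/5000000000)*A.HM*A.T + (92150793/1250000000)*A.HN*A.T + (82443257/1000000000)*A.MM*A.T + (-75771201/1000000000)*A.MN*A.T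 + (1443357/80000000)*A.NN*A.T + (181936273/6250000000)*A.T^3 + (711832191/5000000000)*A.T*A.pqq + (-408895867/2500000000)*A.T*A.pqx + (333700139/5000000000)*A.T*A.pxx + (20317941/250000000)*A.b11 + (-60503477/312500000)*A.b12 + (4452791/39062500)*A.b22 + (-818795947/5000000000)*A.bc11 + (1340004691/5000000000)*A.bc12 + (-10802379/125000000)*A.bc13 + (404556397/2500000000)*A.bc21 + (-419085859/1250000000)*A.bc22 + (54034321/312500000)*A.bc23 + (409205227/5000000000)*A.c11 + (-585783039/2500000000)*A.c12 + (356481213/5000000000)*A.c13 + (1204431919/5000000000)*A.c22 + (-1053819147/5000000000)*A.c23 + (10185233/156250000)*A.c33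

lemma chunk16 (A : Atoms) (s : ℝ) (ht : ∀ a1 a2 a3 a4 a5 a6 a7 b1 b2 b3 b4 b5 b6 b7 c1 c2 c3 c4 c5 c6 c7 d1 d2 d3 d4 d5 d6 d7 : ℝ,
      0 ≤ A.fTens a1 a2 a3 a4 a5 a6 a7 b1 b2 b3 b4 b5 b6 b7 c1 c2 c3 c4 c5 c6 c7 d1 d2 d3 d4 d5 d6 d7)
    (hv : ∀ z1 z2 z3 z4 z5 z6 z7 : ℝ, 0 ≤ A.fPV z1 z2 z3 z4 z5 z6 z7 z1 z2 z3 z4 z5 z6 z7) :
    0 ≤ nf16 A s := by
  have e : 1 * (A.fTens (-19593/100000) (21493/100000) (-1443/12500) (-2439/12500) (20289/100000) (-13389/100000) ((1389/100000)*A.T+(261/100000)*A.H+(339/25000)*A.G) (3229/12500) (-22463/100000) (18091/100000) (7899/50000) (-36021/100000) (1791/12500) ((-3023/100000)*A.T+(17/12500)*A.H+(-163/6250)*A.G) (-1037/5000) (19039/100000) (-6867/100000) 0 0 (311/4000) ((473/20000)*A.T+(-583/50000)*A.H+(299/50000)*A.G) (1379/6250) (-8759/50000) (563/3125) (593/12500) 0 0 ((-2873/100000)*A.T+(83/50000)*A.H+(-559/20000)*A.G))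 = nf16 A s := by
    unfold nf16 Atoms.fTens Atoms.fIP Atoms.fPV
    ring
  rw [← e]
  exact mul_nonneg (by norm_num) (ht _ _ _ _ _ _ _ _ _ _ _ _ _ _ _ _ _ _ _ _ _ _ _ _ _ _ _ _)

noncomputable def nf17 (A : Atoms) (s : ℝ) : ℝ :=
  (37969191/2500000000)*A.Aqqq*A.G + (-368494557/5000000000)*A.Aqqq*A.H + (-261444817/2500000000)*A.Aqqq*A.T + (716138869/10000000000)*A.Aqqx*A.G + (2890759923/10000000000)*A.Aqqx*A.H + (556559517/2500000000)*A.Aqqx*A.T + (-1501696437/10000000000)*A.Aqxx*A.G + (-619506543/2500000000)*A.Aqxx*A.H + (-883623977/10000000000)*A.Aqxx*A.T + (35759253/625000000)*A.Axxx*A.G + (16636581/400000000)*A.Axxx*A.H + (-206073351/10000000000)*A.Axxx*A.T + (83063829/10000000000)*A.G^3 + (-27777697/625000000)*A.G^2*A.H + (423665009/20000000000)*A.G^2*A.T + (-3896693/160000000)*A.G*A.H^2 + (19324527/1000000000)*A.G*A.H*A.T + (346781629/10000000000)*A.G*A.HH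 + (-332294513/5000000000)*A.G*A.HM + (368213133/5000000000)*A.G*A.HN + (320375861/10000000000)*A.G*A.MM + (-347997321/5000000000)*A.G*A.MN + (40286853/1000000000)*A.G*A.NN + (3016419709/100000000000)*A.G*A.T^2 + (-48448891/2500000000)*A.G*A.pqq + (-498925247/5000000000)*A.G*A.pqx + (127755287/2500000000)*A.G*A.pxx + (438619001/5000000000)*A.H^3 + (-5554572941/100000000000)*A.H^2*A.T + (614170397/5000000000)*A.H*A.HH + (-127797611/625000000)*A.H*A.HM + (19452897/100000000)*A.H*A.HN + (415565483/5000000000)*A.H*A.MM + (-764165949/5000000000)*A.H*A.MN + (350371539/5000000000)*A.H*A.NN + (-1575311787/25000000000)*A.H*A.T^2 + (756960497/10000000000)*A.H*A.pqq + (-477513721/2000000000)*A.H*A.pqx + (473663809/5000000000)*A.H*A.pxx + (112156553/1000000000)*A.HH*A.T + (-815996519/5000000000)*A.HM*A.T + (584983101/5000000000)*A.HN*A.T + (23836093/400000000)*A.MM*A.T +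 (-217385661/2500000000)*A.MN*A.T + (342909081/10000000000)*A.NN*A.T + (201763351/12500000000)*A.T^3 + (357043619/2500000000)*A.T*A.pqq + (-1948817511/10000000000)*A.T*A.pqx + (-353652849/10000000000)*A.T*A.pxx + (531811493/5000000000)*A.b11 + (548075401/5000000000)*A.b12 + (13569357/500000000)*A.b22 + (-157936367/1000000000)*A.bc11 + (41616201/1000000000)*A.bc12 + (68098059/1000000000)*A.bc13 + (-502788837/5000000000)*A.bc21 + (9831601/125000000)*A.bc22 + (328149771/5000000000)*A.bc23 + (145987869/2500000000)*A.c11 + (-70376353/5000000000)*A.c12 + (-64431591/1000000000)*A.c13 + (-203964527/5000000000)*A.c22 + (35335323/2500000000)*A.c23 + (190789767/5000000000)*A.c33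

lemma chunk17 (A : Atoms) (s : ℝ) (ht : ∀ a1 a2 a3 a4 a5 a6 a7 b1 b2 b3 b4 b5 b6 b7 c1 c2 c3 c4 c5 c6 c7 d1 d2 d3 d4 d5 d6 d7 : ℝ,
      0 ≤ A.fTens a1 a2 a3 a4 a5 a6 a7 b1 b2 b3 b4 b5 b6 b7 c1 c2 c3 c4 c5 c6 c7 d1 d2 d3 d4 d5 d6 d7)
    (hv : ∀ z1 z2 z3 z4 z5 z6 z7 : ℝ, 0 ≤ A.fPV z1 z2 z3 z4 z5 z6 z7 z1 z2 z3 z4 z5 z6 z7) :
    0 ≤ nf17 A s := by
  have e : 1 * (A.fTens (-27179/100000) (18903/100000) (-1323/12500) (-9389/50000) (30271/100000) (4121/100000) ((2247/50000)*A.T+(-1719/100000)*A.H+(121/25000)*A.G) (-16773/100000) (16681/100000) (-16311/100000) (3/400) (24609/100000) (-12293/100000) ((71/6250)*A.T+(363/50000)*A.H+(99/4000)*A.G) (-19567/100000) (7723/50000) (-3039/20000) 0 0 (-5113/50000) ((697/25000)*A.T+(123/25000)*A.H+(1411/100000)*A.G) (-809/10000) (649/10000) (-11697/100000) (-332/3125) 0 0 ((223/25000)*A.T+(547/100000)*A.H+(359/20000)*A.G))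 = nf17 A s := by
    unfold nf17 Atoms.fTens Atoms.fIP Atoms.fPV
    ring
  rw [← e]
  exact mul_nonneg (by norm_num) (ht _ _ _ _ _ _ _ _ _ _ _ _ _ _ _ _ _ _ _ _ _ _ _ _ _ _ _ _)

noncomputable def nf18 (A : Atoms) (s : ℝ) : ℝ :=
  (37291/1250000000)*A.Aqqq*A.G + (980739/5000000000)*A.Aqqq*A.H + (75551/1000000000)*A.Aqqq*A.T + (366567/1000000000)*A.Aqqx*A.G + (-2993191/10000000000)*A.Aqqx*A.H + (-328163/1250000000)*A.Aqqx*A.T + (542933/5000000000)*A.Aqxx*A.G + (-635557/5000000000)*A.Aqxx*A.H + (-1097807/10000000000)*A.Aqxx*A.T + (-62319/312500000)*A.Axxx*A.G + (412747/2500000000)*A.Axxx*A.H + (549861/5000000000)*A.Axxx*A.T + (310571/250000000)*A.G^3 + (-1112391/625000000)*A.G^2*A.H + (-56447817/20000000000)*A.G^2*A.T + (47212629/20000000000)*A.G*A.H^2 + (108058227/50000000000)*A.G*A.H*A.T + (115193/1000000000)*A.G*A.HH + (449273/2500000000)*A.G*A.HM + (-52883/625000000)*A.G*A.HN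 + (7057/100000000)*A.G*A.MM + (-40221/625000000)*A.G*A.MN + (5297/312500000)*A.G*A.NN + (7376917/5000000000)*A.G*A.T^2 + (4033/156250000)*A.G*A.pqq + (981797/2000000000)*A.G*A.pqx + (6677/12500000)*A.G*A.pxx + (-3287881/2000000000)*A.H^3 + (-12649241/12500000000)*A.H^2*A.T + (1016387/5000000000)*A.H*A.HH + (819373/2500000000)*A.H*A.HM + (-1030683/5000000000)*A.H*A.HN + (329917/2500000000)*A.H*A.MM + (-415697/2500000000)*A.H*A.MN + (56979/1250000000)*A.H*A.NN + (-171743/5000000000)*A.H*A.T^2 + (582821/2500000000)*A.H*A.pqq + (-1450671/10000000000)*A.H*A.pqx + (-4451543/10000000000)*A.H*A.pxx + (913861/10000000000)*A.HH*A.T + (767731/5000000000)*A.HM*A.T + (-139437/1250000000)*A.HN*A.T + (322513/5000000000)*A.MM*A.T + (-469683/5000000000)*A.MN*A.T + (361989/10000000000)*A.NN*A.T + (-80853/781250000)*A.T^3 + (22453/250000000)*A.T*A.pqq + (-593599/2500000000)*A.T*A.pqx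 + (-3726139/10000000000)*A.T*A.pxx + (-45297/500000000)*A.b11 + (-1025999/5000000000)*A.b12 + (-570133/5000000000)*A.b22 + (-152407/1000000000)*A.bc11 + (-290529/5000000000)*A.bc12 + (625347/5000000000)*A.bc13 + (-399981/2500000000)*A.bc21 + (-50147/500000000)*A.bc22 + (54611/625000000)*A.bc23 + (-64093/1000000000)*A.c11 + (-192007/5000000000)*A.c12 + (119349/1250000000)*A.c13 + (-93809/2500000000)*A.c22 + (24391/1250000000)*A.c23 + (-957/62500000)*A.c33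

lemma chunk18 (A : Atoms) (s : ℝ) (ht : ∀ a1 a2 a3 a4 a5 a6 a7 b1 b2 b3 b4 b5 b6 b7 c1 c2 c3 c4 c5 c6 c7 d1 d2 d3 d4 d5 d6 d7 : ℝ,
      0 ≤ A.fTens a1 a2 a3 a4 a5 a6 a7 b1 b2 b3 b4 b5 b6 b7 c1 c2 c3 c4 c5 c6 c7 d1 d2 d3 d4 d5 d6 d7)
    (hv : ∀ z1 z2 z3 z4 z5 z6 z7 : ℝ, 0 ≤ A.fPV z1 z2 z3 z4 z5 z6 z7 z1 z2 z3 z4 z5 z6 z7) :
    0 ≤ nf18 A s := by
  have e : 1 * (A.fTens (-63/10000) (-107/20000) (99/20000) (-3/100000) (-37/50000) (-39/10000) ((313/100000)*A.T+(1227/100000)*A.H+(513/100000)*A.G) (-811/100000) (-339/50000) (11/5000) (21/6250) (153/100000) (-1/12500) ((-783/50000)*A.T+(-483/25000)*A.H+(1741/100000)*A.G) (719/100000) (599/100000) (-171/50000) 0 0 (437/100000) ((-89/25000)*A.T+(-1259/100000)*A.H+(-103/20000)*A.G) (703/100000) (31/6250) (-87/25000) (-189/50000) 0 0 ((849/50000)*A.T+(119/6250)*A.H+(-1783/100000)*A.G)) = nf18 A s := by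
    unfold nf18 Atoms.fTens Atoms.fIP Atoms.fPV
    ring
  rw [← e]
  exact mul_nonneg (by norm_num) (ht _ _ _ _ _ _ _ _ _ _ _ _ _ _ _ _ _ _ _ _ _ _ _ _ _ _ _ _)

noncomputable def nf19 (A : Atoms) (s : ℝ) : ℝ :=
  (-10819/625000000)*A.Aqqq*A.G + (-3473/1000000000)*A.Aqqq*A.H + (-29411/5000000000)*A.Aqqq*A.T + (1087841/10000000000)*A.Aqqx*A.G + (497011/10000000000)*A.Aqqx*A.H + (88267/5000000000)*A.Aqqx*A.T + (384343/5000000000)*A.Aqxx*A.G + (-965727/10000000000)*A.Aqxx*A.H + (15957/2000000000)*A.Aqxx*A.T + (79287/2500000000)*A.Axxx*A.G + (261549/2500000000)*A.Axxx*A.H + (-625517/5000000000)*A.Axxx*A.T + (84069/5000000000)*A.G^3 + (88479/2500000000)*A.G^2*A.H + (3008373/20000000000)*A.G^2*A.T + (-2114229/20000000000)*A.G*A.H^2 + (1338737/10000000000)*A.G*A.H*A.T + (48341/10000000000)*A.G*A.HH + (11629/2500000000)*A.G*A.HM + (50589/2500000000)*A.G*A.HN + (793/400000000)*A.G*A.MM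 + (1471/100000000)*A.G*A.MN + (1417/50000000)*A.G*A.NN + (536807/50000000000)*A.G*A.T^2 + (-39487/1000000000)*A.G*A.pqq + (41151/1000000000)*A.G*A.pqx + (981/78125000)*A.G*A.pxx + (-592617/10000000000)*A.H^3 + (2924023/50000000000)*A.H^2*A.T + (7231/625000000)*A.H*A.HH + (84627/5000000000)*A.H*A.HM + (117471/5000000000)*A.H*A.HN + (5837/1000000000)*A.H*A.MM + (20757/2500000000)*A.H*A.MN + (-120393/2500000000)*A.H*A.NN + (42927/2500000000)*A.H*A.T^2 + (-963/312500000)*A.H*A.pqq + (515703/5000000000)*A.H*A.pqx + (94531/2500000000)*A.H*A.pxx + (169/15625000)*A.HH*A.T + (2147/156250000)*A.HM*A.T + (-19747/625000000)*A.HN*A.T + (4381/1000000000)*A.MM*A.T + (-97583/5000000000)*A.MN*A.T + (276029/10000000000)*A.NN*A.T + (-253187/50000000000)*A.T^3 + (-5689/625000000)*A.T*A.pqq + (20847/2500000000)*A.T*A.pqx + (74459/1250000000)*A.T*A.pxx + (837/78125000)*A.b11 + (7907/625000000)*A.b12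 + (989/500000000)*A.b22 + (429/31250000)*A.bc11 + (-4323/200000000)*A.bc12 + (-5753/250000000)*A.bc13 + (1131/125000000)*A.bc21 + (203199/5000000000)*A.bc22 + (47547/2500000000)*A.bc23 + (21903/5000000000)*A.c11 + (-33881/2500000000)*A.c12 + (-59683/5000000000)*A.c13 + (99317/2500000000)*A.c22 + (-44671/1250000000)*A.c23 + (35263/1250000000)*A.c33

lemma chunk19 (A : Atoms) (s : ℝ) (ht : ∀ a1 a2 a3 a4 a5 a6 a7 b1 b2 b3 b4 b5 b6 b7 c1 c2 c3 c4 c5 c6 c7 d1 d2 d3 d4 d5 d6 d7 : ℝ,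
      0 ≤ A.fTens a1 a2 a3 a4 a5 a6 a7 b1 b2 b3 b4 b5 b6 b7 c1 c2 c3 c4 c5 c6 c7 d1 d2 d3 d4 d5 d6 d7)
    (hv : ∀ z1 z2 z3 z4 z5 z6 z7 : ℝ, 0 ≤ A.fPV z1 z2 z3 z4 z5 z6 z7 z1 z2 z3 z4 z5 z6 z7) :
    0 ≤ nf19 A s := by
  have e : 1 * (A.fTens (27/12500) (147/100000) (-31/20000) (1/2500) (99/50000) (231/50000) ((-119/100000)*A.T+(-11/12500)*A.H+(-2/625)*A.G) (43/20000) (21/25000) (197/50000) (-43/100000) (121/20000) (93/100000) ((-63/50000)*A.T+(47/20000)*A.H+(33/50000)*A.G) (31/12500) (149/100000) (-251/50000) 0 0 (31/5000) ((-1/625)*A.T+(-521/100000)*A.H+(-121/20000)*A.G) (23/50000) (113/100000) (179/50000) (47/12500) 0 0 ((-29/25000)*A.T+(-31/100000)*A.H+(33/20000)*A.G)) = nf19 A s := by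
    unfold nf19 Atoms.fTens Atoms.fIP Atoms.fPV
    ring
  rw [← e]
  exact mul_nonneg (by norm_num) (ht _ _ _ _ _ _ _ _ _ _ _ _ _ _ _ _ _ _ _ _ _ _ _ _ _ _ _ _)

noncomputable def nf20 (A : Atoms) (s : ℝ) : ℝ :=
  (4687761/500000000)*A.Aqqq*A.G + (-423333/125000000)*A.Aqqq*A.H + (-1169573/1250000000)*A.Aqqq*A.T + (-13135017/1000000000)*A.Aqqx*A.G + (832588749/5000000000)*A.Aqqx*A.H + (-229424967/2500000000)*A.Aqqx*A.T + (-8341213/5000000000)*A.Aqxx*A.G + (-203366627/1250000000)*A.Aqxx*A.H + (44805313/5000000000)*A.Aqxx*A.T + (1093231/312500000)*A.Axxx*A.G + (-578443/20000000)*A.Axxx*A.H + (1002963397/5000000000)*A.Axxx*A.T + (6532163/10000000000)*A.G^3 + (-2742213/500000000)*A.G^2*A.H + (1193417643/25000000000)*A.G^2*A.T + (-20146407/625000000)*A.G*A.H^2 + (-164859637/1562500000)*A.G*A.H*A.T + (5297749/400000000)*A.G*A.HH + (-202115983/5000000000)*A.G*A.HM +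 (42112027/2500000000)*A.G*A.HN + (350579353/10000000000)*A.G*A.MM + (-13294769/500000000)*A.G*A.MN + (13505777/2500000000)*A.G*A.NN + (1113392847/25000000000)*A.G*A.T^2 + (-17624673/500000000)*A.G*A.pqq + (166805279/5000000000)*A.G*A.pqx + (2800641/500000000)*A.G*A.pxx + (550358637/5000000000)*A.H^3 + (-3948618639/25000000000)*A.H^2*A.T + (239822861/5000000000)*A.H*A.HH + (-234760187/2500000000)*A.H*A.HM + (-35341833/1000000000)*A.H*A.HN + (14341643/5000000000)*A.H*A.MM + (671404401/5000000000)*A.H*A.MN + (-116198399/2500000000)*A.H*A.NN + (284557747/3125000000)*A.H*A.T^2 + (-385833717/5000000000)*A.H*A.pqq + (10005569/78125000)*A.H*A.pqx + (-211698757/5000000000)*A.H*A.pxx + (307831297/5000000000)*A.HH*A.T + (-7923551/5000000000)*A.HM*A.T + (-119171893/625000000)*A.HN*A.T + (889213/2000000000)*A.MM*A.T + (1262729/5000000000)*A.MN*A.T + (752112569/5000000000)*A.NN*A.T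 + (-18629347/1000000000)*A.T^3 + (207266819/5000000000)*A.T*A.pqq + (20693379/1000000000)*A.T*A.pqx + (-170160629/1250000000)*A.T*A.pxx + (-12030199/200000000)*A.b11 + (-201266123/5000000000)*A.b12 + (-6850431/2500000000)*A.b22 + (-3283447/5000000000)*A.bc11 + (472484609/2500000000)*A.bc12 + (354781759/5000000000)*A.bc13 + (421402871/5000000000)*A.bc21 + (-6265053/1250000000)*A.bc22 + (-6271831/1250000000)*A.bc23 + (553547/1250000000)*A.c11 + (4977539/5000000000)*A.c12 + (-27767527/200000000)*A.c13 + (-897940161/5000000000)*A.c22 + (162739779/2500000000)*A.c23 + (-647819/312500000)*A.c33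

lemma chunk20 (A : Atoms) (s : ℝ) (ht : ∀ a1 a2 a3 a4 a5 a6 a7 b1 b2 b3 b4 b5 b6 b7 c1 c2 c3 c4 c5 c6 c7 d1 d2 d3 d4 d5 d6 d7 : ℝ,
      0 ≤ A.fTens a1 a2 a3 a4 a5 a6 a7 b1 b2 b3 b4 b5 b6 b7 c1 c2 c3 c4 c5 c6 c7 d1 d2 d3 d4 d5 d6 d7)
    (hv : ∀ z1 z2 z3 z4 z5 z6 z7 : ℝ, 0 ≤ A.fPV z1 z2 z3 z4 z5 z6 z7 z1 z2 z3 z4 z5 z6 z7) :
    0 ≤ nf20 A s := by
  have e : 1 * (A.fTens (15563/100000) (1423/100000) (-28213/100000) (-1581/100000) (263/12500) (-4289/25000) ((-553/10000)*A.T+(289/3125)*A.H+(2347/50000)*A.G) (1197/100000) (-8283/100000) (719/50000) (-4017/100000) (1599/25000) (-799/50000) ((2103/100000)*A.T+(-2629/100000)*A.H+(-871/100000)*A.G) (-773/4000) (389/25000) (26613/100000) 0 0 (16913/100000) ((6069/100000)*A.T+(-469/5000)*A.H+(-4623/100000)*A.G) (-5723/50000) (2099/12500) (-901/12500) (-57/20000) 0 0 ((-31/4000)*A.T+(2443/100000)*A.H+(693/50000)*A.G))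 = nf20 A s := by
    unfold nf20 Atoms.fTens Atoms.fIP Atoms.fPV
    ring
  rw [← e]
  exact mul_nonneg (by norm_num) (ht _ _ _ _ _ _ _ _ _ _ _ _ _ _ _ _ _ _ _ _ _ _ _ _ _ _ _ _)

noncomputable def nf21 (A : Atoms) (s : ℝ) : ℝ :=
  (696569/10000000000)*A.Aqqq*A.G + (-2376337/10000000000)*A.Aqqq*A.H + (-214787/1250000000)*A.Aqqq*A.T + (-19353989/10000000000)*A.Aqqx*A.G + (-18782789/10000000000)*A.Aqqx*A.H + (20634217/10000000000)*A.Aqqx*A.T + (-977083/625000000)*A.Aqxx*A.G + (52139021/10000000000)*A.Aqxx*A.H + (-9460711/2500000000)*A.Aqxx*A.T + (2167391/5000000000)*A.Axxx*A.G + (-13581121/5000000000)*A.Axxx*A.H + (10340053/5000000000)*A.Axxx*A.T + (304041/1000000000)*A.G^3 + (-3459243/5000000000)*A.G^2*A.H + (98572637/50000000000)*A.G^2*A.T + (-309161/10000000000)*A.G*A.H^2 + (-96124519/50000000000)*A.G*A.H*A.T + (781457/10000000000)*A.G*A.HH + (3621649/5000000000)*A.G*A.HM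 + (-24633/200000000)*A.G*A.HN + (1763521/1000000000)*A.G*A.MM + (-1674811/2500000000)*A.G*A.MN + (387001/5000000000)*A.G*A.NN + (11095413/100000000000)*A.G*A.T^2 + (3797523/5000000000)*A.G*A.pqq + (-443249/625000000)*A.G*A.pqx + (-2255149/5000000000)*A.G*A.pxx + (997877/10000000000)*A.H^3 + (-75466269/100000000000)*A.H^2*A.T + (-643063/1250000000)*A.H*A.HH + (-423053/156250000)*A.H*A.HM + (5029907/5000000000)*A.H*A.HN + (-5071261/5000000000)*A.H*A.MM + (6828357/2500000000)*A.H*A.MN + (-2294393/5000000000)*A.H*A.NN + (1377701/1000000000)*A.H*A.T^2 + (2481977/5000000000)*A.H*A.pqq + (-5029599/5000000000)*A.H*A.pqx + (6940647/2500000000)*A.H*A.pxx + (2211221/2500000000)*A.HH*A.T + (1796393/2500000000)*A.HM*A.T + (-2253079/1250000000)*A.HN*A.T + (292009/2000000000)*A.MM*A.T + (-366803/500000000)*A.MN*A.T + (1852493/2000000000)*A.NN*A.T + (-19558783/50000000000)*A.T^3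 + (-265409/625000000)*A.T*A.pqq + (498869/312500000)*A.T*A.pqx + (-252163/125000000)*A.T*A.pxx + (109729/125000000)*A.b11 + (-1243169/2500000000)*A.b12 + (83821/1250000000)*A.b22 + (444551/625000000)*A.bc11 + (-9844359/5000000000)*A.bc12 + (306547/625000000)*A.bc13 + (-6207187/2500000000)*A.bc21 + (6005089/5000000000)*A.bc22 + (-154467/1000000000)*A.bc23 + (360041/2500000000)*A.c11 + (-2151441/1250000000)*A.c12 + (100159/40000000)*A.c13 + (7101771/2500000000)*A.c22 + (-1217821/1000000000)*A.c23 + (276551/5000000000)*A.c33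

lemma chunk21 (A : Atoms) (s : ℝ) (ht : ∀ a1 a2 a3 a4 a5 a6 a7 b1 b2 b3 b4 b5 b6 b7 c1 c2 c3 c4 c5 c6 c7 d1 d2 d3 d4 d5 d6 d7 : ℝ,
      0 ≤ A.fTens a1 a2 a3 a4 a5 a6 a7 b1 b2 b3 b4 b5 b6 b7 c1 c2 c3 c4 c5 c6 c7 d1 d2 d3 d4 d5 d6 d7)
    (hv : ∀ z1 z2 z3 z4 z5 z6 z7 : ℝ, 0 ≤ A.fPV z1 z2 z3 z4 z5 z6 z7 z1 z2 z3 z4 z5 z6 z7) :
    0 ≤ nf21 A s := by
  have e : 1 * (A.fTens (557/25000) (461/50000) (-2457/100000) (201/50000) (361/100000) (-1171/50000) ((-243/25000)*A.T+(117/20000)*A.H+(973/100000)*A.G) (-769/100000) (-3109/100000) (341/100000) (121/100000) (943/25000) (2463/100000) ((1347/100000)*A.T+(-757/100000)*A.H+(-573/100000)*A.G) (197/10000) (781/100000) (-449/25000) 0 0 (-723/20000) ((-851/100000)*A.T+(51/12500)*A.H+(949/100000)*A.G) (-109/25000) (-2823/100000) (811/100000) (71/50000) 0 0 ((569/50000)*A.T+(-427/50000)*A.H+(-301/50000)*A.G)) = nf21 A s :=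 by
    unfold nf21 Atoms.fTens Atoms.fIP Atoms.fPV
    ring
  rw [← e]
  exact mul_nonneg (by norm_num) (ht _ _ _ _ _ _ _ _ _ _ _ _ _ _ _ _ _ _ _ _ _ _ _ _ _ _ _ _)

noncomputable def nf22 (A : Atoms) (s : ℝ) : ℝ :=
  (3817/125000000)*A.Aqqq*A.G + (-135533/5000000000)*A.Aqqq*A.H + (-141/312500000)*A.Aqqq*A.T + (6163/125000000)*A.Aqqx*A.G + (446027/5000000000)*A.Aqqx*A.H + (-29713/5000000000)*A.Aqqx*A.T + (166639/5000000000)*A.Aqxx*A.G + (-42743/1000000000)*A.Aqxx*A.H + (418551/5000000000)*A.Aqxx*A.T + (-178717/2500000000)*A.Axxx*A.G + (-175239/500000000)*A.Axxx*A.H + (26719/2500000000)*A.Axxx*A.T + (503009/10000000000)*A.G^3 + (2191309/5000000000)*A.G^2*A.H + (37459/50000000000)*A.G^2*A.T + (869277/1250000000)*A.G*A.H^2 + (-17166763/50000000000)*A.G*A.H*A.T + (2209/2500000000)*A.G*A.HH + (-1551/500000000)*A.G*A.HM + (-5687/625000000)*A.G*A.HN + (58201/10000000000)*A.G*A.MM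 + (8657/250000000)*A.G*A.MN + (128789/2500000000)*A.G*A.NN + (-33291/100000000000)*A.G*A.T^2 + (64079/5000000000)*A.G*A.pqq + (2063/500000000)*A.G*A.pqx + (16027/2500000000)*A.G*A.pxx + (-7849163/10000000000)*A.H^3 + (19077937/100000000000)*A.H^2*A.T + (7191/2500000000)*A.H*A.HH + (-22413/5000000000)*A.H*A.HM + (-4149/156250000)*A.H*A.HN + (-3663/625000000)*A.H*A.MM + (-6929/2500000000)*A.H*A.MN + (53699/1250000000)*A.H*A.NN + (456533/6250000000)*A.H*A.T^2 + (-155287/5000000000)*A.H*A.pqq + (-33677/5000000000)*A.H*A.pqx + (35493/1000000000)*A.H*A.pxx + (25713/10000000000)*A.HH*A.T + (2619/625000000)*A.HM*A.T + (-29049/2500000000)*A.HN*A.T + (4329/2500000000)*A.MM*A.T + (-11727/1250000000)*A.MN*A.T + (3301/250000000)*A.NN*A.T + (3/50000000)*A.T^3 + (-321/500000000)*A.T*A.pqq + (-46477/5000000000)*A.T*A.pqx + (29689/1000000000)*A.T*A.pxx + (-459/312500000)*A.b11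 + (-141/156250000)*A.b12 + (-7011/2500000000)*A.bc11 + (12231/2500000000)*A.bc12 + (1927/1250000000)*A.bc13 + (1089/156250000)*A.bc21 + (60433/2500000000)*A.bc22 + (2491/250000000)*A.bc23 + (-81/62500000)*A.c11 + (29493/2500000000)*A.c12 + (-37917/2500000000)*A.c13 + (7917/1250000000)*A.c22 + (-199971/2500000000)*A.c23 + (-6413/125000000)*A.c33

lemma chunk22 (A : Atoms) (s : ℝ) (ht : ∀ a1 a2 a3 a4 a5 a6 a7 b1 b2 b3 b4 b5 b6 b7 c1 c2 c3 c4 c5 c6 c7 d1 d2 d3 d4 d5 d6 d7 : ℝ,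
      0 ≤ A.fTens a1 a2 a3 a4 a5 a6 a7 b1 b2 b3 b4 b5 b6 b7 c1 c2 c3 c4 c5 c6 c7 d1 d2 d3 d4 d5 d6 d7)
    (hv : ∀ z1 z2 z3 z4 z5 z6 z7 : ℝ, 0 ≤ A.fPV z1 z2 z3 z4 z5 z6 z7 z1 z2 z3 z4 z5 z6 z7) :
    0 ≤ nf22 A s := by
  have e : 1 * (A.fTens (153/100000) (3/2500) (-177/50000) (1/50000) (87/100000) (1017/100000) ((-9/50000)*A.T+(619/100000)*A.H+(-491/100000)*A.G) (47/50000) (-33/20000) (-121/25000) (-119/50000) (-41/12500) (1/4000) ((3/625)*A.T+(-171/20000)*A.H+(-97/25000)*A.G) (-3/6250) (-27/50000) (41/50000) 0 0 (-18/3125) ((-7/25000)*A.T+(-517/100000)*A.H+(411/100000)*A.G) 0 (11/6250) (53/10000) (17/10000) 0 0 ((-227/50000)*A.T+(843/100000)*A.H+(79/25000)*A.G)) = nf22 A s := by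
    unfold nf22 Atoms.fTens Atoms.fIP Atoms.fPV
    ring
  rw [← e]
  exact mul_nonneg (by norm_num) (ht _ _ _ _ _ _ _ _ _ _ _ _ _ _ _ _ _ _ _ _ _ _ _ _ _ _ _ _)

noncomputable def nf23 (A : Atoms) (s : ℝ) : ℝ :=
  (6283/2000000000)*A.Aqqq*A.G + (70729/2000000000)*A.Aqqq*A.H + (1161/625000000)*A.Aqqq*A.T + (13569/2500000000)*A.Aqqx*A.G + (1135213/10000000000)*A.Aqqx*A.H + (343241/10000000000)*A.Aqqx*A.T + (-47189/1000000000)*A.Aqxx*A.G + (14801/1250000000)*A.Aqxx*A.H + (24937/312500000)*A.Aqxx*A.T + (-59671/2500000000)*A.Axxx*A.G + (-23983/625000000)*A.Axxx*A.H + (-4513/312500000)*A.Axxx*A.T + (1183453/10000000000)*A.G^3 + (440359/5000000000)*A.G^2*A.H + (3782413/50000000000)*A.G^2*A.T + (-3997821/10000000000)*A.G*A.H^2 + (-914111/10000000000)*A.G*A.H*A.T + (54981/5000000000)*A.G*A.HH + (-10989/5000000000)*A.G*A.HM + (-47343/5000000000)*A.G*A.HN + (657/2000000000)*A.G*A.MM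 + (3789/2500000000)*A.G*A.MN + (24089/10000000000)*A.G*A.NN + (270453/4000000000)*A.G*A.T^2 + (-578287/10000000000)*A.G*A.pqq + (499/125000000)*A.G*A.pqx + (135591/2500000000)*A.G*A.pxx + (-572331/10000000000)*A.H^3 + (27176457/100000000000)*A.H^2*A.T + (-34683/2500000000)*A.H*A.HH + (-2649/312500000)*A.H*A.HM + (-115591/5000000000)*A.H*A.HN + (849/1000000000)*A.H*A.MM + (35351/5000000000)*A.H*A.MN + (63239/5000000000)*A.H*A.NN + (-13299/5000000000)*A.H*A.T^2 + (12249/312500000)*A.H*A.pqq + (-1163239/10000000000)*A.H*A.pqx + (-1551/250000000)*A.H*A.pxx + (2197/500000000)*A.HH*A.T + (3089/500000000)*A.HM*A.T + (45511/2500000000)*A.HN*A.T + (2173/1000000000)*A.MM*A.T + (63823/5000000000)*A.MN*A.T + (190489/10000000000)*A.NN*A.T + (-50459/12500000000)*A.T^3 + (6601/2500000000)*A.T*A.pqq + (119883/2500000000)*A.T*A.pqx + (8601/1250000000)*A.T*A.pxx + (83/19531250)*A.b11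 + (-34113/2500000000)*A.b12 + (54531/5000000000)*A.b22 + (14837/2500000000)*A.bc11 + (10663/1250000000)*A.bc12 + (-144123/5000000000)*A.bc13 + (4347/2500000000)*A.bc21 + (18937/5000000000)*A.bc22 + (-49533/5000000000)*A.bc23 + (10353/5000000000)*A.c11 + (3477/250000000)*A.c12 + (16269/5000000000)*A.c13 + (117247/5000000000)*A.c22 + (67459/5000000000)*A.c23 + (469/250000000)*A.c33

lemma chunk23 (A : Atoms) (s : ℝ) (ht : ∀ a1 a2 a3 a4 a5 a6 a7 b1 b2 b3 b4 b5 b6 b7 c1 c2 c3 c4 c5 c6 c7 d1 d2 d3 d4 d5 d6 d7 : ℝ,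
      0 ≤ A.fTens a1 a2 a3 a4 a5 a6 a7 b1 b2 b3 b4 b5 b6 b7 c1 c2 c3 c4 c5 c6 c7 d1 d2 d3 d4 d5 d6 d7)
    (hv : ∀ z1 z2 z3 z4 z5 z6 z7 : ℝ, 0 ≤ A.fPV z1 z2 z3 z4 z5 z6 z7 z1 z2 z3 z4 z5 z6 z7) :
    0 ≤ nf23 A s := by
  have e : 1 * (A.fTens (-83/50000) (-119/100000) (-317/100000) (-27/25000) (-99/20000) (-59/100000) ((71/100000)*A.T+(-49/12500)*A.H+(-187/100000)*A.G) (249/100000) (3/50000) (-67/100000) (-373/100000) (1/1000) (267/100000) ((19/20000)*A.T+(-13/25000)*A.H+(61/20000)*A.G) (-4/3125) (-87/100000) (-3/1000) 0 0 (179/100000) ((57/100000)*A.T+(-47/20000)*A.H+(343/100000)*A.G) (219/100000) (-57/100000) (-7/5000) (-249/50000) 0 0 ((133/100000)*A.T+(47/50000)*A.H+(319/100000)*A.G)) = nf23 A s := by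
    unfold nf23 Atoms.fTens Atoms.fIP Atoms.fPV
    ring
  rw [← e]
  exact mul_nonneg (by norm_num) (ht _ _ _ _ _ _ _ _ _ _ _ _ _ _ _ _ _ _ _ _ _ _ _ _ _ _ _ _)

noncomputable def nf24 (A : Atoms) (s : ℝ) : ℝ :=
  (10133/1250000000)*A.Aqqq*A.G + (-18581/1250000000)*A.Aqqq*A.H + (-1239/1000000000)*A.Aqqq*A.T + (35121/2500000000)*A.Aqqx*A.G + (-113387/2000000000)*A.Aqqx*A.H + (40853/2500000000)*A.Aqqx*A.T + (113/3200000)*A.Aqxx*A.G + (-10941/625000000)*A.Aqxx*A.H + (459019/10000000000)*A.Aqxx*A.T + (-23967/1000000000)*A.Axxx*A.G + (234441/10000000000)*A.Axxx*A.H + (-13889/1000000000)*A.Axxx*A.T + (325391/2000000000)*A.G^3 + (25647/1250000000)*A.G^2*A.H + (-63011/4000000000)*A.G^2*A.T + (-10971971/20000000000)*A.G*A.H^2 + (-20170271/50000000000)*A.G*A.H*A.T + (197557/10000000000)*A.G*A.HH + (2207/1250000000)*A.G*A.HM + (70581/5000000000)*A.G*A.HN + (89/2000000000)*A.G*A.MM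 + (3093/5000000000)*A.G*A.MN + (2529/1000000000)*A.G*A.NN + (2463221/50000000000)*A.G*A.T^2 + (-128091/2500000000)*A.G*A.pqq + (55867/2000000000)*A.G*A.pqx + (-67801/1000000000)*A.G*A.pxx + (102113/400000000)*A.H^3 + (2987863/5000000000)*A.H^2*A.T + (-11723/625000000)*A.H*A.HH + (-15337/1250000000)*A.H*A.HM + (-160997/5000000000)*A.H*A.HN + (-2611/5000000000)*A.H*A.MM + (-27157/5000000000)*A.H*A.MN + (-44211/5000000000)*A.H*A.NN + (1832099/25000000000)*A.H*A.T^2 + (-90961/2500000000)*A.H*A.pqq + (25531/5000000000)*A.H*A.pqx + (435101/10000000000)*A.H*A.pxx + (1781/400000000)*A.HH*A.T + (27143/5000000000)*A.HM*A.T + (60843/5000000000)*A.HN*A.T + (8297/5000000000)*A.MM*A.T + (38149/5000000000)*A.MN*A.T + (106829/10000000000)*A.NN*A.T + (-36231/50000000000)*A.T^3 + (-4971/2500000000)*A.T*A.pqq + (15073/312500000)*A.T*A.pqx + (55933/5000000000)*A.T*A.pxx + (10921/2500000000)*A.b11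 + (-91841/5000000000)*A.b12 + (48267/2500000000)*A.b22 + (26911/5000000000)*A.bc11 + (9369/5000000000)*A.bc12 + (-139367/5000000000)*A.bc13 + (-551/625000000)*A.bc21 + (-5787/1250000000)*A.bc22 + (68169/5000000000)*A.bc23 + (1653/1000000000)*A.c11 + (18449/2500000000)*A.c12 + (-1393/1250000000)*A.c13 + (1789/500000000)*A.c22 + (-23619/2500000000)*A.c23 + (11997/5000000000)*A.c33

lemma chunk24 (A : Atoms) (s : ℝ) (ht : ∀ a1 a2 a3 a4 a5 a6 a7 b1 b2 b3 b4 b5 b6 b7 c1 c2 c3 c4 c5 c6 c7 d1 d2 d3 d4 d5 d6 d7 : ℝ,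
      0 ≤ A.fTens a1 a2 a3 a4 a5 a6 a7 b1 b2 b3 b4 b5 b6 b7 c1 c2 c3 c4 c5 c6 c7 d1 d2 d3 d4 d5 d6 d7)
    (hv : ∀ z1 z2 z3 z4 z5 z6 z7 : ℝ, 0 ≤ A.fPV z1 z2 z3 z4 z5 z6 z7 z1 z2 z3 z4 z5 z6 z7) :
    0 ≤ nf24 A s := by
  have e : 1 * (A.fTens (163/100000) (19/20000) (1/800) (27/25000) (139/50000) (-1/1250) ((-153/100000)*A.T+(-21/2000)*A.H+(119/50000)*A.G) (-173/50000) (-11/100000) (-129/100000) (143/25000) (-249/100000) (33/25000) ((-73/50000)*A.T+(-9/5000)*A.H+(463/100000)*A.G) (67/50000) (87/100000) (151/50000) 0 0 (-207/100000) ((-33/25000)*A.T+(-429/50000)*A.H+(189/50000)*A.G) (-279/100000) (-9/50000) (-93/100000) (81/20000) 0 0 ((-21/10000)*A.T+(-23/100000)*A.H+(23/6250)*A.G)) = nf24 A s := by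
    unfold nf24 Atoms.fTens Atoms.fIP Atoms.fPV
    ring
  rw [← e]
  exact mul_nonneg (by norm_num) (ht _ _ _ _ _ _ _ _ _ _ _ _ _ _ _ _ _ _ _ _ _ _ _ _ _ _ _ _)

noncomputable def nf25 (A : Atoms) (s : ℝ) : ℝ :=
  (-36998189/1000000000)*A.Aqqq*A.G + (-88659351/1250000000)*A.Aqqq*A.H + (-202207269/5000000000)*A.Aqqq*A.T + (-465151677/5000000000)*A.Aqqx*A.G + (-347910853/2500000000)*A.Aqqx*A.H + (-379237577/5000000000)*A.Aqqx*A.T + (36157313/1250000000)*A.Aqxx*A.G + (14084523/1250000000)*A.Aqxx*A.H + (-7887361/250000000)*A.Aqxx*A.T + (1855707/19531250)*A.Axxx*A.G + (4245863/100000000)*A.Axxx*A.H + (15377357/1250000000)*A.Axxx*A.T + (143750947/5000000000)*A.G^3 + (-28965559/625000000)*A.G^2*A.H + (1658166047/50000000000)*A.G^2*A.T + (-974921907/10000000000)*A.G*A.H^2 + (359720173/12500000000)*A.G*A.H*A.T + (255504149/5000000000)*A.G*A.HH + (-298862461/5000000000)*A.G*A.HM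 + (-13434249/156250000)*A.G*A.HN + (183535349/10000000000)*A.G*A.MM + (7127453/156250000)*A.G*A.MN + (414037/9765625)*A.G*A.NN + (375530489/25000000000)*A.G*A.T^2 + (15177321/250000000)*A.G*A.pqq + (7050871/200000000)*A.G*A.pqx + (-581500547/5000000000)*A.G*A.pxx + (-112703993/5000000000)*A.H^3 + (356589499/10000000000)*A.H^2*A.T + (72075661/5000000000)*A.H*A.HH + (-72977793/1000000000)*A.H*A.HM + (-115832999/2500000000)*A.H*A.HN + (218463851/5000000000)*A.H*A.MM + (73053327/1250000000)*A.H*A.MN + (1124329/39062500)*A.H*A.NN + (1092248471/25000000000)*A.H*A.T^2 + (281175257/5000000000)*A.H*A.pqq + (29968189/312500000)*A.H*A.pqx + (-14807203/5000000000)*A.H*A.pxx + (430337/400000000)*A.HH*A.T + (-7690999/1000000000)*A.HM*A.T + (-594191/125000000)*A.HN*A.T + (29881133/1000000000)*A.MM*A.T + (9866297/500000000)*A.MN*A.T + (2683613/500000000)*A.NN*A.T + (395729/80000000)*A.T^3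 + (43143987/5000000000)*A.T*A.pqq + (115244781/5000000000)*A.T*A.pqx + (-54097009/2500000000)*A.T*A.pxx + (218467/312500000)*A.b11 + (60060871/5000000000)*A.b12 + (236346099/5000000000)*A.b22 + (-56657693/5000000000)*A.bc11 + (-2005983/25000000)*A.bc12 + (-73495741/2500000000)*A.bc13 + (-20407273/2500000000)*A.bc21 + (-337196807/5000000000)*A.bc22 + (-10308299/156250000)*A.bc23 + (105432223/5000000000)*A.c11 + (339812203/5000000000)*A.c12 + (47974351/2500000000)*A.c13 + (46349111/500000000)*A.c22 + (5201587/78125000)*A.c23 + (159012/9765625)*A.c33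

lemma chunk25 (A : Atoms) (s : ℝ) (ht : ∀ a1 a2 a3 a4 a5 a6 a7 b1 b2 b3 b4 b5 b6 b7 c1 c2 c3 c4 c5 c6 c7 d1 d2 d3 d4 d5 d6 d7 : ℝ,
      0 ≤ A.fTens a1 a2 a3 a4 a5 a6 a7 b1 b2 b3 b4 b5 b6 b7 c1 c2 c3 c4 c5 c6 c7 d1 d2 d3 d4 d5 d6 d7)
    (hv : ∀ z1 z2 z3 z4 z5 z6 z7 : ℝ, 0 ≤ A.fPV z1 z2 z3 z4 z5 z6 z7 z1 z2 z3 z4 z5 z6 z7) :
    0 ≤ nf25 A s := by
  have e : 1 * (A.fTens (3077/100000) (-6599/100000) (-803/12500) (1913/25000) (329/3125) (-2721/100000) ((14/3125)*A.T+(623/50000)*A.H+(239/50000)*A.G) (18777/100000) (-1867/20000) (-631/3125) (5527/50000) (699/10000) (-22699/100000) ((-351/6250)*A.T+(1703/50000)*A.H+(861/12500)*A.G) (71/6250) (-15977/100000) (-1761/50000) 0 0 (827/100000) ((3379/100000)*A.T+(-937/100000)*A.H+(-67/100000)*A.G) (12587/100000) (-4909/50000) (-126/3125) (467/20000) 0 0 ((-1813/100000)*A.T+(369/20000)*A.H+(2329/100000)*A.G)) = nf25 A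 s := by
    unfold nf25 Atoms.fTens Atoms.fIP Atoms.fPV
    ring
  rw [← e]
  exact mul_nonneg (by norm_num) (ht _ _ _ _ _ _ _ _ _ _ _ _ _ _ _ _ _ _ _ _ _ _ _ _ _ _ _ _)

noncomputable def nf26 (A : Atoms) (s : ℝ) : ℝ :=
  (-44831671/5000000000)*A.Aqqq*A.G + (10430477/10000000000)*A.Aqqq*A.H + (-934533/5000000000)*A.Aqqq*A.T + (-240544251/5000000000)*A.Aqqx*A.G + (-1656259/5000000000)*A.Aqqx*A.H + (128881/2000000000)*A.Aqqx*A.T + (-5480871/312500000)*A.Aqxx*A.G + (62972377/1000000000)*A.Aqxx*A.H + (95425587/2500000000)*A.Aqxx*A.T + (-3432149/2500000000)*A.Axxx*A.G + (8157843/500000000)*A.Axxx*A.H + (974697/250000000)*A.Axxx*A.T + (24369/100000000)*A.G^3 + (1598039/2500000000)*A.G^2*A.H + (1469141/125000000)*A.G^2*A.T + (-22061571/2000000000)*A.G*A.H^2 + (-299174863/25000000000)*A.G*A.H*A.T + (269575393/10000000000)*A.G*A.HH + (204295173/2500000000)*A.G*A.HM +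 (59043653/2500000000)*A.G*A.HN + (155697721/2500000000)*A.G*A.MM + (44497529/1250000000)*A.G*A.MN + (520097/100000000)*A.G*A.NN + (-6088805093/100000000000)*A.G*A.T^2 + (-67421511/10000000000)*A.G*A.pqq + (-40523683/1250000000)*A.G*A.pqx + (-16640913/5000000000)*A.G*A.pxx + (-24279987/5000000000)*A.H^3 + (2382747969/100000000000)*A.H^2*A.T + (11736173/1250000000)*A.H*A.HH + (58992597/5000000000)*A.H*A.HM + (-30437423/1250000000)*A.H*A.HN + (-10231263/2500000000)*A.H*A.MM + (-110846419/2500000000)*A.H*A.MN + (-7748581/625000000)*A.H*A.NN + (-109841873/25000000000)*A.H*A.T^2 + (-4330347/1250000000)*A.H*A.pqq + (-103112193/10000000000)*A.H*A.pqx + (37386929/1000000000)*A.H*A.pxx + (329977/400000000)*A.HH*A.T + (-2389869/5000000000)*A.HM*A.T + (-1556621/312500000)*A.HN*A.T + (523989/5000000000)*A.MM*A.T + (1761939/1250000000)*A.MN*A.T + (940909/125000000)*A.NN*A.T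 + (-624099/6250000000)*A.T^3 + (2203019/5000000000)*A.T*A.pqq + (27046993/2500000000)*A.T*A.pqx + (233958257/5000000000)*A.T*A.pxx + (-256557/312500000)*A.b11 + (-47157423/5000000000)*A.b12 + (-33554079/1250000000)*A.b22 + (2210769/5000000000)*A.bc11 + (7699591/1000000000)*A.bc12 + (4449599/156250000)*A.bc13 + (-35729867/2500000000)*A.bc21 + (-215172323/2500000000)*A.bc22 + (-7299079/312500000)*A.bc23 + (-118989/5000000000)*A.c11 + (1267857/500000000)*A.c12 + (3379547/78125000)*A.c13 + (-34219921/500000000)*A.c22 + (-3656181/156250000)*A.c23 + (-1578943/312500000)*A.c33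

lemma chunk26 (A : Atoms) (s : ℝ) (ht : ∀ a1 a2 a3 a4 a5 a6 a7 b1 b2 b3 b4 b5 b6 b7 c1 c2 c3 c4 c5 c6 c7 d1 d2 d3 d4 d5 d6 d7 : ℝ,
      0 ≤ A.fTens a1 a2 a3 a4 a5 a6 a7 b1 b2 b3 b4 b5 b6 b7 c1 c2 c3 c4 c5 c6 c7 d1 d2 d3 d4 d5 d6 d7)
    (hv : ∀ z1 z2 z3 z4 z5 z6 z7 : ℝ, 0 ≤ A.fPV z1 z2 z3 z4 z5 z6 z7 z1 z2 z3 z4 z5 z6 z7) :
    0 ≤ nf26 A s := by
  have e : 1 * (A.fTens (-1929/100000) (117/100000) (377/6250) (61/20000) (59/20000) (-5601/100000) ((597/100000)*A.T+(-1443/50000)*A.H+(-191/20000)*A.G) (-3033/25000) (-2141/12500) (-709/12500) (1117/100000) (509/50000) (-339/50000) ((2273/25000)*A.T+(139/6250)*A.H+(-597/100000)*A.G) (133/6250) (-1017/100000) (-1559/25000) 0 0 (353/6250) ((-113/25000)*A.T+(1441/50000)*A.H+(187/20000)*A.G) (11063/100000) (363/2000) (2227/50000) (-1623/100000) 0 0 ((-9023/100000)*A.T+(-68/3125)*A.H+(887/100000)*A.G)) = nf26 A s := by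
    unfold nf26 Atoms.fTens Atoms.fIP Atoms.fPV
    ring
  rw [← e]
  exact mul_nonneg (by norm_num) (ht _ _ _ _ _ _ _ _ _ _ _ _ _ _ _ _ _ _ _ _ _ _ _ _ _ _ _ _)

noncomputable def nf27 (A : Atoms) (s : ℝ) : ℝ :=
  (-1728089/500000000)*A.Aqqq*A.G + (276707379/10000000000)*A.Aqqq*A.H + (68609043/5000000000)*A.Aqqq*A.T + (-1175908819/10000000000)*A.Aqqx*A.G + (5731371/2500000000)*A.Aqqx*A.H + (-108549229/10000000000)*A.Aqqx*A.T + (-296391717/5000000000)*A.Aqxx*A.G + (166711241/2000000000)*A.Aqxx*A.H + (-38741549/625000000)*A.Aqxx*A.T + (77172571/1000000000)*A.Axxx*A.G + (225814663/2500000000)*A.Axxx*A.H + (-326420389/5000000000)*A.Axxx*A.T + (225405929/10000000000)*A.G^3 + (-69497359/1250000000)*A.G^2*A.H + (139099103/6250000000)*A.G^2*A.T + (-51650913/1000000000)*A.G*A.H^2 + (4992745569/50000000000)*A.G*A.H*A.T + (310615357/10000000000)*A.G*A.HH + (-5310063/625000000)*A.G*A.HM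 + (-115056641/1000000000)*A.G*A.HN + (30525013/10000000000)*A.G*A.MM + (401919/125000000)*A.G*A.MN + (9792209/80000000)*A.G*A.NN + (-581647259/100000000000)*A.G*A.T^2 + (427565507/10000000000)*A.G*A.pqq + (64106111/2500000000)*A.G*A.pqx + (-222887759/5000000000)*A.G*A.pxx + (-285128557/10000000000)*A.H^3 + (3621509027/100000000000)*A.H^2*A.T + (152239/1000000000)*A.H*A.HH + (245285857/5000000000)*A.H*A.HM + (28445619/5000000000)*A.H*A.HN + (12508283/2500000000)*A.H*A.MM + (-288316129/2500000000)*A.H*A.MN + (-528143/20000000)*A.H*A.NN + (-600604249/25000000000)*A.H*A.T^2 + (33739389/10000000000)*A.H*A.pqq + (-231458497/10000000000)*A.H*A.pqx + (-86907403/2500000000)*A.H*A.pxx + (577133/10000000000)*A.HH*A.T + (1890027/1000000000)*A.HM*A.T + (1826777/2500000000)*A.HN*A.T + (324345737/10000000000)*A.MM*A.T + (10677953/625000000)*A.MN*A.T + (5398541/2000000000)*A.NN*A.T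 + (-594697439/50000000000)*A.T^3 + (-36757/5000000000)*A.T*A.pqq + (28775343/2000000000)*A.T*A.pqx + (115318767/5000000000)*A.T*A.pxx + (60473/2500000000)*A.b11 + (-590879/250000000)*A.b12 + (-40340067/2500000000)*A.b22 + (-502197/500000000)*A.bc11 + (-301221577/5000000000)*A.bc12 + (-91096101/5000000000)*A.bc13 + (678307/1000000000)*A.bc21 + (-35409499/5000000000)*A.bc22 + (24424071/250000000)*A.bc23 + (-4693817/156250000)*A.c11 + (-257887/25000000)*A.c12 + (7536061/2500000000)*A.c13 + (159981623/1250000000)*A.c22 + (10071607/250000000)*A.c23 + (-11735451/100000000)*A.c33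

lemma chunk27 (A : Atoms) (s : ℝ) (ht : ∀ a1 a2 a3 a4 a5 a6 a7 b1 b2 b3 b4 b5 b6 b7 c1 c2 c3 c4 c5 c6 c7 d1 d2 d3 d4 d5 d6 d7 : ℝ,
      0 ≤ A.fTens a1 a2 a3 a4 a5 a6 a7 b1 b2 b3 b4 b5 b6 b7 c1 c2 c3 c4 c5 c6 c7 d1 d2 d3 d4 d5 d6 d7)
    (hv : ∀ z1 z2 z3 z4 z5 z6 z7 : ℝ, 0 ≤ A.fPV z1 z2 z3 z4 z5 z6 z7 z1 z2 z3 z4 z5 z6 z7) :
    0 ≤ nf27 A s := by
  have e : 1 * (A.fTens (371/50000) (467/3125) (5119/100000) (-269/20000) (-4487/100000) (-5289/100000) ((-241/6250)*A.T+(493/50000)*A.H+(-489/100000)*A.G) (2377/50000) (4137/100000) (-2093/10000) (197/5000) (-157/12500) (7131/100000) ((-2427/50000)*A.T+(147/6250)*A.H+(703/12500)*A.G) (163/100000) (-10051/100000) (-111/12500) 0 0 (6249/100000) ((1219/50000)*A.T+(-1043/100000)*A.H+(239/100000)*A.G) (-16971/100000) (1831/50000) (5607/20000) (-2311/25000) 0 0 ((3781/50000)*A.T+(-521/12500)*A.H+(-4241/50000)*A.G)) = nf27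 A s := by
    unfold nf27 Atoms.fTens Atoms.fIP Atoms.fPV
    ring
  rw [← e]
  exact mul_nonneg (by norm_num) (ht _ _ _ _ _ _ _ _ _ _ _ _ _ _ _ _ _ _ _ _ _ _ _ _ _ _ _ _)

noncomputable def nf28 (A : Atoms) (s : ℝ) : ℝ :=
  (-963/1000000000)*A.Aqqq*A.G + (468949/1000000000)*A.Aqqq*A.H + (-1073721/5000000000)*A.Aqqq*A.T + (-14951637/5000000000)*A.Aqqx*A.G + (-6896909/10000000000)*A.Aqqx*A.H + (-292217/312500000)*A.Aqqx*A.T + (-786077/5000000000)*A.Aqxx*A.G + (970141/2500000000)*A.Aqxx*A.H + (-7894649/10000000000)*A.Aqxx*A.T + (82999/1250000000)*A.Axxx*A.G + (1405043/2500000000)*A.Axxx*A.H + (2227941/1250000000)*A.Axxx*A.T + (96187/5000000000)*A.G^3 + (130207/625000000)*A.G^2*A.H + (90910969/100000000000)*A.G^2*A.T + (6711231/20000000000)*A.G*A.H^2 + (7241039/5000000000)*A.G*A.H*A.T + (1230329/10000000000)*A.G*A.HH + (1008413/1250000000)*A.G*A.HM + (-268081/2500000000)*A.G*A.HN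 + (13254137/10000000000)*A.G*A.MM + (-1800773/5000000000)*A.G*A.MN + (59137/2000000000)*A.G*A.NN + (2283431/12500000000)*A.G*A.T^2 + (936153/2500000000)*A.G*A.pqq + (-7616811/10000000000)*A.G*A.pqx + (-727111/5000000000)*A.G*A.pxx + (-1571663/2500000000)*A.H^3 + (12817097/12500000000)*A.H^2*A.T + (762703/1250000000)*A.H*A.HH + (11582361/5000000000)*A.H*A.HM + (-2284293/2500000000)*A.H*A.HN + (2498587/2500000000)*A.H*A.MM + (-86711/39062500)*A.H*A.MN + (9329/31250000)*A.H*A.NN + (-3974543/25000000000)*A.H*A.T^2 + (1478087/5000000000)*A.H*A.pqq + (-238939/156250000)*A.H*A.pqx + (-7085683/10000000000)*A.H*A.pxx + (385697/500000000)*A.HH*A.T + (9577/12500000)*A.HM*A.T + (-124751/78125000)*A.HN*A.T + (380497/2000000000)*A.MM*A.T + (-991451/1250000000)*A.MN*A.T + (103409/125000000)*A.NN*A.T + (-953573/2500000000)*A.T^3 + (-541039/1250000000)*A.T*A.pqq + (-1441963/1250000000)*A.T*A.pqx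 + (-1890803/1000000000)*A.T*A.pxx + (479259/625000000)*A.b11 + (1539637/2500000000)*A.b12 + (7579/62500000)*A.b22 + (1902667/2500000000)*A.bc11 + (-3189193/2500000000)*A.bc12 + (-398789/625000000)*A.bc13 + (2527499/1250000000)*A.bc21 + (2645063/5000000000)*A.bc22 + (-575131/5000000000)*A.bc23 + (472081/2500000000)*A.c11 + (1096701/5000000000)*A.c12 + (-2614531/1250000000)*A.c13 + (10006711/5000000000)*A.c22 + (-46899/500000000)*A.c23 + (52459/2500000000)*A.c33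

lemma chunk28 (A : Atoms) (s : ℝ) (ht : ∀ a1 a2 a3 a4 a5 a6 a7 b1 b2 b3 b4 b5 b6 b7 c1 c2 c3 c4 c5 c6 c7 d1 d2 d3 d4 d5 d6 d7 : ℝ,
      0 ≤ A.fTens a1 a2 a3 a4 a5 a6 a7 b1 b2 b3 b4 b5 b6 b7 c1 c2 c3 c4 c5 c6 c7 d1 d2 d3 d4 d5 d6 d7)
    (hv : ∀ z1 z2 z3 z4 z5 z6 z7 : ℝ, 0 ≤ A.fPV z1 z2 z3 z4 z5 z6 z7 z1 z2 z3 z4 z5 z6 z7) :
    0 ≤ nf28 A s := by
  have e : 1 * (A.fTens (-927/50000) (-457/50000) (231/12500) (-369/100000) (-23/10000) (941/50000) ((437/50000)*A.T+(-41/10000)*A.H+(-293/50000)*A.G) (-53/6250) (-2669/100000) (209/100000) (161/100000) (2109/100000) (497/100000) ((1071/100000)*A.T+(-179/20000)*A.H+(-7/25000)*A.G) (-517/25000) (-1033/100000) (551/25000) 0 0 (1079/100000) ((973/100000)*A.T+(-491/100000)*A.H+(-267/50000)*A.G) (-143/20000) (-619/25000) (251/50000) (77/20000) 0 0 ((29/3125)*A.T+(-1047/100000)*A.H+(-7/20000)*A.G)) = nf28 A s := by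
    unfold nf28 Atoms.fTens Atoms.fIP Atoms.fPV
    ring
  rw [← e]
  exact mul_nonneg (by norm_num) (ht _ _ _ _ _ _ _ _ _ _ _ _ _ _ _ _ _ _ _ _ _ _ _ _ _ _ _ _)

noncomputable def nf29 (A : Atoms) (s : ℝ) : ℝ :=
  (16087/2500000000)*A.Aqqq*A.G + (-115687/1250000000)*A.Aqqq*A.H + (-2011/312500000)*A.Aqqq*A.T + (-148283/2000000000)*A.Aqqx*A.G + (766887/10000000000)*A.Aqqx*A.H + (3167/31250000)*A.Aqqx*A.T + (25159/500000000)*A.Aqxx*A.G + (445393/2000000000)*A.Aqxx*A.H + (364007/10000000000)*A.Aqxx*A.T + (47991/200000000)*A.Axxx*A.G + (-239909/1000000000)*A.Axxx*A.H + (-22159/100000000)*A.Axxx*A.T + (3427741/2500000000)*A.G^3 + (-1876311/1000000000)*A.G^2*A.H + (-29786289/12500000000)*A.G^2*A.T + (12057713/5000000000)*A.G*A.H^2 + (86030409/50000000000)*A.G*A.H*A.T + (37/1562500)*A.G*A.HH + (-329/78125000)*A.G*A.HM + (-8007/312500000)*A.G*A.HN + (20281/2500000000)*A.G*A.MM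 + (10011/312500000)*A.G*A.MN + (348633/10000000000)*A.G*A.NN + (113480047/100000000000)*A.G*A.T^2 + (-354059/5000000000)*A.G*A.pqq + (-120301/500000000)*A.G*A.pqx + (-15983/312500000)*A.G*A.pxx + (-12496403/10000000000)*A.H^3 + (-108692699/100000000000)*A.H^2*A.T + (8549/312500000)*A.H*A.HH + (-49677/2500000000)*A.H*A.HM + (-146477/5000000000)*A.H*A.HN + (-4433/312500000)*A.H*A.MM + (-58403/1250000000)*A.H*A.MN + (-222711/5000000000)*A.H*A.NN + (-157671/12500000000)*A.H*A.T^2 + (-2051863/10000000000)*A.H*A.pqq + (155463/625000000)*A.H*A.pqx + (3989/62500000)*A.H*A.pxx + (198361/5000000000)*A.HH*A.T + (8529/250000000)*A.HM*A.T + (237667/5000000000)*A.HN*A.T + (4637/625000000)*A.MM*A.T + (5589/250000000)*A.MN*A.T + (250937/10000000000)*A.NN*A.T + (-477107/25000000000)*A.T^3 + (-79417/5000000000)*A.T*A.pqq + (2161467/10000000000)*A.T*A.pqx + (196193/5000000000)*A.T*A.pxx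 + (188839/5000000000)*A.b11 + (2891/312500000)*A.b12 + (-189/9765625)*A.b22 + (7839/250000000)*A.bc11 + (168621/5000000000)*A.bc12 + (-4087/156250000)*A.bc13 + (-89699/2500000000)*A.bc21 + (-415827/5000000000)*A.bc22 + (-1359/156250000)*A.bc23 + (1003/156250000)*A.c11 + (-307/78125000)*A.c12 + (-53689/2500000000)*A.c13 + (-32579/1250000000)*A.c22 + (1551/500000000)*A.c23 + (41499/1250000000)*A.c33

lemma chunk29 (A : Atoms) (s : ℝ) (ht : ∀ a1 a2 a3 a4 a5 a6 a7 b1 b2 b3 b4 b5 b6 b7 c1 c2 c3 c4 c5 c6 c7 d1 d2 d3 d4 d5 d6 d7 : ℝ,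
      0 ≤ A.fTens a1 a2 a3 a4 a5 a6 a7 b1 b2 b3 b4 b5 b6 b7 c1 c2 c3 c4 c5 c6 c7 d1 d2 d3 d4 d5 d6 d7)
    (hv : ∀ z1 z2 z3 z4 z5 z6 z7 : ℝ, 0 ≤ A.fPV z1 z2 z3 z4 z5 z6 z7 z1 z2 z3 z4 z5 z6 z7) :
    0 ≤ nf29 A s := by
  have e : 1 * (A.fTens (371/100000) (17/12500) (-11/25000) (81/100000) (129/20000) (511/100000) ((-143/100000)*A.T+(-461/100000)*A.H+(-549/100000)*A.G) (-7/3125) (-23/10000) (-87/25000) (-141/100000) (-279/50000) (-53/25000) ((497/50000)*A.T+(1801/100000)*A.H+(-1179/100000)*A.G) (509/100000) (59/25000) (499/100000) 0 0 (123/100000) ((-21/10000)*A.T+(-133/10000)*A.H+(157/50000)*A.G) (27/6250) (-21/12500) (-477/100000) (-419/50000) 0 0 ((1533/100000)*A.T+(101/25000)*A.H+(-1329/100000)*A.G)) = nf29 A s := by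
    unfold nf29 Atoms.fTens Atoms.fIP Atoms.fPV
    ring
  rw [← e]
  exact mul_nonneg (by norm_num) (ht _ _ _ _ _ _ _ _ _ _ _ _ _ _ _ _ _ _ _ _ _ _ _ _ _ _ _ _)

noncomputable def nf30 (A : Atoms) (s : ℝ) : ℝ :=
  (467689/5000000000)*A.Aqqq*A.G + (-87397/2500000000)*A.Aqqq*A.H + (17/2500000)*A.Aqqq*A.T + (-649343/5000000000)*A.Aqqx*A.G + (-92459/250000000)*A.Aqqx*A.H + (7251/625000000)*A.Aqqx*A.T + (4183/78125000)*A.Aqxx*A.G + (-851251/5000000000)*A.Aqxx*A.H + (-79147/2500000000)*A.Aqxx*A.T + (-53133/1250000000)*A.Axxx*A.G + (-265119/2500000000)*A.Axxx*A.H + (-382899/5000000000)*A.Axxx*A.T + (3774251/10000000000)*A.G^3 + (-146151/625000000)*A.G^2*A.H + (-475637/1250000000)*A.G^2*A.T + (-266421/10000000000)*A.G*A.H^2 + (6283311/25000000000)*A.G*A.H*A.T + (60217/1000000000)*A.G*A.HH + (48433/2500000000)*A.G*A.HM + (491887/5000000000)*A.G*A.HN + (100937/5000000000)*A.G*A.MM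 + (39277/1000000000)*A.G*A.MN + (475609/10000000000)*A.G*A.NN + (13387461/50000000000)*A.G*A.T^2 + (-395339/2500000000)*A.G*A.pqq + (-935441/5000000000)*A.G*A.pqx + (-642081/5000000000)*A.G*A.pxx + (-25351/2500000000)*A.H^3 + (-2136241/50000000000)*A.H^2*A.T + (141079/5000000000)*A.H*A.HH + (-44199/2500000000)*A.H*A.HM + (99917/1000000000)*A.H*A.HN + (-8009/1000000000)*A.H*A.MM + (12287/250000000)*A.H*A.MN + (495621/5000000000)*A.H*A.NN + (133117/12500000000)*A.H*A.T^2 + (-380609/5000000000)*A.H*A.pqq + (60727/1250000000)*A.H*A.pqx + (-17017/1000000000)*A.H*A.pxx + (235157/10000000000)*A.HH*A.T + (469/31250000)*A.HM*A.T + (-16867/5000000000)*A.HN*A.T + (1069/400000000)*A.MM*A.T + (1299/200000000)*A.MN*A.T + (258437/5000000000)*A.NN*A.T + (-714979/50000000000)*A.T^3 + (120573/5000000000)*A.T*A.pqq + (395181/2500000000)*A.T*A.pqx + (8111/312500000)*A.T*A.pxx +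 (-58517/2500000000)*A.b11 + (-106891/5000000000)*A.b12 + (235563/5000000000)*A.b22 + (-14447/1000000000)*A.bc11 + (27689/2500000000)*A.bc12 + (270977/2500000000)*A.bc13 + (183487/5000000000)*A.bc21 + (40423/625000000)*A.bc22 + (516141/5000000000)*A.bc23 + (-39/20000000)*A.c11 + (12487/500000000)*A.c12 + (80413/2500000000)*A.c13 + (53793/1000000000)*A.c22 + (325367/2500000000)*A.c23 + (5889/125000000)*A.c33

lemma chunk30 (A : Atoms) (s : ℝ) (ht : ∀ a1 a2 a3 a4 a5 a6 a7 b1 b2 b3 b4 b5 b6 b7 c1 c2 c3 c4 c5 c6 c7 d1 d2 d3 d4 d5 d6 d7 : ℝ,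
      0 ≤ A.fTens a1 a2 a3 a4 a5 a6 a7 b1 b2 b3 b4 b5 b6 b7 c1 c2 c3 c4 c5 c6 c7 d1 d2 d3 d4 d5 d6 d7)
    (hv : ∀ z1 z2 z3 z4 z5 z6 z7 : ℝ, 0 ≤ A.fPV z1 z2 z3 z4 z5 z6 z7 z1 z2 z3 z4 z5 z6 z7) :
    0 ≤ nf30 A s := by
  have e : 1 * (A.fTens (-359/100000) (-3/2000) (-457/100000) (19/50000) (-97/12500) (29/100000) ((6/3125)*A.T+(487/50000)*A.H+(211/100000)*A.G) (-699/100000) (3/4000) (-453/100000) (203/12500) (-167/50000) (67/25000) ((-7/12500)*A.T+(9/12500)*A.H+(-943/100000)*A.G) (163/50000) (13/20000) (-111/20000) 0 0 (79/10000) ((-33/20000)*A.T+(-441/100000)*A.H+(-47/50000)*A.G) (-337/100000) (-443/100000) (-13/2500) (-33/10000) 0 0 ((117/100000)*A.T+(-51/20000)*A.H+(61/6250)*A.G)) = nf30 A s := by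
    unfold nf30 Atoms.fTens Atoms.fIP Atoms.fPV
    ring
  rw [← e]
  exact mul_nonneg (by norm_num) (ht _ _ _ _ _ _ _ _ _ _ _ _ _ _ _ _ _ _ _ _ _ _ _ _ _ _ _ _)

noncomputable def nf31 (A : Atoms) (s : ℝ) : ℝ :=
  (27791/1250000000)*A.Aqqq*A.G + (23533/2500000000)*A.Aqqq*A.H + (-191/5000000000)*A.Aqqq*A.T + (112511/1250000000)*A.Aqqx*A.G + (591/1250000000)*A.Aqqx*A.H + (-18587/5000000000)*A.Aqqx*A.T + (-539091/5000000000)*A.Aqxx*A.G + (-563623/5000000000)*A.Aqxx*A.H + (98043/5000000000)*A.Aqxx*A.T + (2203/62500000)*A.Axxx*A.G + (356023/5000000000)*A.Axxx*A.H + (-68341/2500000000)*A.Axxx*A.T + (472257/2000000000)*A.G^3 + (3298537/5000000000)*A.G^2*A.H + (-13069907/50000000000)*A.G^2*A.T + (4922241/10000000000)*A.G*A.H^2 + (-15371677/25000000000)*A.G*A.H*A.T + (59617/1250000000)*A.G*A.HH + (201183/2500000000)*A.G*A.HM + (-120571/2500000000)*A.G*A.HN + (340397/10000000000)*A.G*A.MM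 + (-203161/5000000000)*A.G*A.MN + (24401/2000000000)*A.G*A.NN + (1322619/12500000000)*A.G*A.T^2 + (90639/2500000000)*A.G*A.pqq + (547907/5000000000)*A.G*A.pqx + (-2187/31250000)*A.G*A.pxx + (1376531/5000000000)*A.H^3 + (-5514347/50000000000)*A.H^2*A.T + (69/4000000)*A.H*A.HH + (35571/2500000000)*A.H*A.HM + (-567/25000000)*A.H*A.HN + (-1663/5000000000)*A.H*A.MM + (-7397/625000000)*A.H*A.MN + (34983/5000000000)*A.H*A.NN + (-24439/25000000000)*A.H*A.T^2 + (6009/625000000)*A.H*A.pqq + (-105079/5000000000)*A.H*A.pqx + (-732359/5000000000)*A.H*A.pxx + (15689/10000000000)*A.HH*A.T + (-361/5000000000)*A.HM*A.T + (-3251/1250000000)*A.HN*A.T + (1/1000000000)*A.MM*A.T + (339/5000000000)*A.MN*A.T + (11713/10000000000)*A.NN*A.T + (-1043/6250000000)*A.T^3 + (3961/2500000000)*A.T*A.pqq + (2851/250000000)*A.T*A.pqx + (236661/5000000000)*A.T*A.pxx + (391/250000000)*A.b11 + (43251/2500000000)*A.b12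 + (11891/250000000)*A.b22 + (-347/5000000000)*A.bc11 + (-14649/5000000000)*A.bc12 + (-35821/2500000000)*A.bc13 + (72967/5000000000)*A.bc21 + (71819/1000000000)*A.bc22 + (-120013/2500000000)*A.bc23 + (3/5000000000)*A.c11 + (-349/1250000000)*A.c12 + (-29747/2500000000)*A.c13 + (175787/5000000000)*A.c22 + (-83531/2500000000)*A.c23 + (30261/2500000000)*A.c33

lemma chunk31 (A : Atoms) (s : ℝ) (ht : ∀ a1 a2 a3 a4 a5 a6 a7 b1 b2 b3 b4 b5 b6 b7 c1 c2 c3 c4 c5 c6 c7 d1 d2 d3 d4 d5 d6 d7 : ℝ,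
      0 ≤ A.fTens a1 a2 a3 a4 a5 a6 a7 b1 b2 b3 b4 b5 b6 b7 c1 c2 c3 c4 c5 c6 c7 d1 d2 d3 d4 d5 d6 d7)
    (hv : ∀ z1 z2 z3 z4 z5 z6 z7 : ℝ, 0 ≤ A.fPV z1 z2 z3 z4 z5 z6 z7 z1 z2 z3 z4 z5 z6 z7) :
    0 ≤ nf31 A s := by
  have e : 1 * (A.fTens (-23/25000) (3/100000) (97/100000) (-57/100000) (-37/25000) (-61/20000) ((19/100000)*A.T+(251/100000)*A.H+(-151/50000)*A.G) (-47/10000) (-419/100000) (231/100000) (-137/100000) (-29/25000) (-239/100000) ((-171/100000)*A.T+(279/25000)*A.H+(559/100000)*A.G) (-17/20000) (1/100000) (3/6250) 0 0 (-311/100000) ((3/50000)*A.T+(7/6250)*A.H+(-249/100000)*A.G) (-253/50000) (-203/50000) (131/50000) (-61/100000) 0 0 ((-193/100000)*A.T+(1149/100000)*A.H+(639/100000)*A.G)) = nf31 A s := by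
    unfold nf31 Atoms.fTens Atoms.fIP Atoms.fPV
    ring
  rw [← e]
  exact mul_nonneg (by norm_num) (ht _ _ _ _ _ _ _ _ _ _ _ _ _ _ _ _ _ _ _ _ _ _ _ _ _ _ _ _)

noncomputable def nf32 (A : Atoms) (s : ℝ) : ℝ :=
  (-3030389651/5000000000)*A.Aqqq*A.G + (2377601167/2500000000)*A.Aqqq*A.H + (-49268941/78125000)*A.Aqqq*A.T + (4453723469/5000000000)*A.Aqqx*A.G + (-3275551947/2500000000)*A.Aqqx*A.H + (1349529773/1250000000)*A.Aqqx*A.T + (899433/5000000)*A.Aqqx*s + (-3559227179/5000000000)*A.Aqxx*A.G + (526892189/500000000)*A.Aqxx*A.H + (-1063840981/1250000000)*A.Aqxx*A.T + (-649809/5000000)*A.Aqxx*s + (718564483/2500000000)*A.Axxx*A.G + (-247175019/625000000)*A.Axxx*A.H + (99009547/250000000)*A.Axxx*A.T + (570843/5000000)*A.Axxx*s + (128346241/2500000000)*A.G^3 + (-696722171/2500000000)*A.G^2*A.H + (2334249849/10000000000)*A.G^2*A.T + (101961/2500000)*A.G^2*s + (627358573/1250000000)*A.G*A.H^2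 + (-2038866491/2500000000)*A.G*A.H*A.T + (-553491/5000000)*A.G*A.H*s + (180511937/625000000)*A.G*A.T^2 + (14049/250000)*A.G*A.T*s + (186152897/200000000)*A.G*A.pqq + (-220099241/250000000)*A.G*A.pqx + (34542121/250000000)*A.G*A.pxx + (81/10000)*A.G*s^2 + (-92713527/312500000)*A.H^3 + (1800599277/2500000000)*A.H^2*A.T + (214119/2500000)*A.H^2*s + (-19424693/39062500)*A.H*A.T^2 + (-4437/78125)*A.H*A.T*s + (-146052949/100000000)*A.H*A.pqq + (311775589/250000000)*A.H*A.pqx + (-11881953/62500000)*A.H*A.pxx + (972196/9765625)*A.T^3 + (3026527/3125000)*A.T*A.pqq + (-287675499/250000000)*A.T*A.pqx + (4759489/25000000)*A.T*A.pxx + (37687321/16000000)*A.b11 + (-18717811/20000000)*A.b12 + (9296401/100000000)*A.b22 + (-613513243/200000000)*A.bc11 + (443241939/200000000)*A.bc12 + (-389378353/200000000)*A.bc13 + (304707913/500000000)*A.bc21 + (-220140849/500000000)*A.bc22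 + (193388923/500000000)*A.bc23 + (9987403969/10000000000)*A.c11 + (-7215551337/5000000000)*A.c12 + (6338704099/5000000000)*A.c13 + (5212984401/10000000000)*A.c22 + (-4579492827/5000000000)*A.c23 + (4022984329/10000000000)*A.c33 + (-55251/200000)*A.pqx*s + (27441/500000)*A.pxx*s

lemma chunk32 (A : Atoms) (s : ℝ) (ht : ∀ a1 a2 a3 a4 a5 a6 a7 b1 b2 b3 b4 b5 b6 b7 c1 c2 c3 c4 c5 c6 c7 d1 d2 d3 d4 d5 d6 d7 : ℝ,
      0 ≤ A.fTens a1 a2 a3 a4 a5 a6 a7 b1 b2 b3 b4 b5 b6 b7 c1 c2 c3 c4 c5 c6 c7 d1 d2 d3 d4 d5 d6 d7)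
    (hv : ∀ z1 z2 z3 z4 z5 z6 z7 : ℝ, 0 ≤ A.fPV z1 z2 z3 z4 z5 z6 z7 z1 z2 z3 z4 z5 z6 z7) :
    0 ≤ nf32 A s := by
  have e : 1 * (A.fPV (6139/4000) (-3049/10000) (-99937/100000) (72201/100000) (-63427/100000) ((986/3125)*A.T+(-23791/50000)*A.H+(30323/100000)*A.G) ((-1561/5000)*A.T+(3897/12500)*A.H+(-11329/50000)*A.G+(-9/100)*s) (6139/4000) (-3049/10000) (-99937/100000) (72201/100000) (-63427/100000) ((986/3125)*A.T+(-23791/50000)*A.H+(30323/100000)*A.G) ((-1561/5000)*A.T+(3897/12500)*A.H+(-11329/50000)*A.G+(-9/100)*s)) = nf32 A s := by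
    unfold nf32 Atoms.fPV
    ring
  rw [← e]
  exact mul_nonneg (by norm_num) (hv _ _ _ _ _ _ _)

noncomputable def nf33 (A : Atoms) (s : ℝ) : ℝ :=
  (246808583/2500000000)*A.Aqqq*A.G + (-32622667/312500000)*A.Aqqq*A.H + (-69731137/1250000000)*A.Aqqq*A.T + (573730879/5000000000)*A.Aqqx*A.G + (-18803521/625000000)*A.Aqqx*A.H + (-14629799/1250000000)*A.Aqqx*A.T + (-3919489/1250000000)*A.Aqqx*s + (-37658091/156250000)*A.Aqxx*A.G + (259975463/625000000)*A.Aqxx*A.H + (1150004461/5000000000)*A.Aqxx*A.T + (-110723/20000000)*A.Aqxx*s + (409800847/5000000000)*A.Axxx*A.G + (-66324489/312500000)*A.Axxx*A.H + (-597166503/5000000000)*A.Axxx*A.T + (10787471/2500000000)*A.Axxx*s + (99820081/10000000000)*A.G^3 + (-423948103/5000000000)*A.G^2*A.H + (-16651217/10000000000)*A.G^2*A.T + (2627633/2500000000)*A.G^2*s + (117263597/625000000)*A.G*A.H^2 + (421261593/5000000000)*A.G*A.H*A.T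 + (-11159879/2500000000)*A.G*A.H*s + (-19598239/2000000000)*A.G*A.T^2 + (-3829017/2500000000)*A.G*A.T*s + (-374891357/2500000000)*A.G*A.pqq + (-58114011/500000000)*A.G*A.pqx + (155869591/1250000000)*A.G*A.pxx + (69169/2500000000)*A.G*s^2 + (-3539613/39062500)*A.H^3 + (-42966539/625000000)*A.H^2*A.T + (575707/312500000)*A.H^2*s + (13817087/2500000000)*A.H*A.T^2 + (1230577/1250000000)*A.H*A.T*s + (49552393/312500000)*A.H*A.pqq + (-30668/1953125)*A.H*A.pqx + (-25226817/78125000)*A.H*A.pxx + (21893041/2500000000)*A.T^3 + (105918523/1250000000)*A.T*A.pqq + (-37583767/2500000000)*A.T*A.pqx + (-227134959/1250000000)*A.T*A.pxx + (512433769/2500000000)*A.b11 + (353159837/625000000)*A.b12 + (243391201/625000000)*A.b22 + (-337359211/1250000000)*A.bc11 + (-9530177/20000000)*A.bc12 + (928501829/2500000000)*A.bc13 + (-232501703/625000000)*A.bc21 + (-6568021/10000000)*A.bc22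 + (639906217/1250000000)*A.bc23 + (222099409/2500000000)*A.c11 + (6274163/20000000)*A.c12 + (-611276351/2500000000)*A.c13 + (177241/640000)*A.c22 + (-17268157/40000000)*A.c23 + (1682394289/10000000000)*A.c33 + (5953531/1250000000)*A.pqx*s + (4103063/625000000)*A.pxx*s

lemma chunk33 (A : Atoms) (s : ℝ) (ht : ∀ a1 a2 a3 a4 a5 a6 a7 b1 b2 b3 b4 b5 b6 b7 c1 c2 c3 c4 c5 c6 c7 d1 d2 d3 d4 d5 d6 d7 : ℝ,
      0 ≤ A.fTens a1 a2 a3 a4 a5 a6 a7 b1 b2 b3 b4 b5 b6 b7 c1 c2 c3 c4 c5 c6 c7 d1 d2 d3 d4 d5 d6 d7)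
    (hv : ∀ z1 z2 z3 z4 z5 z6 z7 : ℝ, 0 ≤ A.fPV z1 z2 z3 z4 z5 z6 z7 z1 z2 z3 z4 z5 z6 z7) :
    0 ≤ nf33 A s := by
  have e : 1 * (A.fPV (22637/50000) (15601/25000) (-14903/50000) (-421/800) (41017/100000) ((4679/50000)*A.T+(2189/12500)*A.H+(-16561/100000)*A.G) ((-14559/100000)*A.T+(-1617/6250)*A.H+(9991/100000)*A.G+(263/50000)*s) (22637/50000) (15601/25000) (-14903/50000) (-421/800) (41017/100000) ((4679/50000)*A.T+(2189/12500)*A.H+(-16561/100000)*A.G) ((-14559/100000)*A.T+(-1617/6250)*A.H+(9991/100000)*A.G+(263/50000)*s)) = nf33 A s := by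
    unfold nf33 Atoms.fPV
    ring
  rw [← e]
  exact mul_nonneg (by norm_num) (hv _ _ _ _ _ _ _)

noncomputable def nf34 (A : Atoms) (s : ℝ) : ℝ :=
  (191361/1000000000)*A.Aqqq*A.G + (2106657/5000000000)*A.Aqqq*A.H + (-435831/5000000000)*A.Aqqq*A.T + (1059769/1250000000)*A.Aqqx*A.G + (438069/5000000000)*A.Aqqx*A.H + (-4107643/5000000000)*A.Aqqx*A.T + (208393/625000000)*A.Aqxx*A.G + (-1243321/1000000000)*A.Aqxx*A.H + (-3178829/5000000000)*A.Aqxx*A.T + (-6181647/5000000000)*A.Axxx*A.G + (1852689/2500000000)*A.Axxx*A.H + (3526509/2500000000)*A.Axxx*A.T + (14190289/10000000000)*A.G^3 + (-4230341/5000000000)*A.G^2*A.H + (-31092907/10000000000)*A.G^2*A.T + (1880037/1000000000)*A.G*A.H^2 + (142887/125000000)*A.G*A.H*A.T + (8649607/5000000000)*A.G*A.T^2 + (4313/200000000)*A.G*A.pqq + (-4933/62500000)*A.G*A.pqx + (-2497521/5000000000)*A.G*A.pxx + (-2821371/2500000000)*A.H^3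 + (-12901631/10000000000)*A.H^2*A.T + (930083/5000000000)*A.H*A.T^2 + (47481/1000000000)*A.H*A.pqq + (-1871347/5000000000)*A.H*A.pqx + (748527/2500000000)*A.H*A.pxx + (267289/10000000000)*A.T^3 + (-9823/1000000000)*A.T*A.pqq + (-65539/5000000000)*A.T*A.pqx + (1424787/2500000000)*A.T*A.pxx + (361/400000000)*A.b11 + (-12597/1000000000)*A.b12 + (439569/10000000000)*A.b22 + (16017/1000000000)*A.bc11 + (17803/1000000000)*A.bc12 + (-31179/1000000000)*A.bc13 + (-558909/5000000000)*A.bc21 + (-621231/5000000000)*A.bc22 + (1087983/5000000000)*A.bc23 + (710649/10000000000)*A.c11 + (789891/5000000000)*A.c12 + (-1383363/5000000000)*A.c13 + (877969/10000000000)*A.c22 + (-1537617/5000000000)*A.c23 + (2692881/10000000000)*A.c33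

lemma chunk34 (A : Atoms) (s : ℝ) (ht : ∀ a1 a2 a3 a4 a5 a6 a7 b1 b2 b3 b4 b5 b6 b7 c1 c2 c3 c4 c5 c6 c7 d1 d2 d3 d4 d5 d6 d7 : ℝ,
      0 ≤ A.fTens a1 a2 a3 a4 a5 a6 a7 b1 b2 b3 b4 b5 b6 b7 c1 c2 c3 c4 c5 c6 c7 d1 d2 d3 d4 d5 d6 d7)
    (hv : ∀ z1 z2 z3 z4 z5 z6 z7 : ℝ, 0 ≤ A.fPV z1 z2 z3 z4 z5 z6 z7 z1 z2 z3 z4 z5 z6 z7) :
    0 ≤ nf34 A s := by
  have e : 1 * (A.fPV (19/20000) (-663/100000) (843/100000) (937/100000) (-1641/100000) ((-517/100000)*A.T+(2499/100000)*A.H+(227/20000)*A.G) ((-2149/50000)*A.T+(-1129/50000)*A.H+(3767/100000)*A.G) (19/20000) (-663/100000) (843/100000) (937/100000) (-1641/100000) ((-517/100000)*A.T+(2499/100000)*A.H+(227/20000)*A.G) ((-2149/50000)*A.T+(-1129/50000)*A.H+(3767/100000)*A.G)) = nf34 A s := by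
    unfold nf34 Atoms.fPV
    ring
  rw [← e]
  exact mul_nonneg (by norm_num) (hv _ _ _ _ _ _ _)

noncomputable def nf35 (A : Atoms) (s : ℝ) : ℝ :=
  (15952157/500000000)*A.Aqqq*A.G + (-7203547/1000000000)*A.Aqqq*A.H + (-8494473/500000000)*A.Aqqq*A.T + (-57132039/1000000000)*A.Aqqx*A.G + (-10727569/1000000000)*A.Aqqx*A.H + (963163/20000000)*A.Aqqx*A.T + (362089/1000000000)*A.Aqqx*s + (-71361/7812500)*A.Aqxx*A.G + (20634711/500000000)*A.Aqxx*A.H + (-1228323/50000000)*A.Aqxx*A.T + (-150213/250000000)*A.Aqxx*s + (1056321/500000000)*A.Axxx*A.G + (1143639/100000000)*A.Axxx*A.H + (-2516913/250000000)*A.Axxx*A.T + (-91287/500000000)*A.Axxx*s + (3470769/10000000000)*A.G^3 + (-7640163/5000000000)*A.G^2*A.H + (5255099/312500000)*A.G^2*A.T + (-299943/5000000000)*A.G^2*s + (-172490017/10000000000)*A.G*A.H^2 + (2522011/2500000000)*A.G*A.H*A.T + (660261/5000000000)*A.G*A.H*s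 + (-33875801/2500000000)*A.G*A.T^2 + (714679/2500000000)*A.G*A.T*s + (4518241/125000000)*A.G*A.pqq + (-6016239/156250000)*A.G*A.pqx + (11082987/2500000000)*A.G*A.pxx + (25921/10000000000)*A.G*s^2 + (6460451/1000000000)*A.H^3 + (105750921/10000000000)*A.H^2*A.T + (-515683/5000000000)*A.H^2*s + (-857379/100000000)*A.H*A.T^2 + (-608097/2500000000)*A.H*A.T*s + (-2040311/250000000)*A.H*A.pqq + (-45186803/2500000000)*A.H*A.pqx + (11999133/500000000)*A.H*A.pxx + (14265729/2500000000)*A.T^3 + (-2405949/125000000)*A.T*A.pqq + (50745803/1250000000)*A.T*A.pqx + (-26407611/1250000000)*A.T*A.pxx + (405769/25000000)*A.b11 + (-3789513/125000000)*A.b12 + (35390601/2500000000)*A.b22 + (1432613/50000000)*A.bc11 + (-594321/12500000)*A.bc12 + (-361179/25000000)*A.bc13 + (-13379301/500000000)*A.bc21 + (5550417/125000000)*A.bc22 + (3373083/250000000)*A.bc23 + (5058001/400000000)*A.c11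 + (-2098317/50000000)*A.c12 + (-1275183/100000000)*A.c13 + (870489/25000000)*A.c22 + (529011/25000000)*A.c23 + (321489/100000000)*A.c33 + (102557/250000000)*A.pqx*s + (-957789/2500000000)*A.pxx*s

lemma chunk35 (A : Atoms) (s : ℝ) (ht : ∀ a1 a2 a3 a4 a5 a6 a7 b1 b2 b3 b4 b5 b6 b7 c1 c2 c3 c4 c5 c6 c7 d1 d2 d3 d4 d5 d6 d7 : ℝ,
      0 ≤ A.fTens a1 a2 a3 a4 a5 a6 a7 b1 b2 b3 b4 b5 b6 b7 c1 c2 c3 c4 c5 c6 c7 d1 d2 d3 d4 d5 d6 d7)
    (hv : ∀ z1 z2 z3 z4 z5 z6 z7 : ℝ, 0 ≤ A.fPV z1 z2 z3 z4 z5 z6 z7 z1 z2 z3 z4 z5 z6 z7) :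
    0 ≤ nf35 A s := by
  have e : 1 * (A.fPV (-637/5000) (5949/50000) (-2249/20000) (933/5000) (567/10000) ((3777/50000)*A.T+(3203/100000)*A.H+(-7093/50000)*A.G) ((-4439/50000)*A.T+(2017/20000)*A.H+(1863/100000)*A.G+(-161/100000)*s) (-637/5000) (5949/50000) (-2249/20000) (933/5000) (567/10000) ((3777/50000)*A.T+(3203/100000)*A.H+(-7093/50000)*A.G) ((-4439/50000)*A.T+(2017/20000)*A.H+(1863/100000)*A.G+(-161/100000)*s)) = nf35 A s := by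
    unfold nf35 Atoms.fPV
    ring
  rw [← e]
  exact mul_nonneg (by norm_num) (hv _ _ _ _ _ _ _)

noncomputable def nf36 (A : Atoms) (s : ℝ) : ℝ :=
  (746031/78125000)*A.Aqqq*A.G + (1210209/62500000)*A.Aqqq*A.H + (-151437/39062500)*A.Aqqq*A.T + (-51853387/1250000000)*A.Aqqx*A.G + (-42355729/5000000000)*A.Aqqx*A.H + (-1562657/625000000)*A.Aqqx*A.T + (429/15625000)*A.Aqqx*s + (-23217001/2500000000)*A.Aqxx*A.G + (-87102081/625000000)*A.Aqxx*A.H + (172943017/5000000000)*A.Aqxx*A.T + (-10937/250000000)*A.Aqxx*s + (8792073/62500000)*A.Axxx*A.G + (-936461/7812500)*A.Axxx*A.H + (5808999/125000000)*A.Axxx*A.T + (-919/6250000)*A.Axxx*s + (91527489/2500000000)*A.G^3 + (-11126421/125000000)*A.G^2*A.H + (72569491/2500000000)*A.G^2*A.T + (-9567/125000000)*A.G^2*s + (-11782119/2500000000)*A.G*A.H^2 + (160073/156250000)*A.G*A.H*A.T + (1163/12500000)*A.G*A.H*s + (667553/10000000000)*A.G*A.T^2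 + (-6321/250000000)*A.G*A.T*s + (-6804707/1250000000)*A.G*A.pqq + (133831919/2500000000)*A.G*A.pqx + (-66289743/625000000)*A.G*A.pxx + (1/25000000)*A.G*s^2 + (2874599/62500000)*A.H^3 + (-71449377/10000000000)*A.H^2*A.T + (2821/50000000)*A.H^2*s + (-343469/78125000)*A.H*A.T^2 + (-353/31250000)*A.H*A.T*s + (-11038573/1000000000)*A.H*A.pqq + (81784157/1250000000)*A.H*A.pqx + (7060651/78125000)*A.H*A.pxx + (124609/156250000)*A.T^3 + (1381289/625000000)*A.T*A.pqq + (-53535911/5000000000)*A.T*A.pqx + (-43798209/1250000000)*A.T*A.pxx + (15311569/10000000000)*A.b11 + (-27113177/1250000000)*A.b12 + (48011041/625000000)*A.b22 + (-1678677/312500000)*A.bc11 + (42796481/5000000000)*A.bc12 + (3596047/125000000)*A.bc13 + (2972541/78125000)*A.bc21 + (-75782473/1250000000)*A.bc22 + (-6367751/31250000)*A.bc23 + (184041/39062500)*A.c11 + (-4691973/312500000)*A.c12 + (-394251/7812500)*A.c13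 + (119617969/10000000000)*A.c22 + (10051103/125000000)*A.c23 + (844561/6250000)*A.c33 + (-3913/250000000)*A.pqx*s + (6929/62500000)*A.pxx*s

lemma chunk36 (A : Atoms) (s : ℝ) (ht : ∀ a1 a2 a3 a4 a5 a6 a7 b1 b2 b3 b4 b5 b6 b7 c1 c2 c3 c4 c5 c6 c7 d1 d2 d3 d4 d5 d6 d7 : ℝ,
      0 ≤ A.fTens a1 a2 a3 a4 a5 a6 a7 b1 b2 b3 b4 b5 b6 b7 c1 c2 c3 c4 c5 c6 c7 d1 d2 d3 d4 d5 d6 d7)
    (hv : ∀ z1 z2 z3 z4 z5 z6 z7 : ℝ, 0 ≤ A.fPV z1 z2 z3 z4 z5 z6 z7 z1 z2 z3 z4 z5 z6 z7) :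
    0 ≤ nf36 A s := by
  have e : 1 * (A.fPV (3913/100000) (-6929/25000) (-429/6250) (10937/100000) (919/2500) ((353/12500)*A.T+(-2821/20000)*A.H+(-1739/25000)*A.G) ((6321/100000)*A.T+(-1019/6250)*A.H+(9567/50000)*A.G+(-1/5000)*s) (3913/100000) (-6929/25000) (-429/6250) (10937/100000) (919/2500) ((353/12500)*A.T+(-2821/20000)*A.H+(-1739/25000)*A.G) ((6321/100000)*A.T+(-1019/6250)*A.H+(9567/50000)*A.G+(-1/5000)*s)) = nf36 A s := by
    unfold nf36 Atoms.fPV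
    ring
  rw [← e]
  exact mul_nonneg (by norm_num) (hv _ _ _ _ _ _ _)

noncomputable def nf37 (A : Atoms) (s : ℝ) : ℝ :=
  (747/5000000000)*A.Aqqq*A.G + (-1743/1250000000)*A.Aqqq*A.H + (120267/5000000000)*A.Aqqq*A.T + (-21/2500000000)*A.Aqqx*A.G + (89/500000000)*A.Aqqx*A.H + (-6867/2500000000)*A.Aqqx*A.T + (3/5000000000)*A.Aqxx*A.G + (-7/625000000)*A.Aqxx*A.H + (7/40000000)*A.Aqxx*A.T + (1/2500000000)*A.Axxx*A.H + (-7/1250000000)*A.Axxx*A.T + (9/10000000000)*A.G^2*A.T + (1/625000000)*A.G*A.H^2 + (-7/156250000)*A.G*A.H*A.T + (1841/5000000000)*A.G*A.T^2 + (33/1000000000)*A.G*A.pqq + (-9/5000000000)*A.G*A.pqx + (-7/625000000)*A.H^3 + (1071/2500000000)*A.H^2*A.T + (-3381/625000000)*A.H*A.T^2 + (-77/250000000)*A.H*A.pqq + (97/2500000000)*A.H*A.pqx + (-3/2500000000)*A.H*A.pxx + (233289/10000000000)*A.T^3 + (5313/1000000000)*A.T*A.pqq + (-2989/5000000000)*A.T*A.pqx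 + (21/1250000000)*A.T*A.pxx + (121/400000000)*A.b11 + (-33/1000000000)*A.b12 + (9/10000000000)*A.b22 + (2739/1000000000)*A.bc11 + (-77/500000000)*A.bc12 + (11/1000000000)*A.bc13 + (-747/5000000000)*A.bc21 + (21/2500000000)*A.bc22 + (-3/5000000000)*A.bc23 + (62001/10000000000)*A.c11 + (-1743/2500000000)*A.c12 + (249/5000000000)*A.c13 + (49/2500000000)*A.c22 + (-7/2500000000)*A.c23 + (1/10000000000)*A.c33

lemma chunk37 (A : Atoms) (s : ℝ) (ht : ∀ a1 a2 a3 a4 a5 a6 a7 b1 b2 b3 b4 b5 b6 b7 c1 c2 c3 c4 c5 c6 c7 d1 d2 d3 d4 d5 d6 d7 : ℝ,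
      0 ≤ A.fTens a1 a2 a3 a4 a5 a6 a7 b1 b2 b3 b4 b5 b6 b7 c1 c2 c3 c4 c5 c6 c7 d1 d2 d3 d4 d5 d6 d7)
    (hv : ∀ z1 z2 z3 z4 z5 z6 z7 : ℝ, 0 ≤ A.fPV z1 z2 z3 z4 z5 z6 z7 z1 z2 z3 z4 z5 z6 z7) :
    0 ≤ nf37 A s := by
  have e : 1 * (A.fPV (11/20000) (-3/100000) (249/100000) (-7/50000) (1/100000) ((483/100000)*A.T+(-7/25000)*A.H+(3/100000)*A.G) ((-7/25000)*A.T+(1/50000)*A.H) (11/20000) (-3/100000) (249/100000) (-7/50000) (1/100000) ((483/100000)*A.T+(-7/25000)*A.H+(3/100000)*A.G) ((-7/25000)*A.T+(1/50000)*A.H)) = nf37 A s := by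
    unfold nf37 Atoms.fPV
    ring
  rw [← e]
  exact mul_nonneg (by norm_num) (hv _ _ _ _ _ _ _)

noncomputable def nf38 (A : Atoms) (s : ℝ) : ℝ :=
  (-117667/5000000000)*A.Aqqq*A.G + (118503/1250000000)*A.Aqqq*A.H + (-1881/1000000000)*A.Aqqq*A.T + (-369643/5000000000)*A.Aqqx*A.G + (67321/500000000)*A.Aqqx*A.H + (2029/500000000)*A.Aqqx*A.T + (-595553/5000000000)*A.Aqxx*A.G + (26981/100000000)*A.Aqxx*A.H + (827/250000000)*A.Aqxx*A.T + (-145899/1250000000)*A.Axxx*A.G + (84409/2500000000)*A.Axxx*A.H + (17329/1000000000)*A.Axxx*A.T + (68121/625000000)*A.G^3 + (68121/1250000000)*A.G^2*A.H + (-6671/10000000000)*A.G^2*A.T + (-311527/625000000)*A.G*A.H^2 + (-1270359/5000000000)*A.G*A.H*A.T + (14939/2000000000)*A.G*A.T^2 + (-96273/1250000000)*A.G*A.pqq + (-39463/1250000000)*A.G*A.pqx + (64467/312500000)*A.G*A.pxx + (85617/625000000)*A.H^3 + (1454931/2500000000)*A.H^2*A.T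 + (-21807/1000000000)*A.H*A.T^2 + (96957/312500000)*A.H*A.pqq + (-254277/625000000)*A.H*A.pqx + (-37297/625000000)*A.H*A.pxx + (81/400000000)*A.T^3 + (-1539/250000000)*A.T*A.pqq + (1881/62500000)*A.T*A.pqx + (-7657/250000000)*A.T*A.pxx + (29241/625000000)*A.b11 + (-42237/312500000)*A.b12 + (61009/625000000)*A.b22 + (35739/1250000000)*A.bc11 + (45999/1250000000)*A.bc12 + (95589/1250000000)*A.bc13 + (-51623/1250000000)*A.bc21 + (-66443/1250000000)*A.bc22 + (-138073/1250000000)*A.bc23 + (43681/10000000000)*A.c11 + (56221/5000000000)*A.c12 + (116831/5000000000)*A.c13 + (72361/10000000000)*A.c22 + (150371/5000000000)*A.c23 + (312481/10000000000)*A.c33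

lemma chunk38 (A : Atoms) (s : ℝ) (ht : ∀ a1 a2 a3 a4 a5 a6 a7 b1 b2 b3 b4 b5 b6 b7 c1 c2 c3 c4 c5 c6 c7 d1 d2 d3 d4 d5 d6 d7 : ℝ,
      0 ≤ A.fTens a1 a2 a3 a4 a5 a6 a7 b1 b2 b3 b4 b5 b6 b7 c1 c2 c3 c4 c5 c6 c7 d1 d2 d3 d4 d5 d6 d7)
    (hv : ∀ z1 z2 z3 z4 z5 z6 z7 : ℝ, 0 ≤ A.fPV z1 z2 z3 z4 z5 z6 z7 z1 z2 z3 z4 z5 z6 z7) :
    0 ≤ nf38 A s := by
  have e : 1 * (A.fPV (171/25000) (-247/25000) (209/100000) (269/100000) (559/100000) ((-9/20000)*A.T+(567/25000)*A.H+(-563/100000)*A.G) ((31/20000)*A.T+(151/50000)*A.H+(-261/25000)*A.G) (171/25000) (-247/25000) (209/100000) (269/100000) (559/100000) ((-9/20000)*A.T+(567/25000)*A.H+(-563/100000)*A.G) ((31/20000)*A.T+(151/50000)*A.H+(-261/25000)*A.G)) = nf38 A s := by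
    unfold nf38 Atoms.fPV
    ring
  rw [← e]
  exact mul_nonneg (by norm_num) (hv _ _ _ _ _ _ _)

noncomputable def nf39 (A : Atoms) (s : ℝ) : ℝ :=
  (-54797/1250000000)*A.Aqqq*A.G + (-3071/625000000)*A.Aqqq*A.H + (-3219/1250000000)*A.Aqqq*A.T + (2597/62500000)*A.Aqqx*A.G + (-11281/1250000000)*A.Aqqx*A.H + (13623/1250000000)*A.Aqqx*A.T + (286191/1250000000)*A.Aqxx*A.G + (45483/1250000000)*A.Aqxx*A.H + (4263/625000000)*A.Aqxx*A.T + (-24057/625000000)*A.Axxx*A.G + (8613/125000000)*A.Axxx*A.H + (-297/6250000)*A.Axxx*A.T + (59049/10000000000)*A.G^3 + (-116397/1250000000)*A.G^2*A.H + (2339161/10000000000)*A.G^2*A.T + (1397019/10000000000)*A.G*A.H^2 + (-70019/1000000000)*A.G*A.H*A.T + (173847/5000000000)*A.G*A.T^2 + (-87379/1250000000)*A.G*A.pqq + (73577/1250000000)*A.G*A.pqx + (-243/31250000)*A.G*A.pxx + (7221/500000000)*A.H^3 + (1823/5000000000)*A.H^2*A.T + (-5829/2500000000)*A.H*A.T^2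 + (-4897/625000000)*A.H*A.pqq + (-761/50000000)*A.H*A.pqx + (87/6250000)*A.H*A.pxx + (7569/10000000000)*A.T^3 + (-5133/1250000000)*A.T*A.pqq + (1059/62500000)*A.T*A.pqx + (-3/312500)*A.T*A.pxx + (3481/625000000)*A.b11 + (-59/7812500)*A.b12 + (1/390625)*A.b22 + (2183/312500000)*A.bc11 + (-1711/312500000)*A.bc12 + (-5841/156250000)*A.bc13 + (-37/7812500)*A.bc21 + (29/7812500)*A.bc22 + (99/3906250)*A.bc23 + (1369/625000000)*A.c11 + (-1073/312500000)*A.c12 + (-3663/156250000)*A.c13 + (841/625000000)*A.c22 + (2871/156250000)*A.c23 + (9801/156250000)*A.c33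

lemma chunk39 (A : Atoms) (s : ℝ) (ht : ∀ a1 a2 a3 a4 a5 a6 a7 b1 b2 b3 b4 b5 b6 b7 c1 c2 c3 c4 c5 c6 c7 d1 d2 d3 d4 d5 d6 d7 : ℝ,
      0 ≤ A.fTens a1 a2 a3 a4 a5 a6 a7 b1 b2 b3 b4 b5 b6 b7 c1 c2 c3 c4 c5 c6 c7 d1 d2 d3 d4 d5 d6 d7)
    (hv : ∀ z1 z2 z3 z4 z5 z6 z7 : ℝ, 0 ≤ A.fPV z1 z2 z3 z4 z5 z6 z7 z1 z2 z3 z4 z5 z6 z7) :
    0 ≤ nf39 A s := by
  have e : 1 * (A.fPV (-59/25000) (1/625) (-37/25000) (29/25000) (99/12500) ((87/100000)*A.T+(83/50000)*A.H+(1481/100000)*A.G) ((-3/1000)*A.T+(87/20000)*A.H+(-243/100000)*A.G) (-59/25000) (1/625) (-37/25000) (29/25000) (99/12500) ((87/100000)*A.T+(83/50000)*A.H+(1481/100000)*A.G) ((-3/1000)*A.T+(87/20000)*A.H+(-243/100000)*A.G)) = nf39 A s := by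
    unfold nf39 Atoms.fPV
    ring
  rw [← e]
  exact mul_nonneg (by norm_num) (hv _ _ _ _ _ _ _)

noncomputable def nf40 (A : Atoms) (s : ℝ) : ℝ :=
  (1323/312500000)*A.Aqqq*A.G + (16121/2500000000)*A.Aqqq*A.H + (49/2500000000)*A.Aqqq*A.T + (4403/156250000)*A.Aqqx*A.G + (5341/200000000)*A.Aqqx*A.H + (79849/5000000000)*A.Aqqx*A.T + (52861/1250000000)*A.Aqxx*A.G + (15113/5000000000)*A.Aqxx*A.H + (60159/1000000000)*A.Aqxx*A.T + (-1333/125000000)*A.Axxx*A.G + (-5031/2500000000)*A.Axxx*A.H + (-34873/2500000000)*A.Axxx*A.T + (961/25000000)*A.G^3 + (10323/250000000)*A.G^2*A.H + (131537/1250000000)*A.G^2*A.T + (472193/10000000000)*A.G*A.H^2 + (341747/5000000000)*A.G*A.H*A.T + (658153/10000000000)*A.G*A.T^2 + (5859/625000000)*A.G*A.pqq + (53183/1250000000)*A.G*A.pqx + (5611/125000000)*A.G*A.pxx + (38493/5000000000)*A.H^3 + (642113/10000000000)*A.H^2*A.T + (57/250000000)*A.H*A.T^2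 + (71393/5000000000)*A.H*A.pqq + (144487/5000000000)*A.H*A.pqx + (21177/2500000000)*A.H*A.pxx + (1/10000000000)*A.T^3 + (217/5000000000)*A.T*A.pqq + (176349/5000000000)*A.T*A.pqx + (146791/2500000000)*A.T*A.pxx + (47089/10000000000)*A.b11 + (39277/2500000000)*A.b12 + (32761/2500000000)*A.b22 + (10633/2500000000)*A.bc11 + (80507/5000000000)*A.bc12 + (-9331/2500000000)*A.bc13 + (8869/1250000000)*A.bc21 + (67151/2500000000)*A.bc22 + (-7783/1250000000)*A.bc23 + (2401/2500000000)*A.c11 + (18179/2500000000)*A.c12 + (-2107/1250000000)*A.c13 + (137641/10000000000)*A.c22 + (-15953/2500000000)*A.c23 + (1849/2500000000)*A.c33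

lemma chunk40 (A : Atoms) (s : ℝ) (ht : ∀ a1 a2 a3 a4 a5 a6 a7 b1 b2 b3 b4 b5 b6 b7 c1 c2 c3 c4 c5 c6 c7 d1 d2 d3 d4 d5 d6 d7 : ℝ,
      0 ≤ A.fTens a1 a2 a3 a4 a5 a6 a7 b1 b2 b3 b4 b5 b6 b7 c1 c2 c3 c4 c5 c6 c7 d1 d2 d3 d4 d5 d6 d7)
    (hv : ∀ z1 z2 z3 z4 z5 z6 z7 : ℝ, 0 ≤ A.fPV z1 z2 z3 z4 z5 z6 z7 z1 z2 z3 z4 z5 z6 z7) :
    0 ≤ nf40 A s := by
  have e : 1 * (A.fPV (217/100000) (181/50000) (49/50000) (371/100000) (-43/50000) ((1/100000)*A.T+(329/100000)*A.H+(27/12500)*A.G) ((811/100000)*A.T+(117/100000)*A.H+(31/5000)*A.G) (217/100000) (181/50000) (49/50000) (371/100000) (-43/50000) ((1/100000)*A.T+(329/100000)*A.H+(27/12500)*A.G) ((811/100000)*A.T+(117/100000)*A.H+(31/5000)*A.G)) = nf40 A s := by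
    unfold nf40 Atoms.fPV
    ring
  rw [← e]
  exact mul_nonneg (by norm_num) (hv _ _ _ _ _ _ _)

noncomputable def nf41 (A : Atoms) (s : ℝ) : ℝ :=
  (-27711333/5000000000)*A.Aqqq*A.G + (-1558843/125000000)*A.Aqqq*A.H + (-6222489/312500000)*A.Aqqq*A.T + (-13648007/1250000000)*A.Aqqx*A.G + (-5135721/1250000000)*A.Aqqx*A.H + (-1739481/78125000)*A.Aqqx*A.T + (-141713/5000000000)*A.Aqqx*s + (-4113239/625000000)*A.Aqxx*A.G + (-973087/312500000)*A.Aqxx*A.H + (-544887/39062500)*A.Aqxx*A.T + (-20251/1250000000)*A.Aqxx*s + (-47/15625)*A.Axxx*A.G + (293/250000)*A.Axxx*A.H + (-66/15625)*A.Axxx*A.T + (-11/1000000)*A.Axxx*s + (8836/9765625)*A.G^3 + (46013/78125000)*A.G^2*A.H + (6007677/2000000000)*A.G^2*A.T + (517/78125000)*A.G^2*s + (636227/250000000)*A.G*A.H^2 + (944799/125000000)*A.G*A.H*A.T + (10769/5000000000)*A.G*A.H*s + (1596501/312500000)*A.G*A.T^2 + (363/39062500)*A.G*A.T*s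 + (-7659711/2500000000)*A.G*A.pqq + (-6796533/1000000000)*A.G*A.pqx + (-274433/78125000)*A.G*A.pxx + (121/10000000000)*A.G*s^2 + (-35453/31250000)*A.H^3 + (721867/156250000)*A.H^2*A.T + (1331/125000000)*A.H^2*s + (547239/39062500)*A.H*A.T^2 + (5313/312500000)*A.H*A.T*s + (-430881/62500000)*A.H*A.pqq + (-1244611/312500000)*A.H*A.pqx + (1710827/1250000000)*A.H*A.pxx + (233289/39062500)*A.T^3 + (-1719963/156250000)*A.T*A.pqq + (-940089/62500000)*A.T*A.pqx + (-192687/39062500)*A.T*A.pxx + (12680721/2500000000)*A.b11 + (20792679/2500000000)*A.b12 + (34093921/10000000000)*A.b22 + (45876363/2500000000)*A.bc11 + (6555801/625000000)*A.bc12 + (3561/500000)*A.bc13 + (75223837/5000000000)*A.bc21 + (10749599/1250000000)*A.bc22 + (5839/1000000)*A.bc23 + (165971689/10000000000)*A.c11 + (23717603/1250000000)*A.c12 + (12883/1000000)*A.c13 + (3389281/625000000)*A.c22 + (1841/250000)*A.c23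 + (1/400)*A.c33 + (-39171/2500000000)*A.pqx*s + (-64229/5000000000)*A.pxx*s

lemma chunk41 (A : Atoms) (s : ℝ) (ht : ∀ a1 a2 a3 a4 a5 a6 a7 b1 b2 b3 b4 b5 b6 b7 c1 c2 c3 c4 c5 c6 c7 d1 d2 d3 d4 d5 d6 d7 : ℝ,
      0 ≤ A.fTens a1 a2 a3 a4 a5 a6 a7 b1 b2 b3 b4 b5 b6 b7 c1 c2 c3 c4 c5 c6 c7 d1 d2 d3 d4 d5 d6 d7)
    (hv : ∀ z1 z2 z3 z4 z5 z6 z7 : ℝ, 0 ≤ A.fPV z1 z2 z3 z4 z5 z6 z7 z1 z2 z3 z4 z5 z6 z7) :
    0 ≤ nf41 A s := by
  have e : 1 * (A.fPV (3561/50000) (5839/100000) (12883/100000) (1841/25000) (1/20) ((-483/6250)*A.T+(-121/2500)*A.H+(-2151/100000)*A.G) ((-132/3125)*A.T+(293/25000)*A.H+(-94/3125)*A.G+(-11/100000)*s) (3561/50000) (5839/100000) (12883/100000) (1841/25000) (1/20) ((-483/6250)*A.T+(-121/2500)*A.H+(-2151/100000)*A.G) ((-132/3125)*A.T+(293/25000)*A.H+(-94/3125)*A.G+(-11/100000)*s)) = nf41 A s := by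
    unfold nf41 Atoms.fPV
    ring
  rw [← e]
  exact mul_nonneg (by norm_num) (hv _ _ _ _ _ _ _)

noncomputable def nf42 (A : Atoms) (s : ℝ) : ℝ :=
  (-184367/5000000000)*A.Aqqq*A.G + (-2317/200000000)*A.Aqqq*A.H + (-4303/200000000)*A.Aqqq*A.T + (1321033/5000000000)*A.Aqqx*A.G + (1243547/5000000000)*A.Aqqx*A.H + (259987/5000000000)*A.Aqqx*A.T + (-2448009/5000000000)*A.Aqxx*A.G + (-4295883/5000000000)*A.Aqxx*A.H + (746057/5000000000)*A.Aqxx*A.T + (24057/250000000)*A.Axxx*A.G + (223641/1250000000)*A.Axxx*A.H + (-88803/2500000000)*A.Axxx*A.T + (6561/25000000)*A.G^3 + (39771/50000000)*A.G^2*A.H + (-1627271/10000000000)*A.G^2*A.T + (321861/625000000)*A.G*A.H^2 + (-379423/1000000000)*A.G*A.H*A.T + (359827/5000000000)*A.G*A.T^2 + (-66283/1250000000)*A.G*A.pqq + (1200567/5000000000)*A.G*A.pqx + (-62451/250000000)*A.G*A.pxx + (-5271/50000000)*A.H^3 + (-13743/80000000)*A.H^2*A.T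 + (10049/200000000)*A.H*A.T^2 + (-833/50000000)*A.H*A.pqq + (1568637/5000000000)*A.H*A.pqx + (-580563/1250000000)*A.H*A.pxx + (169/16000000)*A.T^3 + (-1547/50000000)*A.T*A.pqq + (-34073/5000000000)*A.T*A.pqx + (230529/2500000000)*A.T*A.pxx + (14161/625000000)*A.b11 + (-91749/1250000000)*A.b12 + (594441/10000000000)*A.b22 + (39389/1250000000)*A.bc11 + (-167671/1250000000)*A.bc12 + (35343/1250000000)*A.bc13 + (-255201/5000000000)*A.bc21 + (1086339/5000000000)*A.bc22 + (-228987/5000000000)*A.bc23 + (109561/10000000000)*A.c11 + (-466379/5000000000)*A.c12 + (98307/5000000000)*A.c13 + (1985281/10000000000)*A.c22 + (-418473/5000000000)*A.c23 + (88209/10000000000)*A.c33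

lemma chunk42 (A : Atoms) (s : ℝ) (ht : ∀ a1 a2 a3 a4 a5 a6 a7 b1 b2 b3 b4 b5 b6 b7 c1 c2 c3 c4 c5 c6 c7 d1 d2 d3 d4 d5 d6 d7 : ℝ,
      0 ≤ A.fTens a1 a2 a3 a4 a5 a6 a7 b1 b2 b3 b4 b5 b6 b7 c1 c2 c3 c4 c5 c6 c7 d1 d2 d3 d4 d5 d6 d7)
    (hv : ∀ z1 z2 z3 z4 z5 z6 z7 : ℝ, 0 ≤ A.fPV z1 z2 z3 z4 z5 z6 z7 z1 z2 z3 z4 z5 z6 z7) :
    0 ≤ nf42 A s := by
  have e : 1 * (A.fPV (119/25000) (-771/100000) (331/100000) (-1409/100000) (297/100000) ((-13/4000)*A.T+(-7/4000)*A.H+(-557/100000)*A.G) ((-299/50000)*A.T+(753/25000)*A.H+(81/5000)*A.G) (119/25000) (-771/100000) (331/100000) (-1409/100000) (297/100000) ((-13/4000)*A.T+(-7/4000)*A.H+(-557/100000)*A.G) ((-299/50000)*A.T+(753/25000)*A.H+(81/5000)*A.G)) = nf42 A s := by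
    unfold nf42 Atoms.fPV
    ring
  rw [← e]
  exact mul_nonneg (by norm_num) (hv _ _ _ _ _ _ _)

noncomputable def nf43 (A : Atoms) (s : ℝ) : ℝ :=
  (-281129/40000000)*A.Aqqq*A.G + (75550363/5000000000)*A.Aqqq*A.H + (-10157313/1000000000)*A.Aqqq*A.T + (69937939/5000000000)*A.Aqqx*A.G + (-28111649/1000000000)*A.Aqqx*A.H + (12778239/625000000)*A.Aqqx*A.T + (-1676176659/1000000000)*A.Aqqx*s + (-29166097/2500000000)*A.Aqxx*A.G + (57839539/2500000000)*A.Aqxx*A.H + (-85444617/5000000000)*A.Aqxx*A.T + (1663834689/1000000000)*A.Aqxx*s + (2934681/625000000)*A.Axxx*A.G + (-5488713/625000000)*A.Axxx*A.H + (17350227/2500000000)*A.Axxx*A.T + (-561285369/500000000)*A.Axxx*s + (514089/625000000)*A.G^3 + (-5907363/1250000000)*A.G^2*A.H + (32580529/10000000000)*A.G^2*A.T + (-98324361/250000000)*A.G^2*s + (5941857/625000000)*A.G*A.H^2 + (-16153009/1250000000)*A.G*A.H*A.T + (1129838787/1000000000)*A.G*A.H*s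 + (41860371/10000000000)*A.G*A.T^2 + (-581306787/1000000000)*A.G*A.T*s + (380903/40000000)*A.G*A.pqq + (-60293573/5000000000)*A.G*A.pqx + (3191367/1250000000)*A.G*A.pxx + (18805459689/400000000)*A.G*s^2 + (-8288721/1250000000)*A.H^3 + (135182119/10000000000)*A.H^2*A.T + (-847619073/1000000000)*A.H^2*s + (-432951/50000000)*A.H*A.T^2 + (113957523/200000000)*A.H*A.T*s + (-102363541/5000000000)*A.H*A.pqq + (23268967/1000000000)*A.H*A.pqx + (-5968791/1250000000)*A.H*A.pxx + (690561/400000000)*A.T^3 + (13762191/1000000000)*A.T*A.pqq + (-5543499/312500000)*A.T*A.pqx + (18867789/5000000000)*A.T*A.pxx + (274266721/10000000000)*A.b11 + (-73713011/5000000000)*A.b12 + (19811401/10000000000)*A.b22 + (-202425103/5000000000)*A.bc11 + (200934613/5000000000)*A.bc12 + (-67784173/2500000000)*A.bc13 + (54404573/5000000000)*A.bc21 + (-54003983/5000000000)*A.bc22 + (18217943/2500000000)*A.bc23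 + (149401729/10000000000)*A.c11 + (-148301659/5000000000)*A.c12 + (50028739/2500000000)*A.c13 + (147209689/10000000000)*A.c22 + (-49660369/2500000000)*A.c23 + (16752649/2500000000)*A.c33 + (2271059613/1000000000)*A.pqx*s + (-610378983/1000000000)*A.pxx*s

lemma chunk43 (A : Atoms) (s : ℝ) (ht : ∀ a1 a2 a3 a4 a5 a6 a7 b1 b2 b3 b4 b5 b6 b7 c1 c2 c3 c4 c5 c6 c7 d1 d2 d3 d4 d5 d6 d7 : ℝ,
      0 ≤ A.fTens a1 a2 a3 a4 a5 a6 a7 b1 b2 b3 b4 b5 b6 b7 c1 c2 c3 c4 c5 c6 c7 d1 d2 d3 d4 d5 d6 d7)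
    (hv : ∀ z1 z2 z3 z4 z5 z6 z7 : ℝ, 0 ≤ A.fPV z1 z2 z3 z4 z5 z6 z7 z1 z2 z3 z4 z5 z6 z7) :
    0 ≤ nf43 A s := by
  have e : 1 * (A.fPV (16561/100000) (-4451/100000) (-12223/100000) (12133/100000) (-4093/50000) ((831/20000)*A.T+(-6181/100000)*A.H+(23/800)*A.G) ((-4239/100000)*A.T+(1341/25000)*A.H+(-717/25000)*A.G+(137133/20000)*s) (16561/100000) (-4451/100000) (-12223/100000) (12133/100000) (-4093/50000) ((831/20000)*A.T+(-6181/100000)*A.H+(23/800)*A.G) ((-4239/100000)*A.T+(1341/25000)*A.H+(-717/25000)*A.G+(137133/20000)*s)) = nf43 A s := by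
    unfold nf43 Atoms.fPV
    ring
  rw [← e]
  exact mul_nonneg (by norm_num) (hv _ _ _ _ _ _ _)

noncomputable def nf44 (A : Atoms) (s : ℝ) : ℝ :=
  (84959/5000000000)*A.Aqqx*A.T + (156647/10000000000)*A.G*A.HH + (15603/2500000000)*A.G*A.MM + (115453/20000000000)*A.G*A.T^2 + (115453/20000000000)*A.H^2*A.T + (-16559/2500000000)*A.H*A.HM + (316401/10000000000)*A.HH*A.T + (28819/5000000000)*A.HM*A.T + (209189/10000000000)*A.MM*A.T + (-1563/1000000000)*A.MN*A.T + (214879/10000000000)*A.NN*A.T + (84959/10000000000)*A.T^3 + (-115453/5000000000)*A.T*A.pqx + (-25753/5000000000)*A.b11 + (4449/1000000000)*A.b12 + (3263/250000000)*A.bc11 + (-21459/1000000000)*A.bc12 + (27107/5000000000)*A.bc13 + (14647/2500000000)*A.c13 + (-8213/1250000000)*A.c22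

lemma chunk44 (A : Atoms) (s : ℝ) (ht : ∀ a1 a2 a3 a4 a5 a6 a7 b1 b2 b3 b4 b5 b6 b7 c1 c2 c3 c4 c5 c6 c7 d1 d2 d3 d4 d5 d6 d7 : ℝ,
      0 ≤ A.fTens a1 a2 a3 a4 a5 a6 a7 b1 b2 b3 b4 b5 b6 b7 c1 c2 c3 c4 c5 c6 c7 d1 d2 d3 d4 d5 d6 d7)
    (hv : ∀ z1 z2 z3 z4 z5 z6 z7 : ℝ, 0 ≤ A.fPV z1 z2 z3 z4 z5 z6 z7 z1 z2 z3 z4 z5 z6 z7) :
    0 ≤ nf44 A s := by
  have e : (28819/10000000000) * (A.fTens 1 1 0 0 0 0 0 0 0 0 0 0 0 0 0 0 0 0 0 0 0 0 0 0 0 0 0 0) +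
    ((115453/10000000000) * (A.fTens 1 0 0 0 (-1) 0 0 0 0 0 0 0 0 0 0 0 0 0 0 0 0 0 0 0 0 0 0 0) +
    ((25753/10000000000) * (A.fTens 1 0 0 0 0 0 0 0 0 0 0 0 0 0 (-1) 0 0 0 0 0 0 0 0 0 0 0 0 0) +
    ((16559/5000000000) * (A.fTens 1 0 0 0 0 0 0 0 (-1) 0 0 0 0 0 0 0 0 0 0 0 0 0 0 0 0 0 0 0) +
    ((4449/2000000000) * (A.fTens 1 0 0 0 0 0 0 0 0 0 0 0 0 0 0 0 0 0 0 0 0 1 0 0 0 0 0 0) +
    ((1563/2000000000) * (A.fTens 0 1 (-1) 0 0 0 0 0 0 0 0 0 0 0 0 0 0 0 0 0 0 0 0 0 0 0 0 0) +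
    ((3263/500000000) * (A.fTens 0 1 0 0 0 0 0 0 0 0 0 0 0 0 1 0 0 0 0 0 0 0 0 0 0 0 0 0) +
    ((21459/2000000000) * (A.fTens 0 1 0 0 0 0 0 0 0 0 0 0 0 0 0 0 0 0 0 0 0 (-1) 0 0 0 0 0 0) +
    ((84959/10000000000) * (A.fTens 0 0 1 1 0 0 0 0 0 0 0 0 0 0 0 0 0 0 0 0 0 0 0 0 0 0 0 0) +
    ((8213/2500000000) * (A.fTens 0 0 1 0 0 0 0 0 0 0 0 0 0 0 0 0 (-1) 0 0 0 0 0 0 0 0 0 0 0) +
    ((27107/10000000000) * (A.fTens 0 0 1 0 0 0 0 0 0 0 0 0 0 0 0 0 0 0 0 0 0 1 0 0 0 0 0 0) +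
    ((14647/5000000000) * (A.fTens 0 0 1 0 0 0 0 0 0 0 0 0 0 0 0 0 0 0 0 0 0 0 1 0 0 0 0 0)))))))))))) = nf44 A s := by
    unfold nf44 Atoms.fTens Atoms.fIP Atoms.fPV
    ring
  rw [← e]
  exact add_nonneg (mul_nonneg (by norm_num) (ht _ _ _ _ _ _ _ _ _ _ _ _ _ _ _ _ _ _ _ _ _ _ _ _ _ _ _ _)) (add_nonneg (mul_nonneg (by norm_num) (ht _ _ _ _ _ _ _ _ _ _ _ _ _ _ _ _ _ _ _ _ _ _ _ _ _ _ _ _)) (add_nonneg (mul_nonneg (by norm_num) (ht _ _ _ _ _ _ _ _ _ _ _ _ _ _ _ _ _ _ _ _ _ _ _ _ _ _ _ _)) (add_nonneg (mul_nonneg (by norm_num) (ht _ _ _ _ _ _ _ _ _ _ _ _ _ _ _ _ _ _ _ _ _ _ _ _ _ _ _ _)) (add_nonneg (mul_nonneg (by norm_num) (ht _ _ _ _ _ _ _ _ _ _ _ _ _ _ _ _ _ _ _ _ _ _ _ _ _ _ _ _)) (add_nonneg (mul_nonneg (by norm_num) (ht _ _ _ _ _ _ _ _ _ _ _ _ _ _ _ _ _ _ _ _ _ _ _ _ _ _ _ _)) (add_nonneg (mul_nonneg (by norm_num) (ht _ _ _ _ _ _ _ _ _ _ _ _ _ _ _ _ _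 _ _ _ _ _ _ _ _ _ _ _)) (add_nonneg (mul_nonneg (by norm_num) (ht _ _ _ _ _ _ _ _ _ _ _ _ _ _ _ _ _ _ _ _ _ _ _ _ _ _ _ _)) (add_nonneg (mul_nonneg (by norm_num) (ht _ _ _ _ _ _ _ _ _ _ _ _ _ _ _ _ _ _ _ _ _ _ _ _ _ _ _ _)) (add_nonneg (mul_nonneg (by norm_num) (ht _ _ _ _ _ _ _ _ _ _ _ _ _ _ _ _ _ _ _ _ _ _ _ _ _ _ _ _)) (add_nonneg (mul_nonneg (by norm_num) (ht _ _ _ _ _ _ _ _ _ _ _ _ _ _ _ _ _ _ _ _ _ _ _ _ _ _ _ _)) (mul_nonneg (by norm_num) (ht _ _ _ _ _ _ _ _ _ _ _ _ _ _ _ _ _ _ _ _ _ _ _ _ _ _ _ _))))))))))))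

noncomputable def nf45 (A : Atoms) (s : ℝ) : ℝ :=
  (-4349/1000000000)*A.Aqqq*A.G + (-41/8000000)*A.Aqqq*A.T + (29759/2500000000)*A.Aqqx*A.H + (-2715999/166700000000)*A.Aqxx*A.T + (13047/2000000000)*A.G^2*A.T + (17083/5000000000)*A.G*A.HH + (52423/5000000000)*A.G*A.MM + (65880539/4167500000000)*A.G*A.NN + (89277/5000000000)*A.H^2*A.T + (-4327/1000000000)*A.H*A.HH + (-3209/500000000)*A.H*A.HN + (18877/2500000000)*A.H*A.MM + (12531/5000000000)*A.H*A.pqq + (148519/10000000000)*A.HH*A.T + (1699/500000000)*A.HN*A.T + (19027/1250000000)*A.MM*A.T + (30259/2500000000)*A.NN*A.T + (430051853/8335000000000)*A.T^3 + (19451/1250000000)*A.T*A.pqq + (16773/1250000000)*A.c12 + (-2783/312500000)*A.c23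

lemma chunk45 (A : Atoms) (s : ℝ) (ht : ∀ a1 a2 a3 a4 a5 a6 a7 b1 b2 b3 b4 b5 b6 b7 c1 c2 c3 c4 c5 c6 c7 d1 d2 d3 d4 d5 d6 d7 : ℝ,
      0 ≤ A.fTens a1 a2 a3 a4 a5 a6 a7 b1 b2 b3 b4 b5 b6 b7 c1 c2 c3 c4 c5 c6 c7 d1 d2 d3 d4 d5 d6 d7)
    (hv : ∀ z1 z2 z3 z4 z5 z6 z7 : ℝ, 0 ≤ A.fPV z1 z2 z3 z4 z5 z6 z7 z1 z2 z3 z4 z5 z6 z7) :
    0 ≤ nf45 A s := by
  have e : (41/16000000) * (A.fTens 0 0 0 1 0 0 0 0 0 0 0 0 0 0 0 (-1) 0 0 0 0 0 0 0 0 0 0 0 0) +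
    ((12531/10000000000) * (A.fTens 0 0 0 1 0 0 0 1 0 0 0 0 0 0 0 0 0 0 0 0 0 0 0 0 0 0 0 0) +
    ((19451/2500000000) * (A.fTens 0 0 0 0 0 0 (1*A.T) 0 0 0 0 0 0 0 1 0 0 0 0 0 0 0 0 0 0 0 0 0) +
    ((2715999/333400000000) * (A.fTens 0 0 0 0 0 0 (1*A.T) 0 0 0 0 0 0 0 0 0 0 0 0 0 0 0 0 (-1) 0 0 0 0) +
    ((29759/5000000000) * (A.fTens 0 0 0 0 0 0 (1*A.H) 0 0 0 0 0 0 0 0 0 1 0 0 0 0 0 0 0 0 0 0 0) +
    ((4349/2000000000) * (A.fTens 0 0 0 0 0 0 (1*A.G) 0 0 0 0 0 0 0 0 (-1) 0 0 0 0 0 0 0 0 0 0 0 0) +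
    ((1699/1000000000) * (A.fTens 0 0 0 0 0 0 0 0 0 0 0 0 0 0 1 0 1 0 0 0 0 0 0 0 0 0 0 0) +
    ((4327/2000000000) * (A.fTens 0 0 0 0 0 0 0 0 0 0 0 0 0 0 1 0 0 0 0 0 0 (-1) 0 0 0 0 0 0) +
    ((3209/1000000000) * (A.fTens 0 0 0 0 0 0 0 0 0 0 0 0 0 0 1 0 0 0 0 0 0 0 0 (-1) 0 0 0 0) +
    ((16773/2500000000) * (A.fTens 0 0 0 0 0 0 0 0 1 0 0 0 0 0 0 1 0 0 0 0 0 0 0 0 0 0 0 0) +
    ((18877/5000000000) * (A.fTens 0 0 0 0 0 0 0 0 0 0 0 0 0 0 0 1 0 0 0 0 0 0 1 0 0 0 0 0) +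
    ((2783/625000000) * (A.fTens 0 0 0 0 0 0 0 0 0 (-1) 0 0 0 0 0 0 1 0 0 0 0 0 0 0 0 0 0 0)))))))))))) = nf45 A s := by
    unfold nf45 Atoms.fTens Atoms.fIP Atoms.fPV
    ring
  rw [← e]
  exact add_nonneg (mul_nonneg (by norm_num) (ht _ _ _ _ _ _ _ _ _ _ _ _ _ _ _ _ _ _ _ _ _ _ _ _ _ _ _ _)) (add_nonneg (mul_nonneg (by norm_num) (ht _ _ _ _ _ _ _ _ _ _ _ _ _ _ _ _ _ _ _ _ _ _ _ _ _ _ _ _)) (add_nonneg (mul_nonneg (by norm_num) (ht _ _ _ _ _ _ _ _ _ _ _ _ _ _ _ _ _ _ _ _ _ _ _ _ _ _ _ _)) (add_nonneg (mul_nonneg (by norm_num) (ht _ _ _ _ _ _ _ _ _ _ _ _ _ _ _ _ _ _ _ _ _ _ _ _ _ _ _ _)) (add_nonneg (mul_nonneg (by norm_num) (ht _ _ _ _ _ _ _ _ _ _ _ _ _ _ _ _ _ _ _ _ _ _ _ _ _ _ _ _)) (add_nonneg (mul_nonneg (by norm_num) (ht _ _ _ _ _ _ _ _ _ _ _ _ _ _ _ _ _ _ _ _ _ _ _ _ _ _ _ _)) (add_nonneg (mul_nonneg (by norm_num) (ht _ _ _ _ _ _ _ _ _ _ _ _ _ _ _ _ _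 _ _ _ _ _ _ _ _ _ _ _)) (add_nonneg (mul_nonneg (by norm_num) (ht _ _ _ _ _ _ _ _ _ _ _ _ _ _ _ _ _ _ _ _ _ _ _ _ _ _ _ _)) (add_nonneg (mul_nonneg (by norm_num) (ht _ _ _ _ _ _ _ _ _ _ _ _ _ _ _ _ _ _ _ _ _ _ _ _ _ _ _ _)) (add_nonneg (mul_nonneg (by norm_num) (ht _ _ _ _ _ _ _ _ _ _ _ _ _ _ _ _ _ _ _ _ _ _ _ _ _ _ _ _)) (add_nonneg (mul_nonneg (by norm_num) (ht _ _ _ _ _ _ _ _ _ _ _ _ _ _ _ _ _ _ _ _ _ _ _ _ _ _ _ _)) (mul_nonneg (by norm_num) (ht _ _ _ _ _ _ _ _ _ _ _ _ _ _ _ _ _ _ _ _ _ _ _ _ _ _ _ _))))))))))))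

noncomputable def nf46 (A : Atoms) (s : ℝ) : ℝ :=
  (-61703/10000000000)*A.Aqxx*A.H + (47895673/12502500000000)*A.Axxx*A.G + (47895673/25005000000000)*A.G^3 + (61703/20000000000)*A.G^2*A.T + (1056749033/50010000000000)*A.G*A.HH + (3863/500000000)*A.G*A.HM + (-13293/1000000000)*A.G*A.HN + (274261/20000000000)*A.G*A.MM + (40239/5000000000)*A.G*A.MN + (748646891/50010000000000)*A.G*A.NN + (189145851/8335000000000)*A.G*A.T^2 + (-22927/2500000000)*A.G*A.pqq + (268273/10000000000)*A.G*s^2 + (-2741/500000000)*A.H*A.MN + (23841/5000000000)*A.H*A.NN + (51251/10000000000)*A.NN*A.T + (75463271/6251250000000)*A.T*A.pxx + (268273/10000000000)*A.b11 + (2081/500000000)*A.b22 + (-9991/2500000000)*A.bc21 + (-10819/2500000000)*A.bc22 + (9991/5000000000)*A.c11 + (10819/5000000000)*A.c22 + (268273/5000000000)*A.pqx*s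

lemma chunk46 (A : Atoms) (s : ℝ) (ht : ∀ a1 a2 a3 a4 a5 a6 a7 b1 b2 b3 b4 b5 b6 b7 c1 c2 c3 c4 c5 c6 c7 d1 d2 d3 d4 d5 d6 d7 : ℝ,
      0 ≤ A.fTens a1 a2 a3 a4 a5 a6 a7 b1 b2 b3 b4 b5 b6 b7 c1 c2 c3 c4 c5 c6 c7 d1 d2 d3 d4 d5 d6 d7)
    (hv : ∀ z1 z2 z3 z4 z5 z6 z7 : ℝ, 0 ≤ A.fPV z1 z2 z3 z4 z5 z6 z7 z1 z2 z3 z4 z5 z6 z7) :
    0 ≤ nf46 A s := by
  have e : (2741/1000000000) * (A.fTens 0 0 0 0 0 0 0 0 0 0 0 0 0 0 0 0 1 0 0 0 0 0 (-1) 0 0 0 0 0) +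
    ((23841/10000000000) * (A.fTens 0 0 0 0 0 0 0 0 0 0 0 0 0 0 0 0 1 0 0 0 0 0 0 1 0 0 0 0) +
    ((61703/20000000000) * (A.fTens 0 0 0 0 0 0 0 0 0 0 0 0 0 0 0 0 0 0 0 1 0 0 (-1) 0 0 0 0 0) +
    ((3863/1000000000) * (A.fTens 0 0 0 0 0 0 0 1 1 0 0 0 0 0 0 0 0 0 0 0 0 0 0 0 0 0 0 0) +
    ((13293/2000000000) * (A.fTens 0 0 0 0 0 0 0 1 0 (-1) 0 0 0 0 0 0 0 0 0 0 0 0 0 0 0 0 0 0) +
    ((75463271/12502500000000) * (A.fTens 0 0 0 0 0 0 0 1 0 0 0 0 0 0 0 0 0 0 0 0 0 0 0 0 0 0 0 (1*A.T)) +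
    ((47895673/25005000000000) * (A.fTens 0 0 0 0 0 0 0 0 0 1 0 0 1 0 0 0 0 0 0 0 0 0 0 0 0 0 0 0) +
    ((22927/5000000000) * (A.fTens 0 0 0 0 0 0 0 0 0 0 0 0 0 0 0 0 0 0 0 0 0 1 0 0 (-1) 0 0 0) +
    ((40239/10000000000) * (A.fTens 0 0 0 0 0 0 0 0 0 0 0 0 0 0 0 0 0 0 0 0 0 0 1 1 0 0 0 0) +
    ((268273/10000000000) * (A.fPV 1 0 0 0 0 0 (1*s) 1 0 0 0 0 0 (1*s)) +
    ((9991/5000000000) * (A.fPV 0 1 (-1) 0 0 0 0 0 1 (-1) 0 0 0 0) +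
    ((10819/5000000000) * (A.fPV 0 1 0 (-1) 0 0 0 0 1 0 (-1) 0 0 0)))))))))))) = nf46 A s := by
    unfold nf46 Atoms.fTens Atoms.fIP Atoms.fPV
    ring
  rw [← e]
  exact add_nonneg (mul_nonneg (by norm_num) (ht _ _ _ _ _ _ _ _ _ _ _ _ _ _ _ _ _ _ _ _ _ _ _ _ _ _ _ _)) (add_nonneg (mul_nonneg (by norm_num) (ht _ _ _ _ _ _ _ _ _ _ _ _ _ _ _ _ _ _ _ _ _ _ _ _ _ _ _ _)) (add_nonneg (mul_nonneg (by norm_num) (ht _ _ _ _ _ _ _ _ _ _ _ _ _ _ _ _ _ _ _ _ _ _ _ _ _ _ _ _)) (add_nonneg (mul_nonneg (by norm_num) (ht _ _ _ _ _ _ _ _ _ _ _ _ _ _ _ _ _ _ _ _ _ _ _ _ _ _ _ _)) (add_nonneg (mul_nonneg (by norm_num) (ht _ _ _ _ _ _ _ _ _ _ _ _ _ _ _ _ _ _ _ _ _ _ _ _ _ _ _ _)) (add_nonneg (mul_nonneg (by norm_num) (ht _ _ _ _ _ _ _ _ _ _ _ _ _ _ _ _ _ _ _ _ _ _ _ _ _ _ _ _)) (add_nonneg (mul_nonneg (by norm_num) (ht _ _ _ _ _ _ _ _ _ _ _ _ _ _ _ _ _ _ _ _ _ _ _ _ _ _ _ _))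 (add_nonneg (mul_nonneg (by norm_num) (ht _ _ _ _ _ _ _ _ _ _ _ _ _ _ _ _ _ _ _ _ _ _ _ _ _ _ _ _)) (add_nonneg (mul_nonneg (by norm_num) (ht _ _ _ _ _ _ _ _ _ _ _ _ _ _ _ _ _ _ _ _ _ _ _ _ _ _ _ _)) (add_nonneg (mul_nonneg (by norm_num) (hv _ _ _ _ _ _ _)) (add_nonneg (mul_nonneg (by norm_num) (hv _ _ _ _ _ _ _)) (mul_nonneg (by norm_num) (hv _ _ _ _ _ _ _))))))))))))

noncomputable def nf47 (A : Atoms) (s : ℝ) : ℝ :=
  (-28171/2500000000)*A.Aqqq*A.H + (142827361/25005000000000)*A.Aqqx*A.G + (22239/5000000000)*A.Aqqx*s + (94997223/16670000000000)*A.Aqxx*A.G + (-79691/5000000000)*A.Aqxx*s + (105564547/10002000000000)*A.Axxx*A.T + (199380213/33340000000000)*A.G^3 + (457740133/100020000000000)*A.G^2*A.T + (60037/20000000000)*A.G*A.H^2 + (105564547/20004000000000)*A.G*A.T^2 + (-172085411/50010000000000)*A.G*A.pqx + (10438299/1667000000000)*A.G*A.pxx + (46957/2500000000)*A.G*s^2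 + (60179/10000000000)*A.H^2*A.T + (-3837/5000000000)*A.H*A.pqx + (60037/10000000000)*A.H*A.pxx + (445142099/25005000000000)*A.b22 + (4877/2500000000)*A.bc23 + (78581/10000000000)*A.c11 + (1367715773/100020000000000)*A.c22 + (625382243/100020000000000)*A.c33 + (42949/2500000000)*A.pxx*s

lemma chunk47 (A : Atoms) (s : ℝ) (ht : ∀ a1 a2 a3 a4 a5 a6 a7 b1 b2 b3 b4 b5 b6 b7 c1 c2 c3 c4 c5 c6 c7 d1 d2 d3 d4 d5 d6 d7 : ℝ,
      0 ≤ A.fTens a1 a2 a3 a4 a5 a6 a7 b1 b2 b3 b4 b5 b6 b7 c1 c2 c3 c4 c5 c6 c7 d1 d2 d3 d4 d5 d6 d7)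
    (hv : ∀ z1 z2 z3 z4 z5 z6 z7 : ℝ, 0 ≤ A.fPV z1 z2 z3 z4 z5 z6 z7 z1 z2 z3 z4 z5 z6 z7) :
    0 ≤ nf47 A s := by
  have e : (4877/5000000000) * (A.fPV 0 1 0 0 1 0 0 0 1 0 0 1 0 0) +
    ((3837/10000000000) * (A.fPV 0 1 0 0 0 ((-1)*A.H) 0 0 1 0 0 0 ((-1)*A.H) 0) +
    ((172085411/100020000000000) * (A.fPV 0 1 0 0 0 ((-1)*A.G) 0 0 1 0 0 0 ((-1)*A.G) 0) +
    ((60037/20000000000) * (A.fPV 0 1 0 0 0 0 (1*A.H) 0 1 0 0 0 0 (1*A.H)) +
    ((10438299/3334000000000) * (A.fPV 0 1 0 0 0 0 (1*A.G) 0 1 0 0 0 0 (1*A.G)) +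
    ((42949/5000000000) * (A.fPV 0 1 0 0 0 0 (1*s) 0 1 0 0 0 0 (1*s)) +
    ((28171/5000000000) * (A.fPV 0 0 1 0 0 ((-1)*A.H) 0 0 0 1 0 0 ((-1)*A.H) 0) +
    ((22239/10000000000) * (A.fPV 0 0 1 0 0 0 (1*s) 0 0 1 0 0 0 (1*s)) +
    ((142827361/50010000000000) * (A.fPV 0 0 0 1 0 (1*A.G) 0 0 0 0 1 0 (1*A.G) 0) +
    ((94997223/33340000000000) * (A.fPV 0 0 0 1 0 0 (1*A.G) 0 0 0 1 0 0 (1*A.G)) +
    ((79691/10000000000) * (A.fPV 0 0 0 1 0 0 ((-1)*s) 0 0 0 1 0 0 ((-1)*s)) +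
    ((105564547/20004000000000) * (A.fPV 0 0 0 0 1 0 (1*A.T) 0 0 0 0 1 0 (1*A.T))))))))))))) = nf47 A s := by
    unfold nf47 Atoms.fPV
    ring
  rw [← e]
  exact add_nonneg (mul_nonneg (by norm_num) (hv _ _ _ _ _ _ _)) (add_nonneg (mul_nonneg (by norm_num) (hv _ _ _ _ _ _ _)) (add_nonneg (mul_nonneg (by norm_num) (hv _ _ _ _ _ _ _)) (add_nonneg (mul_nonneg (by norm_num) (hv _ _ _ _ _ _ _)) (add_nonneg (mul_nonneg (by norm_num) (hv _ _ _ _ _ _ _)) (add_nonneg (mul_nonneg (by norm_num) (hv _ _ _ _ _ _ _)) (add_nonneg (mul_nonneg (by norm_num) (hv _ _ _ _ _ _ _)) (add_nonneg (mul_nonneg (by norm_num) (hv _ _ _ _ _ _ _)) (add_nonneg (mul_nonneg (by norm_num) (hv _ _ _ _ _ _ _)) (add_nonneg (mul_nonneg (by norm_num) (hv _ _ _ _ _ _ _)) (add_nonneg (mul_nonneg (by norm_num) (hv _ _ _ _ _ _ _)) (mul_nonneg (by norm_num) (hv _ _ _ _ _ _ _))))))))))))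

noncomputable def nf48 (A : Atoms) (s : ℝ) : ℝ :=
  (-17459/2000000000)*A.Axxx*A.H + (19409/2500000000)*A.Axxx*s + (538953/2000000000)*A.G^2*A.T + (17459/4000000000)*A.G*A.H^2 + (574547/20000000000)*A.G*A.T^2 + (19409/5000000000)*A.G*s^2 + (4357439/20000000000)*A.H^2*A.T + (933889/10000000000)*A.HH*A.T + (480811/10000000000)*A.MM*A.T + (526543/10000000000)*A.NN*A.T + (3599189641/16670000000000)*A.T^3 + (164931/20000000000)*A.c33

lemma chunk48 (A : Atoms) (s : ℝ) (ht : ∀ a1 a2 a3 a4 a5 a6 a7 b1 b2 b3 b4 b5 b6 b7 c1 c2 c3 c4 c5 c6 c7 d1 d2 d3 d4 d5 d6 d7 : ℝ,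
      0 ≤ A.fTens a1 a2 a3 a4 a5 a6 a7 b1 b2 b3 b4 b5 b6 b7 c1 c2 c3 c4 c5 c6 c7 d1 d2 d3 d4 d5 d6 d7)
    (hv : ∀ z1 z2 z3 z4 z5 z6 z7 : ℝ, 0 ≤ A.fPV z1 z2 z3 z4 z5 z6 z7 z1 z2 z3 z4 z5 z6 z7) :
    0 ≤ nf48 A s := by
  have e : (17459/4000000000) * (A.fPV 0 0 0 0 1 0 ((-1)*A.H) 0 0 0 0 1 0 ((-1)*A.H)) +
    ((19409/5000000000) * (A.fPV 0 0 0 0 1 0 (1*s) 0 0 0 0 1 0 (1*s)) +
    ((483421/10000000000) * (A.fTens 1 0 0 0 0 0 0 0 0 0 0 0 0 0 0 0 0 0 0 0 0 0 0 0 0 0 0 0) +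
    ((480811/10000000000) * (A.fTens 0 1 0 0 0 0 0 0 0 0 0 0 0 0 0 0 0 0 0 0 0 0 0 0 0 0 0 0) +
    ((526543/10000000000) * (A.fTens 0 0 1 0 0 0 0 0 0 0 0 0 0 0 0 0 0 0 0 0 0 0 0 0 0 0 0 0) +
    ((113377/2000000000) * (A.fTens 0 0 0 1 0 0 0 0 0 0 0 0 0 0 0 0 0 0 0 0 0 0 0 0 0 0 0 0) +
    ((574547/10000000000) * (A.fTens 0 0 0 0 1 0 0 0 0 0 0 0 0 0 0 0 0 0 0 0 0 0 0 0 0 0 0 0) +
    ((69/1000000) * (A.fTens 0 0 0 0 0 1 0 0 0 0 0 0 0 0 0 0 0 0 0 0 0 0 0 0 0 0 0 0) +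
    ((442365391/8335000000000) * (A.fTens 0 0 0 0 0 0 (1*A.T) 0 0 0 0 0 0 0 0 0 0 0 0 0 0 0 0 0 0 0 0 0) +
    ((315241/5000000000) * (A.fTens 0 0 0 0 0 0 (1*A.H) 0 0 0 0 0 0 0 0 0 0 0 0 0 0 0 0 0 0 0 0 0) +
    ((133651/2000000000) * (A.fTens 0 0 0 0 0 0 (1*A.G) 0 0 0 0 0 0 0 0 0 0 0 0 0 0 0 0 0 0 0 0 0) +
    ((112617/2500000000) * (A.fTens 0 0 0 0 0 0 0 0 0 0 0 0 0 0 1 0 0 0 0 0 0 0 0 0 0 0 0 0)))))))))))) = nf48 A s := by
    unfold nf48 Atoms.fTens Atoms.fIP Atoms.fPV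
    ring
  rw [← e]
  exact add_nonneg (mul_nonneg (by norm_num) (hv _ _ _ _ _ _ _)) (add_nonneg (mul_nonneg (by norm_num) (hv _ _ _ _ _ _ _)) (add_nonneg (mul_nonneg (by norm_num) (ht _ _ _ _ _ _ _ _ _ _ _ _ _ _ _ _ _ _ _ _ _ _ _ _ _ _ _ _)) (add_nonneg (mul_nonneg (by norm_num) (ht _ _ _ _ _ _ _ _ _ _ _ _ _ _ _ _ _ _ _ _ _ _ _ _ _ _ _ _)) (add_nonneg (mul_nonneg (by norm_num) (ht _ _ _ _ _ _ _ _ _ _ _ _ _ _ _ _ _ _ _ _ _ _ _ _ _ _ _ _)) (add_nonneg (mul_nonneg (by norm_num) (ht _ _ _ _ _ _ _ _ _ _ _ _ _ _ _ _ _ _ _ _ _ _ _ _ _ _ _ _)) (add_nonneg (mul_nonneg (by norm_num) (ht _ _ _ _ _ _ _ _ _ _ _ _ _ _ _ _ _ _ _ _ _ _ _ _ _ _ _ _)) (add_nonneg (mul_nonneg (by norm_num) (ht _ _ _ _ _ _ _ _ _ _ _ _ _ _ _ _ _ _ _ _ _ _ _ _ _ _ _ _)) (add_nonneg (mul_nonneg (by norm_num) (ht _ _ _ _ _ _ _ _ _ _ _ _ _ _ _ _ _ _ _ _ _ _ _ _ _ _ _ _)) (add_nonneg (mul_nonneg (by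 norm_num) (ht _ _ _ _ _ _ _ _ _ _ _ _ _ _ _ _ _ _ _ _ _ _ _ _ _ _ _ _)) (add_nonneg (mul_nonneg (by norm_num) (ht _ _ _ _ _ _ _ _ _ _ _ _ _ _ _ _ _ _ _ _ _ _ _ _ _ _ _ _)) (mul_nonneg (by norm_num) (ht _ _ _ _ _ _ _ _ _ _ _ _ _ _ _ _ _ _ _ _ _ _ _ _ _ _ _ _))))))))))))

noncomputable def nf49 (A : Atoms) (s : ℝ) : ℝ :=
  (1677449327/25005000000000)*A.G^3 + (6148297/20000000000)*A.G^2*A.T + (69/2000000)*A.G*A.H^2 + (2330908363/50010000000000)*A.G*A.HH + (133613/2500000000)*A.G*A.MM + (1329299711/25005000000000)*A.G*A.NN + (69/1000000)*A.G*A.T^2 + (207/1000000)*A.H^2*A.T + (495249/10000000000)*A.MM*A.T + (484861/10000000000)*A.NN*A.T + (207/1000000)*A.T^3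

lemma chunk49 (A : Atoms) (s : ℝ) (ht : ∀ a1 a2 a3 a4 a5 a6 a7 b1 b2 b3 b4 b5 b6 b7 c1 c2 c3 c4 c5 c6 c7 d1 d2 d3 d4 d5 d6 d7 : ℝ,
      0 ≤ A.fTens a1 a2 a3 a4 a5 a6 a7 b1 b2 b3 b4 b5 b6 b7 c1 c2 c3 c4 c5 c6 c7 d1 d2 d3 d4 d5 d6 d7)
    (hv : ∀ z1 z2 z3 z4 z5 z6 z7 : ℝ, 0 ≤ A.fPV z1 z2 z3 z4 z5 z6 z7 z1 z2 z3 z4 z5 z6 z7) :
    0 ≤ nf49 A s := by
  have e : (495249/10000000000) * (A.fTens 0 0 0 0 0 0 0 0 0 0 0 0 0 0 0 1 0 0 0 0 0 0 0 0 0 0 0 0) +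
    ((484861/10000000000) * (A.fTens 0 0 0 0 0 0 0 0 0 0 0 0 0 0 0 0 1 0 0 0 0 0 0 0 0 0 0 0) +
    ((1318297/20000000000) * (A.fTens 0 0 0 0 0 0 0 0 0 0 0 0 0 0 0 0 0 0 0 1 0 0 0 0 0 0 0 0) +
    ((69/1000000) * (A.fTens 0 0 0 0 0 0 0 0 0 0 0 0 0 0 0 0 0 0 0 0 (1*A.T) 0 0 0 0 0 0 0) +
    ((69/1000000) * (A.fTens 0 0 0 0 0 0 0 0 0 0 0 0 0 0 0 0 0 0 0 0 (1*A.H) 0 0 0 0 0 0 0) +
    ((69/1000000) * (A.fTens 0 0 0 0 0 0 0 0 0 0 0 0 0 0 0 0 0 0 0 0 (1*A.G) 0 0 0 0 0 0 0) +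
    ((2330908363/50010000000000) * (A.fTens 0 0 0 0 0 0 0 1 0 0 0 0 0 0 0 0 0 0 0 0 0 0 0 0 0 0 0 0) +
    ((133613/2500000000) * (A.fTens 0 0 0 0 0 0 0 0 1 0 0 0 0 0 0 0 0 0 0 0 0 0 0 0 0 0 0 0) +
    ((1329299711/25005000000000) * (A.fTens 0 0 0 0 0 0 0 0 0 1 0 0 0 0 0 0 0 0 0 0 0 0 0 0 0 0 0 0) +
    ((69/1000000) * (A.fTens 0 0 0 0 0 0 0 0 0 0 1 0 0 0 0 0 0 0 0 0 0 0 0 0 0 0 0 0) +
    ((69/1000000) * (A.fTens 0 0 0 0 0 0 0 0 0 0 0 1 0 0 0 0 0 0 0 0 0 0 0 0 0 0 0 0) +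
    ((1677449327/25005000000000) * (A.fTens 0 0 0 0 0 0 0 0 0 0 0 0 1 0 0 0 0 0 0 0 0 0 0 0 0 0 0 0)))))))))))) = nf49 A s := by
    unfold nf49 Atoms.fTens Atoms.fIP Atoms.fPV
    ring
  rw [← e]
  exact add_nonneg (mul_nonneg (by norm_num) (ht _ _ _ _ _ _ _ _ _ _ _ _ _ _ _ _ _ _ _ _ _ _ _ _ _ _ _ _)) (add_nonneg (mul_nonneg (by norm_num) (ht _ _ _ _ _ _ _ _ _ _ _ _ _ _ _ _ _ _ _ _ _ _ _ _ _ _ _ _)) (add_nonneg (mul_nonneg (by norm_num) (ht _ _ _ _ _ _ _ _ _ _ _ _ _ _ _ _ _ _ _ _ _ _ _ _ _ _ _ _)) (add_nonneg (mul_nonneg (by norm_num) (ht _ _ _ _ _ _ _ _ _ _ _ _ _ _ _ _ _ _ _ _ _ _ _ _ _ _ _ _)) (add_nonneg (mul_nonneg (by norm_num) (ht _ _ _ _ _ _ _ _ _ _ _ _ _ _ _ _ _ _ _ _ _ _ _ _ _ _ _ _)) (add_nonneg (mul_nonneg (by norm_num) (ht _ _ _ _ _ _ _ _ _ _ _ _ _ _ _ _ _ _ _ _ _ _ _ _ _ _ _ _)) (add_nonneg (mul_nonneg (by norm_num) (ht _ _ _ _ _ _ _ _ _ _ _ _ _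 _ _ _ _ _ _ _ _ _ _ _ _ _ _ _)) (add_nonneg (mul_nonneg (by norm_num) (ht _ _ _ _ _ _ _ _ _ _ _ _ _ _ _ _ _ _ _ _ _ _ _ _ _ _ _ _)) (add_nonneg (mul_nonneg (by norm_num) (ht _ _ _ _ _ _ _ _ _ _ _ _ _ _ _ _ _ _ _ _ _ _ _ _ _ _ _ _)) (add_nonneg (mul_nonneg (by norm_num) (ht _ _ _ _ _ _ _ _ _ _ _ _ _ _ _ _ _ _ _ _ _ _ _ _ _ _ _ _)) (add_nonneg (mul_nonneg (by norm_num) (ht _ _ _ _ _ _ _ _ _ _ _ _ _ _ _ _ _ _ _ _ _ _ _ _ _ _ _ _)) (mul_nonneg (by norm_num) (ht _ _ _ _ _ _ _ _ _ _ _ _ _ _ _ _ _ _ _ _ _ _ _ _ _ _ _ _))))))))))))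

noncomputable def nf50 (A : Atoms) (s : ℝ) : ℝ :=
  (207/500000)*A.G^3 + (207/500000)*A.G*A.H^2 + (58233/1250000000)*A.G*A.HH + (1048903/20000000000)*A.G*A.MM + (42705733/833500000000)*A.G*A.NN + (3836659149/8335000000000)*A.G*A.T^2 + (421727/10000000000)*A.b11 + (2338296389/50010000000000)*A.b22

lemma chunk50 (A : Atoms) (s : ℝ) (ht : ∀ a1 a2 a3 a4 a5 a6 a7 b1 b2 b3 b4 b5 b6 b7 c1 c2 c3 c4 c5 c6 c7 d1 d2 d3 d4 d5 d6 d7 : ℝ,
      0 ≤ A.fTens a1 a2 a3 a4 a5 a6 a7 b1 b2 b3 b4 b5 b6 b7 c1 c2 c3 c4 c5 c6 c7 d1 d2 d3 d4 d5 d6 d7)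
    (hv : ∀ z1 z2 z3 z4 z5 z6 z7 : ℝ, 0 ≤ A.fPV z1 z2 z3 z4 z5 z6 z7 z1 z2 z3 z4 z5 z6 z7) :
    0 ≤ nf50 A s := by
  have e : (69/1000000) * (A.fTens 0 0 0 0 0 0 0 0 0 0 0 0 0 (1*A.T) 0 0 0 0 0 0 0 0 0 0 0 0 0 0) +
    ((69/1000000) * (A.fTens 0 0 0 0 0 0 0 0 0 0 0 0 0 (1*A.H) 0 0 0 0 0 0 0 0 0 0 0 0 0 0) +
    ((69/1000000) * (A.fTens 0 0 0 0 0 0 0 0 0 0 0 0 0 (1*A.G) 0 0 0 0 0 0 0 0 0 0 0 0 0 0) +
    ((58233/1250000000) * (A.fTens 0 0 0 0 0 0 0 0 0 0 0 0 0 0 0 0 0 0 0 0 0 1 0 0 0 0 0 0) +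
    ((1048903/20000000000) * (A.fTens 0 0 0 0 0 0 0 0 0 0 0 0 0 0 0 0 0 0 0 0 0 0 1 0 0 0 0 0) +
    ((42705733/833500000000) * (A.fTens 0 0 0 0 0 0 0 0 0 0 0 0 0 0 0 0 0 0 0 0 0 0 0 1 0 0 0 0) +
    ((322073/5000000000) * (A.fTens 0 0 0 0 0 0 0 0 0 0 0 0 0 0 0 0 0 0 0 0 0 0 0 0 1 0 0 0) +
    ((787209229/12502500000000) * (A.fTens 0 0 0 0 0 0 0 0 0 0 0 0 0 0 0 0 0 0 0 0 0 0 0 0 0 0 0 (1*A.T)) +
    ((69/1000000) * (A.fTens 0 0 0 0 0 0 0 0 0 0 0 0 0 0 0 0 0 0 0 0 0 0 0 0 0 0 0 (1*A.H)) +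
    ((69/1000000) * (A.fTens 0 0 0 0 0 0 0 0 0 0 0 0 0 0 0 0 0 0 0 0 0 0 0 0 0 0 0 (1*A.G)) +
    ((421727/10000000000) * (A.fPV 1 0 0 0 0 0 0 1 0 0 0 0 0 0) +
    ((2338296389/50010000000000) * (A.fPV 0 1 0 0 0 0 0 0 1 0 0 0 0 0)))))))))))) = nf50 A s := by
    unfold nf50 Atoms.fTens Atoms.fIP Atoms.fPV
    ring
  rw [← e]
  exact add_nonneg (mul_nonneg (by norm_num) (ht _ _ _ _ _ _ _ _ _ _ _ _ _ _ _ _ _ _ _ _ _ _ _ _ _ _ _ _)) (add_nonneg (mul_nonneg (by norm_num) (ht _ _ _ _ _ _ _ _ _ _ _ _ _ _ _ _ _ _ _ _ _ _ _ _ _ _ _ _)) (add_nonneg (mul_nonneg (by norm_num) (ht _ _ _ _ _ _ _ _ _ _ _ _ _ _ _ _ _ _ _ _ _ _ _ _ _ _ _ _)) (add_nonneg (mul_nonneg (by norm_num) (ht _ _ _ _ _ _ _ _ _ _ _ _ _ _ _ _ _ _ _ _ _ _ _ _ _ _ _ _)) (add_nonneg (mul_nonneg (by norm_num) (ht _ _ _ _ _ _ _ _ _ _ _ _ _ _ _ _ _ _ _ _ _ _ _ _ _ _ _ _)) (add_nonneg (mul_nonneg (by norm_num)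 (ht _ _ _ _ _ _ _ _ _ _ _ _ _ _ _ _ _ _ _ _ _ _ _ _ _ _ _ _)) (add_nonneg (mul_nonneg (by norm_num) (ht _ _ _ _ _ _ _ _ _ _ _ _ _ _ _ _ _ _ _ _ _ _ _ _ _ _ _ _)) (add_nonneg (mul_nonneg (by norm_num) (ht _ _ _ _ _ _ _ _ _ _ _ _ _ _ _ _ _ _ _ _ _ _ _ _ _ _ _ _)) (add_nonneg (mul_nonneg (by norm_num) (ht _ _ _ _ _ _ _ _ _ _ _ _ _ _ _ _ _ _ _ _ _ _ _ _ _ _ _ _)) (add_nonneg (mul_nonneg (by norm_num) (ht _ _ _ _ _ _ _ _ _ _ _ _ _ _ _ _ _ _ _ _ _ _ _ _ _ _ _ _)) (add_nonneg (mul_nonneg (by norm_num) (hv _ _ _ _ _ _ _)) (mul_nonneg (by norm_num) (hv _ _ _ _ _ _ _))))))))))))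

noncomputable def nf51 (A : Atoms) (s : ℝ) : ℝ :=
  (2101079787/33340000000000)*A.G^3 + (6443639867/100020000000000)*A.G^2*A.T + (308167/5000000000)*A.G*A.H^2 + (1274711453/20004000000000)*A.G*A.T^2 + (195081/10000000000)*A.G*s^2 + (629821/10000000000)*A.H^2*A.T + (69/1000000)*A.T^3 + (529813/10000000000)*A.c11 + (5317240951/100020000000000)*A.c22 + (571215001/10002000000000)*A.c33

lemma chunk51 (A : Atoms) (s : ℝ) (ht : ∀ a1 a2 a3 a4 a5 a6 a7 b1 b2 b3 b4 b5 b6 b7 c1 c2 c3 c4 c5 c6 c7 d1 d2 d3 d4 d5 d6 d7 : ℝ,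
      0 ≤ A.fTens a1 a2 a3 a4 a5 a6 a7 b1 b2 b3 b4 b5 b6 b7 c1 c2 c3 c4 c5 c6 c7 d1 d2 d3 d4 d5 d6 d7)
    (hv : ∀ z1 z2 z3 z4 z5 z6 z7 : ℝ, 0 ≤ A.fPV z1 z2 z3 z4 z5 z6 z7 z1 z2 z3 z4 z5 z6 z7) :
    0 ≤ nf51 A s := by
  have e : (529813/10000000000) * (A.fPV 0 0 1 0 0 0 0 0 0 1 0 0 0 0) +
    ((5317240951/100020000000000) * (A.fPV 0 0 0 1 0 0 0 0 0 0 1 0 0 0) +
    ((571215001/10002000000000) * (A.fPV 0 0 0 0 1 0 0 0 0 0 0 1 0 0) +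
    ((69/1000000) * (A.fPV 0 0 0 0 0 (1*A.T) 0 0 0 0 0 0 (1*A.T) 0) +
    ((629821/10000000000) * (A.fPV 0 0 0 0 0 (1*A.H) 0 0 0 0 0 0 (1*A.H) 0) +
    ((6443639867/100020000000000) * (A.fPV 0 0 0 0 0 (1*A.G) 0 0 0 0 0 0 (1*A.G) 0) +
    ((1274711453/20004000000000) * (A.fPV 0 0 0 0 0 0 (1*A.T) 0 0 0 0 0 0 (1*A.T)) +
    ((308167/5000000000) * (A.fPV 0 0 0 0 0 0 (1*A.H) 0 0 0 0 0 0 (1*A.H)) +
    ((2101079787/33340000000000) * (A.fPV 0 0 0 0 0 0 (1*A.G) 0 0 0 0 0 0 (1*A.G)) +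
    ((195081/10000000000) * (A.fPV 0 0 0 0 0 0 (1*s) 0 0 0 0 0 0 (1*s))))))))))) = nf51 A s := by
    unfold nf51 Atoms.fPV
    ring
  rw [← e]
  exact add_nonneg (mul_nonneg (by norm_num) (hv _ _ _ _ _ _ _)) (add_nonneg (mul_nonneg (by norm_num) (hv _ _ _ _ _ _ _)) (add_nonneg (mul_nonneg (by norm_num) (hv _ _ _ _ _ _ _)) (add_nonneg (mul_nonneg (by norm_num) (hv _ _ _ _ _ _ _)) (add_nonneg (mul_nonneg (by norm_num) (hv _ _ _ _ _ _ _)) (add_nonneg (mul_nonneg (by norm_num) (hv _ _ _ _ _ _ _)) (add_nonneg (mul_nonneg (by norm_num) (hv _ _ _ _ _ _ _)) (add_nonneg (mul_nonneg (by norm_num) (hv _ _ _ _ _ _ _)) (add_nonneg (mul_nonneg (by norm_num) (hv _ _ _ _ _ _ _)) (mul_nonneg (by norm_num) (hv _ _ _ _ _ _ _))))))))))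

lemma key (A : Atoms) (s : ℝ) :
    psi A s = (1/2000) * (A.T + A.G) ^ 3 + rem A s + (nf0 A s + nf1 A s + nf2 A s + nf3 A s + nf4 A s + nf5 A s + nf6 A s + nf7 A s + nf8 A s + nf9 A s + nf10 A s + nf11 A s + nf12 A s + nf13 A s + nf14 A s + nf15 A s + nf16 A s + nf17 A s + nf18 A s + nf19 A s + nf20 A s + nf21 A s + nf22 A s + nf23 A s + nf24 A s + nf25 A s + nf26 A s + nf27 A s + nf28 A s + nf29 A s + nf30 A s + nf31 A s + nf32 A s + nf33 A s + nf34 A s + nf35 A s + nf36 A s + nf37 A s + nf38 A s + nf39 A s + nf40 A s + nf41 A s + nf42 A s + nf43 A s + nf44 A s + nf45 A s + nf46 A s + nf47 A s + nf48 A s + nf49 A s + nf50 A s + nf51 A s) := by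
  unfold psi rem nf0 nf1 nf2 nf3 nf4 nf5 nf6 nf7 nf8 nf9 nf10 nf11 nf12 nf13 nf14 nf15 nf16 nf17 nf18 nf19 nf20 nf21 nf22 nf23 nf24 nf25 nf26 nf27 nf28 nf29 nf30 nf31 nf32 nf33 nf34 nf35 nf36 nf37 nf38 nf39 nf40 nf41 nf42 nf43 nf44 nf45 nf46 nf47 nf48 nf49 nf50 nf51
  ring

/-- The certificate. -/
lemma main (A : Atoms) (s : ℝ) (ht : ∀ a1 a2 a3 a4 a5 a6 a7 b1 b2 b3 b4 b5 b6 b7 c1 c2 c3 c4 c5 c6 c7 d1 d2 d3 d4 d5 d6 d7 : ℝ,
      0 ≤ A.fTens a1 a2 a3 a4 a5 a6 a7 b1 b2 b3 b4 b5 b6 b7 c1 c2 c3 c4 c5 c6 c7 d1 d2 d3 d4 d5 d6 d7)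
    (hv : ∀ z1 z2 z3 z4 z5 z6 z7 : ℝ, 0 ≤ A.fPV z1 z2 z3 z4 z5 z6 z7 z1 z2 z3 z4 z5 z6 z7) :
    (1/2000) * (A.T + A.G) ^ 3 + rem A s ≤ psi A s := by
  rw [key]
  exact le_add_of_nonneg_right (add_nonneg (add_nonneg (add_nonneg (add_nonneg (add_nonneg (add_nonneg (add_nonneg (add_nonneg (add_nonneg (add_nonneg (add_nonneg (add_nonneg (add_nonneg (add_nonneg (add_nonneg (add_nonneg (add_nonneg (add_nonneg (add_nonneg (add_nonneg (add_nonneg (add_nonneg (add_nonneg (add_nonneg (add_nonneg (add_nonneg (add_nonneg (add_nonneg (add_nonneg (add_nonneg (add_nonneg (add_nonneg (add_nonneg (add_nonneg (add_nonneg (add_nonneg (add_nonneg (add_nonneg (add_nonneg (add_nonneg (add_nonneg (add_nonneg (add_nonneg (add_nonneg (add_nonneg (add_nonneg (add_nonneg (add_nonneg (add_nonneg (add_nonneg (add_nonneg (chunk0 A s ht hv) (chunk1 A s ht hv)) (chunk2 A s ht hv)) (chunk3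 A s ht hv)) (chunk4 A s ht hv)) (chunk5 A s ht hv)) (chunk6 A s ht hv)) (chunk7 A s ht hv)) (chunk8 A s ht hv)) (chunk9 A s ht hv)) (chunk10 A s ht hv)) (chunk11 A s ht hv)) (chunk12 A s ht hv)) (chunk13 A s ht hv)) (chunk14 A s ht hv)) (chunk15 A s ht hv)) (chunk16 A s ht hv)) (chunk17 A s ht hv)) (chunk18 A s ht hv)) (chunk19 A s ht hv)) (chunk20 A s ht hv)) (chunk21 A s ht hv)) (chunk22 A s ht hv)) (chunk23 A s ht hv)) (chunk24 A s ht hv)) (chunk25 A s ht hv)) (chunk26 A s ht hv)) (chunk27 A s ht hv)) (chunk28 A s ht hv)) (chunk29 A s ht hv)) (chunk30 A s ht hv)) (chunk31 A s ht hv)) (chunk32 A s ht hv)) (chunk33 A s ht hv)) (chunk34 A s ht hv)) (chunk35 A s ht hv)) (chunk36 A s ht hv)) (chunk37 A s ht hv)) (chunk38 A s ht hv)) (chunk39 A s ht hv)) (chunk40 A s ht hv)) (chunk41 A s ht hv)) (chunk42 A s ht hv)) (chunk43 A s ht hv)) (chunk44 A s ht hv)) (chunk45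 A s ht hv)) (chunk46 A s ht hv)) (chunk47 A s ht hv)) (chunk48 A s ht hv)) (chunk49 A s ht hv)) (chunk50 A s ht hv)) (chunk51 A s ht hv))

lemma rem_bound (A : Atoms) (s : ℝ) (hs : 0 ≤ s) (hT : 0 ≤ A.T) (hG : 0 ≤ A.G)
    (hH : A.H ^ 2 ≤ A.T * A.G) :
    (9/25000) * (A.T + A.G) ^ 3 - 14910420729 * s ^ 3 ≤ (1/2000) * (A.T + A.G) ^ 3 + rem A s := by
  obtain ⟨hY0, hTa, hGa, hHa⟩ := scal_bounds A.T A.H A.G hT hG hH
  generalize A.T + A.G = Y at *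
  have b1 := bnd2 A.H A.T Y s hHa hTa hs
  have b2 := bnd2 A.T A.T Y s hTa hTa hs
  have b3 := bnd2 A.G A.T Y s hGa hTa hs
  have b4 := bnd2 A.H A.H Y s hHa hHa hs
  have b5 := bnd2 A.G A.H Y s hGa hHa hs
  have b6 := bnd2 A.G A.G Y s hGa hGa hs
  have b7 := bnd1 A.G Y s hGa hs
  have b9 := bnd3 A.H A.T A.T Y hHa hTa hTa
  have b11 := bnd3 A.G A.H A.T Y hGa hHa hTa
  have b14 := bnd3 A.G A.G A.T Y hGa hGa hTa
  have b15 := bnd3 A.G A.G A.H Y hGa hGa hHa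
  have b17 := bnd3 A.H A.H A.H Y hHa hHa hHa
  have y1 := young1 Y s 84175 (1/20000) hY0 hs (by norm_num) (by norm_num)
  have y2 := young2 Y s 561 (1/20000) hY0 hs (by norm_num) (by norm_num)
  have p1 : 0 ≤ s * Y ^ 2 := by positivity
  have p2 : 0 ≤ s ^ 2 * Y := by positivity
  have p3 : 0 ≤ s ^ 3 := by positivity
  have p4 : 0 ≤ Y ^ 3 := by positivity
  unfold rem
  linarith [b1.1, b1.2, b2.1, b2.2, b3.1, b3.2, b4.1, b4.2, b5.1, b5.2, b6.1, b6.2, b7.1, b7.2, (pow_nonneg hT 3), b9.1, b9.2, (mul_nonneg (pow_nonneg hT 2) hG), b11.1, b11.2, (mul_nonneg (sq_nonneg A.H) hT), (mul_nonneg (sq_nonneg A.H) hG), b14.1, b14.2, b15.1, b15.2, (pow_nonneg hG 3), b17.1, b17.2]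

/-- The certificate with the scalar remainder absorbed. -/
lemma final (A : Atoms) (s : ℝ) (hs : 0 ≤ s) (hT : 0 ≤ A.T) (hG : 0 ≤ A.G)
    (hH : A.H ^ 2 ≤ A.T * A.G) (ht : ∀ a1 a2 a3 a4 a5 a6 a7 b1 b2 b3 b4 b5 b6 b7 c1 c2 c3 c4 c5 c6 c7 d1 d2 d3 d4 d5 d6 d7 : ℝ,
      0 ≤ A.fTens a1 a2 a3 a4 a5 a6 a7 b1 b2 b3 b4 b5 b6 b7 c1 c2 c3 c4 c5 c6 c7 d1 d2 d3 d4 d5 d6 d7)
    (hv : ∀ z1 z2 z3 z4 z5 z6 z7 : ℝ, 0 ≤ A.fPV z1 z2 z3 z4 z5 z6 z7 z1 z2 z3 z4 z5 z6 z7) :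
    (9/25000) * (A.T + A.G) ^ 3 - 14910420729 * s ^ 3 ≤ psi A s :=
  (rem_bound A s hs hT hG hH).trans (main A s ht hv)

end CertR2

end Vale.Agent.Lib.P252
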