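import Vale.Agent.Lib.P252.Hess12
import Vale.Agent.Lib.P252.CertAux

/-!
The sum of squares certificate for the exponents CertR21.
-/

namespace Vale.Agent.Lib.P252

namespace CertR21

/-- The polynomial form. -/
noncomputable def psi (A : Atoms) (s : ℝ) : ℝ :=
  (-1334179/1000000)*A.Aqqq*A.G + (665863/1000000)*A.Aqqq*A.H + (-1185833/1000000)*A.Aqqq*A.T + (9676246681/5001000000)*A.Aqqx*A.G + (-15059/31250)*A.Aqqx*A.H + (1902917/1000000)*A.Aqqx*A.T + (-824483/500000)*A.Aqqx*s + (-3114798223/1667000000)*A.Aqxx*A.G + (665863/1000000)*A.Aqxx*A.H + (-2870306151/1667000000)*A.Aqxx*A.T + (840213/500000)*A.Aqxx*s + (1487984437/1667000000)*A.Axxx*A.G + (-15059/31250)*A.Axxx*A.H + (4301474027/5001000000)*A.Axxx*A.T + (-552431/500000)*A.Axxx*s + (3719509/20004000)*A.G^3 + (-6280361/8335000)*A.G^2*A.H + (1493026291/2500500000)*A.G^2*A.T + (-168219/125000)*A.G^2*s + (60351401/100020000)*A.G*A.H^2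 + (-1185859489/833500000)*A.G*A.H*A.T + (1524877/500000)*A.G*A.H*s + 1*A.G*A.HH + (-74953/50000)*A.G*A.HM + (76383/100000)*A.G*A.HN + (74953/100000)*A.G*A.MM + (-76383/100000)*A.G*A.MN + (50221/100000)*A.G*A.NN + (348863297/625125000)*A.G*A.T^2 + (-904427/500000)*A.G*A.T*s + (479707/250000)*A.G*A.pqq + (-5007507401/2500500000)*A.G*A.pqx + (104816687/500100000)*A.G*A.pxx + (75605717/125025000)*A.H^2*A.T + (-665863/500000)*A.H^2*s + (-333997/500000)*A.H*A.T^2 + (894643/500000)*A.H*A.T*s + (-665863/500000)*A.H*A.pqq + (15059/15625)*A.H*A.pqx + 1*A.HH*A.T + (-74953/50000)*A.HM*A.T + (76383/100000)*A.HN*A.T + (74953/100000)*A.MM*A.T + (-76383/100000)*A.MN*A.T + (50221/100000)*A.NN*A.T + (18373/125000)*A.T^3 + (-53029/100000)*A.T^2*s + (202767/125000)*A.T*A.pqq + (-968807/500000)*A.T*A.pqx + (105118747/500100000)*A.T*A.pxx + (11/5)*A.b11 + (-15103/25000)*A.b12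 + (-1374483/500000)*A.bc11 + (840213/500000)*A.bc12 + (-1102431/500000)*A.bc13 + (15103/50000)*A.bc21 + (15103/50000)*A.bc23 + (824483/1000000)*A.c11 + (-840213/1000000)*A.c12 + (688457/500000)*A.c13 + (-840213/1000000)*A.c23 + (552431/1000000)*A.c33 + (11/5)*A.pqx*s + (-15103/25000)*A.pxx*s

/-- The scalar remainder. -/
noncomputable def rem (A : Atoms) (s : ℝ) : ℝ :=
  (22156807/50010000000000)*A.G^3 + (157661/1041875000000)*A.G^2*A.H + (-311921099/62512500000000)*A.G^2*A.T + (-4718092747/5000000000)*A.G^2*s + (-706989683/50010000000000)*A.G*A.H^2 + (-344870003/83350000000000)*A.G*A.H*A.T + (9744941771/5000000000)*A.G*A.H*s + (-2771385293/500100000000000)*A.G*A.T^2 + (-3154140413/2500000000)*A.G*A.T*s + (-121949314057/2500000000)*A.G*s^2 + (7049/10000000000)*A.H^3 + (-2608105621/500100000000000)*A.H^2*A.T + (-2615051033/5000000000)*A.H^2*s + (272519/25000000000)*A.H*A.T^2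 + (3093102543/2500000000)*A.H*A.T*s + (-42037/5000000000)*A.T^3 + (-53029/100000)*A.T^2*s

noncomputable def nf0 (A : Atoms) (s : ℝ) : ℝ :=
  (-699520959/1000000000)*A.Aqqq*A.G + (-276941721/500000000)*A.Aqqq*A.H + (-8987387/500000000)*A.Aqqq*A.T + (2103594881/2500000000)*A.Aqqx*A.G + (8276321153/5000000000)*A.Aqqx*A.H + (954769189/2500000000)*A.Aqqx*A.T + (-582723693/2500000000)*A.Aqxx*A.G + (-6418804249/5000000000)*A.Aqxx*A.H + (-4925334593/5000000000)*A.Aqxx*A.T + (12417041/2500000000)*A.Axxx*A.G + (617200283/2500000000)*A.Axxx*A.H + (2743602687/5000000000)*A.Axxx*A.T + (1505867/10000000000)*A.G^3 + (-4186927/1000000000)*A.G^2*A.H + (3490772373/25000000000)*A.G^2*A.T + (-1562357293/10000000000)*A.G*A.H^2 + (-1525885653/2500000000)*A.G*A.H*A.T + (1462896073/2500000000)*A.G*A.HH + (-1113726401/1250000000)*A.G*A.HM + (118703387/250000000)*A.G*A.HN + (84790373/250000000)*A.G*A.MM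 + (-112971687/312500000)*A.G*A.MN + (120490669/1250000000)*A.G*A.NN + (954073801/5000000000)*A.G*A.T^2 + (892855479/1000000000)*A.G*A.pqq + (-11045903/19531250)*A.G*A.pqx + (29661519/2500000000)*A.G*A.pxx + (610117469/1250000000)*A.H^3 + (-8359714393/25000000000)*A.H^2*A.T + (79123817/125000000)*A.H*A.HH + (-1474896297/1250000000)*A.H*A.HM + (2672165727/2500000000)*A.H*A.HN + (265698309/500000000)*A.H*A.MM + (-563347779/625000000)*A.H*A.MN + (164712097/500000000)*A.H*A.NN + (245451123/6250000000)*A.H*A.T^2 + (313916137/625000000)*A.H*A.pqq + (-5731129837/5000000000)*A.H*A.pqx + (190258197/312500000)*A.H*A.pxx + (1712014937/10000000000)*A.HH*A.T + (-943996389/2500000000)*A.HM*A.T + (439289267/1000000000)*A.HN*A.T + (83283941/400000000)*A.MM*A.T + (-1211093573/2500000000)*A.MN*A.T + (2817977977/10000000000)*A.NN*A.T + (28540047/5000000000)*A.T^3 + (81451961/5000000000)*A.T*A.pqq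 + (-12721747/40000000)*A.T*A.pqx + (2792557093/5000000000)*A.T*A.pxx + (-106999393/625000000)*A.b11 + (-316508299/500000000)*A.b12 + (-182840481/312500000)*A.b22 + (1887921657/5000000000)*A.bc11 + (40438963/156250000)*A.bc12 + (-2030306561/2500000000)*A.bc13 + (1204798619/2500000000)*A.bc21 + (1585130573/2500000000)*A.bc22 + (-23727829/50000000)*A.bc23 + (-520473329/2500000000)*A.c11 + (-235168763/5000000000)*A.c12 + (1545672697/2500000000)*A.c13 + (-844159851/2500000000)*A.c22 + (79576009/2500000000)*A.c23 + (-120191131/1250000000)*A.c33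

lemma chunk0 (A : Atoms) (s : ℝ) (ht : ∀ a1 a2 a3 a4 a5 a6 a7 b1 b2 b3 b4 b5 b6 b7 c1 c2 c3 c4 c5 c6 c7 d1 d2 d3 d4 d5 d6 d7 : ℝ,
      0 ≤ A.fTens a1 a2 a3 a4 a5 a6 a7 b1 b2 b3 b4 b5 b6 b7 c1 c2 c3 c4 c5 c6 c7 d1 d2 d3 d4 d5 d6 d7)
    (hv : ∀ z1 z2 z3 z4 z5 z6 z7 : ℝ, 0 ≤ A.fPV z1 z2 z3 z4 z5 z6 z7 z1 z2 z3 z4 z5 z6 z7) :
    0 ≤ nf0 A s := by
  have e : 1 * (A.fTens (3667/12500) (-32491/100000) (9381/25000) (143/100000) (11/25000) (15843/50000) ((-677/50000)*A.T+(-4323/100000)*A.H+(-4967/100000)*A.G) (26837/50000) (-20377/50000) (10583/50000) (38479/100000) (553/50000) (-77/10000) ((-4417/50000)*A.T+(33/1000)*A.H+(-41/10000)*A.G) (-29179/100000) (16019/50000) (-37549/100000) 0 0 (-3953/12500) ((1429/100000)*A.T+(4339/100000)*A.H+(987/20000)*A.G) (-6813/12500) (20801/50000) (-11357/50000) (-38721/100000) 0 0 ((553/6250)*A.T+(-3169/100000)*A.H+(677/100000)*A.G))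 = nf0 A s := by
    unfold nf0 Atoms.fTens Atoms.fIP Atoms.fPV
    ring
  rw [← e]
  exact mul_nonneg (by norm_num) (ht _ _ _ _ _ _ _ _ _ _ _ _ _ _ _ _ _ _ _ _ _ _ _ _ _ _ _ _)

noncomputable def nf1 (A : Atoms) (s : ℝ) : ℝ :=
  (-18419/5000000000)*A.Aqqq*A.G + (2257/500000000)*A.Aqqq*A.H + (-64009/5000000000)*A.Aqqq*A.T + (26087/5000000000)*A.Aqqx*A.G + (-7081/1000000000)*A.Aqqx*A.H + (79631/5000000000)*A.Aqqx*A.T + (-717/500000000)*A.Aqxx*A.G + (539/312500000)*A.Aqxx*A.H + (-17829/5000000000)*A.Aqxx*A.T + (47/2500000000)*A.Axxx*A.G + (-13/1000000000)*A.Axxx*A.H + (-1489/5000000000)*A.Axxx*A.T + (2209/2500000000)*A.G^3 + (-15369/2500000000)*A.G^2*A.H + (645497/50000000000)*A.G^2*A.T + (21053/2000000000)*A.G*A.H^2 + (-1392489/25000000000)*A.G*A.H*A.T + (3721/5000000000)*A.G*A.HH + (4941/5000000000)*A.G*A.HM + (-61/2500000000)*A.G*A.HN + (3281/10000000000)*A.G*A.MM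 + (-81/5000000000)*A.G*A.MN + (1/5000000000)*A.G*A.NN + (2773113/50000000000)*A.G*A.T^2 + (-14717/2500000000)*A.G*A.pqq + (14893/2500000000)*A.G*A.pqx + (-2867/2500000000)*A.G*A.pxx + (-27709/5000000000)*A.H^3 + (239477/5000000000)*A.H^2*A.T + (-3599/1000000000)*A.H*A.HH + (-23233/5000000000)*A.H*A.HM + (4321/5000000000)*A.H*A.HN + (-7493/5000000000)*A.H*A.MM + (1429/2500000000)*A.H*A.MN + (-33/2500000000)*A.H*A.NN + (-1463817/12500000000)*A.H*A.T^2 + (3599/500000000)*A.H*A.pqq + (-21303/2500000000)*A.H*A.pqx + (793/1000000000)*A.H*A.pxx + (43513/10000000000)*A.HH*A.T + (3411/625000000)*A.HM*A.T + (-1947/1000000000)*A.HN*A.T + (17113/10000000000)*A.MM*A.T + (-1221/1000000000)*A.MN*A.T + (1089/5000000000)*A.NN*A.T + (1925519/25000000000)*A.T^3 + (-102069/5000000000)*A.T*A.pqq + (88087/5000000000)*A.T*A.pqx + (-9911/5000000000)*A.T*A.pxx + (-5439/1250000000)*A.b11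 + (3599/1000000000)*A.b12 + (-3721/5000000000)*A.b22 + (-27287/5000000000)*A.bc11 + (1051/250000000)*A.bc12 + (-2013/2500000000)*A.bc13 + (11947/5000000000)*A.bc21 + (-1309/1250000000)*A.bc22 + (61/2500000000)*A.bc23 + (-2139/1250000000)*A.c11 + (13597/5000000000)*A.c12 + (-2673/5000000000)*A.c13 + (-1457/2500000000)*A.c22 + (147/5000000000)*A.c23 + (-1/5000000000)*A.c33

lemma chunk1 (A : Atoms) (s : ℝ) (ht : ∀ a1 a2 a3 a4 a5 a6 a7 b1 b2 b3 b4 b5 b6 b7 c1 c2 c3 c4 c5 c6 c7 d1 d2 d3 d4 d5 d6 d7 : ℝ,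
      0 ≤ A.fTens a1 a2 a3 a4 a5 a6 a7 b1 b2 b3 b4 b5 b6 b7 c1 c2 c3 c4 c5 c6 c7 d1 d2 d3 d4 d5 d6 d7)
    (hv : ∀ z1 z2 z3 z4 z5 z6 z7 : ℝ, 0 ≤ A.fPV z1 z2 z3 z4 z5 z6 z7 z1 z2 z3 z4 z5 z6 z7) :
    0 ≤ nf1 A s := by
  have e : 1 * (A.fTens (37/25000) (93/100000) (-33/100000) 0 (1/25000) (3/12500) ((347/100000)*A.T+(-33/25000)*A.H+(13/12500)*A.G) (-61/100000) (-41/100000) (1/100000) (-1/12500) (-3/25000) 0 ((-147/100000)*A.T+(3/5000)*A.H+(-47/100000)*A.G) (-147/100000) (-23/25000) (33/100000) 0 0 (-3/12500) ((-69/20000)*A.T+(13/10000)*A.H+(-103/100000)*A.G) (61/100000) (1/2500) (-1/100000) (1/12500) 0 0 ((73/50000)*A.T+(-59/100000)*A.H+(47/100000)*A.G)) = nf1 A s := by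
    unfold nf1 Atoms.fTens Atoms.fIP Atoms.fPV
    ring
  rw [← e]
  exact mul_nonneg (by norm_num) (ht _ _ _ _ _ _ _ _ _ _ _ _ _ _ _ _ _ _ _ _ _ _ _ _ _ _ _ _)

noncomputable def nf2 (A : Atoms) (s : ℝ) : ℝ :=
  (21191/2500000000)*A.Aqqq*A.G + (40373/5000000000)*A.Aqqq*A.H + (2271/1250000000)*A.Aqqq*A.T + (1711/1250000000)*A.Aqqx*A.G + (72079/10000000000)*A.Aqqx*A.H + (12413/5000000000)*A.Aqqx*A.T + (237/1250000000)*A.Aqxx*A.G + (-11657/5000000000)*A.Aqxx*A.H + (25207/10000000000)*A.Aqxx*A.T + (-21211/2500000000)*A.Axxx*A.G + (-743/156250000)*A.Axxx*A.H + (19501/2500000000)*A.Axxx*A.T + (38469/5000000000)*A.G^3 + (6493/312500000)*A.G^2*A.H + (-162109/50000000000)*A.G^2*A.T + (2871/62500000)*A.G*A.H^2 + (473169/50000000000)*A.G*A.H*A.T + (25997/10000000000)*A.G*A.HH + (23133/5000000000)*A.G*A.HM + (-12457/2500000000)*A.G*A.HN + (24737/10000000000)*A.G*A.MM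 + (-9733/2500000000)*A.G*A.MN + (6409/2500000000)*A.G*A.NN + (-282447/100000000000)*A.G*A.T^2 + (32379/5000000000)*A.G*A.pqq + (6953/1000000000)*A.G*A.pqx + (48863/5000000000)*A.G*A.pxx + (203889/10000000000)*A.H^3 + (481553/100000000000)*A.H^2*A.T + (3201/1250000000)*A.H*A.HH + (2393/625000000)*A.H*A.HM + (-9961/5000000000)*A.H*A.HN + (2023/1250000000)*A.H*A.MM + (-5007/5000000000)*A.H*A.MN + (-1241/2500000000)*A.H*A.NN + (-24091/12500000000)*A.H*A.T^2 + (40213/5000000000)*A.H*A.pqq + (20749/1250000000)*A.H*A.pqx + (68187/5000000000)*A.H*A.pxx + (533/625000000)*A.HH*A.T + (401/312500000)*A.HM*A.T + (71/1250000000)*A.HN*A.T + (157/312500000)*A.MM*A.T + (109/625000000)*A.MN*A.T + (221/1000000000)*A.NN*A.T + (-9657/25000000000)*A.T^3 + (2577/1250000000)*A.T*A.pqq + (623/250000000)*A.T*A.pqx + (-211/312500000)*A.T*A.pxx + (23/156250000)*A.b11 + (303/156250000)*A.b12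 + (6157/2500000000)*A.b22 + (149/312500000)*A.bc11 + (833/312500000)*A.bc12 + (6063/5000000000)*A.bc13 + (1643/625000000)*A.bc21 + (1889/500000000)*A.bc22 + (-5359/1250000000)*A.bc23 + (17/62500000)*A.c11 + (3501/1250000000)*A.c12 + (3577/5000000000)*A.c13 + (3889/5000000000)*A.c22 + (-15909/2500000000)*A.c23 + (21/12500000)*A.c33

lemma chunk2 (A : Atoms) (s : ℝ) (ht : ∀ a1 a2 a3 a4 a5 a6 a7 b1 b2 b3 b4 b5 b6 b7 c1 c2 c3 c4 c5 c6 c7 d1 d2 d3 d4 d5 d6 d7 : ℝ,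
      0 ≤ A.fTens a1 a2 a3 a4 a5 a6 a7 b1 b2 b3 b4 b5 b6 b7 c1 c2 c3 c4 c5 c6 c7 d1 d2 d3 d4 d5 d6 d7)
    (hv : ∀ z1 z2 z3 z4 z5 z6 z7 : ℝ, 0 ≤ A.fPV z1 z2 z3 z4 z5 z6 z7 z1 z2 z3 z4 z5 z6 z7) :
    0 ≤ nf2 A s := by
  have e : 1 * (A.fTens (23/25000) (17/25000) (-1/100000) (161/100000) (251/100000) (7/2500) ((-57/100000)*A.T+(-7/6250)*A.H+(-49/50000)*A.G) (131/100000) (79/100000) (-3/2000) (1/2000) (27/25000) (347/100000) ((-23/25000)*A.T+(-217/100000)*A.H+(-17/20000)*A.G) (1/12500) (1/5000) (47/100000) 0 0 (17/12500) ((-29/50000)*A.T+(-3/12500)*A.H+(-29/100000)*A.G) (47/50000) (17/12500) (-7/12500) (93/50000) 0 0 ((-21/12500)*A.T+(-1/20000)*A.H+(-81/50000)*A.G)) = nf2 A s := by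
    unfold nf2 Atoms.fTens Atoms.fIP Atoms.fPV
    ring
  rw [← e]
  exact mul_nonneg (by norm_num) (ht _ _ _ _ _ _ _ _ _ _ _ _ _ _ _ _ _ _ _ _ _ _ _ _ _ _ _ _)

noncomputable def nf3 (A : Atoms) (s : ℝ) : ℝ :=
  (-43381/10000000000)*A.Aqqq*A.G + (539/100000000)*A.Aqqq*A.H + (6627/2500000000)*A.Aqqq*A.T + (-1943/500000000)*A.Aqqx*A.G + (-197103/10000000000)*A.Aqqx*A.H + (-38623/5000000000)*A.Aqqx*A.T + (-49003/10000000000)*A.Aqxx*A.G + (9179/5000000000)*A.Aqxx*A.H + (433/40000000)*A.Aqxx*A.T + (-2883/1000000000)*A.Axxx*A.G + (-17519/2000000000)*A.Axxx*A.H + (-81143/5000000000)*A.Axxx*A.T + (17617/5000000000)*A.G^3 + (18431/1000000000)*A.G^2*A.H + (1016869/100000000000)*A.G^2*A.T + (829187/20000000000)*A.G*A.H^2 + (-752959/50000000000)*A.G*A.H*A.T + (21213/5000000000)*A.G*A.HH + (2349/1000000000)*A.G*A.HM + (561/500000000)*A.G*A.HN + (3649/10000000000)*A.G*A.MM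 + (-1329/5000000000)*A.G*A.MN + (10817/5000000000)*A.G*A.NN + (9061/100000000000)*A.G*A.T^2 + (-4693/400000000)*A.G*A.pqq + (117077/10000000000)*A.G*A.pqx + (-15957/5000000000)*A.G*A.pxx + (35131/400000000)*A.H^3 + (5487577/100000000000)*A.H^2*A.T + (-7731/5000000000)*A.H*A.HH + (-137/40000000)*A.H*A.HM + (19293/2500000000)*A.H*A.HN + (-643/625000000)*A.H*A.MM + (3213/1250000000)*A.H*A.MN + (29517/5000000000)*A.H*A.NN + (84127/3125000000)*A.H*A.T^2 + (12447/10000000000)*A.H*A.pqq + (-3227/5000000000)*A.H*A.pqx + (-44093/2000000000)*A.H*A.pxx + (1417/10000000000)*A.HH*A.T + (13/25000000)*A.HM*A.T + (-3887/2500000000)*A.HN*A.T + (1937/2500000000)*A.MM*A.T + (-2977/2500000000)*A.MN*A.T + (13169/2000000000)*A.NN*A.T + (23179/10000000000)*A.T^3 + (321/250000000)*A.T*A.pqq + (-2323/400000000)*A.T*A.pqx + (3379/10000000000)*A.T*A.pxx + (-99/1250000000)*A.b11 + (3831/5000000000)*A.b12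 + (-1809/1000000000)*A.b22 + (1/20000000)*A.bc11 + (6357/5000000000)*A.bc12 + (-48291/5000000000)*A.bc13 + (51/625000000)*A.bc21 + (493/625000000)*A.bc22 + (-14661/2500000000)*A.bc23 + (41/78125000)*A.c11 + (4751/2500000000)*A.c12 + (-11289/5000000000)*A.c13 + (-4721/1250000000)*A.c22 + (-7579/1250000000)*A.c23 + (147/1000000000)*A.c33

lemma chunk3 (A : Atoms) (s : ℝ) (ht : ∀ a1 a2 a3 a4 a5 a6 a7 b1 b2 b3 b4 b5 b6 b7 c1 c2 c3 c4 c5 c6 c7 d1 d2 d3 d4 d5 d6 d7 : ℝ,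
      0 ≤ A.fTens a1 a2 a3 a4 a5 a6 a7 b1 b2 b3 b4 b5 b6 b7 c1 c2 c3 c4 c5 c6 c7 d1 d2 d3 d4 d5 d6 d7)
    (hv : ∀ z1 z2 z3 z4 z5 z6 z7 : ℝ, 0 ≤ A.fPV z1 z2 z3 z4 z5 z6 z7 z1 z2 z3 z4 z5 z6 z7) :
    0 ≤ nf3 A s := by
  have e : 1 * (A.fTens (9/25000) (41/50000) (-153/100000) (41/50000) (-51/100000) (219/100000) ((-53/50000)*A.T+(-17/25000)*A.H+(-149/100000)*A.G) (-201/100000) (-3/5000) (1/20000) (269/100000) (-71/100000) (-71/100000) ((-1/2500)*A.T+(-17/20000)*A.H+(-29/100000)*A.G) (-11/100000) (1/3125) (103/50000) 0 0 (-21/12500) ((89/100000)*A.T+(201/100000)*A.H+(-1/5000)*A.G) (9/20000) (-7/100000) (147/100000) (-97/100000) 0 0 ((33/100000)*A.T+(8/3125)*A.H+(4/3125)*A.G)) = nf3 A s := by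
    unfold nf3 Atoms.fTens Atoms.fIP Atoms.fPV
    ring
  rw [← e]
  exact mul_nonneg (by norm_num) (ht _ _ _ _ _ _ _ _ _ _ _ _ _ _ _ _ _ _ _ _ _ _ _ _ _ _ _ _)

noncomputable def nf4 (A : Atoms) (s : ℝ) : ℝ :=
  (17611/2500000000)*A.Aqqq*A.G + (26963/5000000000)*A.Aqqq*A.H + (10981/2500000000)*A.Aqqq*A.T + (63439/5000000000)*A.Aqqx*A.G + (4397/400000000)*A.Aqqx*A.H + (96103/5000000000)*A.Aqqx*A.T + (19981/1000000000)*A.Aqxx*A.G + (36319/10000000000)*A.Aqxx*A.H + (187999/10000000000)*A.Aqxx*A.T + (-12559/5000000000)*A.Axxx*A.G + (1557/625000000)*A.Axxx*A.H + (-2373/2000000000)*A.Axxx*A.T + (636203/10000000000)*A.G^3 + (6829/125000000)*A.G^2*A.H + (15642139/100000000000)*A.G^2*A.T + (865237/20000000000)*A.G*A.H^2 + (504451/3125000000)*A.G*A.H*A.T + (16381/10000000000)*A.G*A.HH + (4751/1250000000)*A.G*A.HM + (-2987/5000000000)*A.G*A.HN + (5513/2500000000)*A.G*A.MM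 + (-433/625000000)*A.G*A.MN + (109/2000000000)*A.G*A.NN + (3043899/25000000000)*A.G*A.T^2 + (4083/625000000)*A.G*A.pqq + (2163/200000000)*A.G*A.pqx + (68873/5000000000)*A.G*A.pxx + (15709/5000000000)*A.H^3 + (2459617/50000000000)*A.H^2*A.T + (5249/2500000000)*A.H*A.HH + (5511/1250000000)*A.H*A.HM + (7137/5000000000)*A.H*A.HN + (5723/2500000000)*A.H*A.MM + (87/50000000)*A.H*A.MN + (-1651/5000000000)*A.H*A.NN + (151239/1250000000)*A.H*A.T^2 + (827/156250000)*A.H*A.pqq + (37051/5000000000)*A.H*A.pqx + (20743/5000000000)*A.H*A.pxx + (841/1250000000)*A.HH*A.T + (3161/2500000000)*A.HM*A.T + (29/25000000)*A.HN*A.T + (5941/10000000000)*A.MM*A.T + (5449/5000000000)*A.MN*A.T + (2501/5000000000)*A.NN*A.T + (1364761/50000000000)*A.T^3 + (11687/2500000000)*A.T*A.pqq + (14901/1000000000)*A.T*A.pqx + (25293/2500000000)*A.T*A.pxx + (841/1250000000)*A.b11 + (5249/2500000000)*A.b12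 + (819/500000000)*A.b22 + (3161/2500000000)*A.bc11 + (3133/1000000000)*A.bc12 + (9049/5000000000)*A.bc13 + (609/250000000)*A.bc21 + (4273/1250000000)*A.bc22 + (-1493/2500000000)*A.bc23 + (297/500000000)*A.c11 + (3379/1000000000)*A.c12 + (5251/2500000000)*A.c13 + (2931/1250000000)*A.c22 + (-1023/1000000000)*A.c23 + (17/312500000)*A.c33

lemma chunk4 (A : Atoms) (s : ℝ) (ht : ∀ a1 a2 a3 a4 a5 a6 a7 b1 b2 b3 b4 b5 b6 b7 c1 c2 c3 c4 c5 c6 c7 d1 d2 d3 d4 d5 d6 d7 : ℝ,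
      0 ≤ A.fTens a1 a2 a3 a4 a5 a6 a7 b1 b2 b3 b4 b5 b6 b7 c1 c2 c3 c4 c5 c6 c7 d1 d2 d3 d4 d5 d6 d7)
    (hv : ∀ z1 z2 z3 z4 z5 z6 z7 : ℝ, 0 ≤ A.fPV z1 z2 z3 z4 z5 z6 z7 z1 z2 z3 z4 z5 z6 z7) :
    0 ≤ nf4 A s := by
  have e : 1 * (A.fTens (-29/50000) (-27/50000) (-51/100000) (-13/25000) (-7/10000) (-23/100000) ((-37/25000)*A.T+(-7/20000)*A.H+(-53/50000)*A.G) (-91/100000) (-13/12500) (17/100000) (-23/25000) (-13/100000) (-67/50000) ((-259/100000)*A.T+(-1/50000)*A.H+(-61/25000)*A.G) (-29/50000) (-11/20000) (-49/100000) 0 0 (-1/4000) ((-151/100000)*A.T+(-7/20000)*A.H+(-27/25000)*A.G) (-9/10000) (-53/50000) (1/6250) (-97/100000) 0 0 ((-53/20000)*A.T+(-1/100000)*A.H+(-249/100000)*A.G)) = nf4 A s := by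
    unfold nf4 Atoms.fTens Atoms.fIP Atoms.fPV
    ring
  rw [← e]
  exact mul_nonneg (by norm_num) (ht _ _ _ _ _ _ _ _ _ _ _ _ _ _ _ _ _ _ _ _ _ _ _ _ _ _ _ _)

noncomputable def nf5 (A : Atoms) (s : ℝ) : ℝ :=
  (66633219/5000000000)*A.Aqqq*A.G + (22985287/312500000)*A.Aqqq*A.H + (-799792423/5000000000)*A.Aqqq*A.T + (1944506801/10000000000)*A.Aqqx*A.G + (-3220465717/10000000000)*A.Aqqx*A.H + (16949219/78125000)*A.Aqqx*A.T + (-1005504909/5000000000)*A.Aqxx*A.G + (152425893/5000000000)*A.Aqxx*A.H + (634933023/10000000000)*A.Aqxx*A.T + (106680923/2500000000)*A.Axxx*A.G + (576506031/5000000000)*A.Axxx*A.H + (-689704069/10000000000)*A.Axxx*A.T + (12587023/2000000000)*A.G^3 + (-229759191/5000000000)*A.G^2*A.H + (903543741/20000000000)*A.G^2*A.T + (528788453/20000000000)*A.G*A.H^2 + (-1381984751/25000000000)*A.G*A.H*A.T + (1546630697/10000000000)*A.G*A.HH + (-85051193/250000000)*A.G*A.HM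 + (5974737/20000000)*A.G*A.HN + (1870829953/10000000000)*A.G*A.MM + (-821389693/2500000000)*A.G*A.MN + (180354529/1250000000)*A.G*A.NN + (2442316619/50000000000)*A.G*A.T^2 + (-41744301/5000000000)*A.G*A.pqq + (-225085171/1000000000)*A.G*A.pqx + (22049311/500000000)*A.G*A.pxx + (-261198219/5000000000)*A.H^3 + (1431363351/10000000000)*A.H^2*A.T + (-3296628387/5000000000)*A.H*A.HH + (2958479643/2500000000)*A.H*A.HM + (-1021939999/1250000000)*A.H*A.HN + (-2519955023/5000000000)*A.H*A.MM + (3207313441/5000000000)*A.H*A.MN + (-87328209/500000000)*A.H*A.NN + (-325577491/2500000000)*A.H*A.T^2 + (-4132431/39062500)*A.H*A.pqq + (3708135879/10000000000)*A.H*A.pqx + (597081167/5000000000)*A.H*A.pxx + (3513516637/5000000000)*A.HH*A.T + (-2441884423/2500000000)*A.HM*A.T + (1927506993/5000000000)*A.HN*A.T + (339430897/1000000000)*A.MM*A.T + (-1339635543/5000000000)*A.MN*A.T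 + (528718257/10000000000)*A.NN*A.T + (675728969/50000000000)*A.T^3 + (1150577113/5000000000)*A.T*A.pqq + (-792114591/5000000000)*A.T*A.pqx + (-2642553907/10000000000)*A.T*A.pxx + (-702659503/1000000000)*A.b11 + (3296181537/5000000000)*A.b12 + (-48317971/312500000)*A.b22 + (2441581889/2500000000)*A.bc11 + (-421793177/500000000)*A.bc12 + (904087773/5000000000)*A.bc13 + (-3625259531/5000000000)*A.bc21 + (4883093037/5000000000)*A.bc22 + (-29854677/100000000)*A.bc23 + (-1696736787/5000000000)*A.c11 + (77173641/100000000)*A.c12 + (-24858753/125000000)*A.c13 + (-213184781/312500000)*A.c22 + (628665481/1250000000)*A.c23 + (-180106721/1250000000)*A.c33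

lemma chunk5 (A : Atoms) (s : ℝ) (ht : ∀ a1 a2 a3 a4 a5 a6 a7 b1 b2 b3 b4 b5 b6 b7 c1 c2 c3 c4 c5 c6 c7 d1 d2 d3 d4 d5 d6 d7 : ℝ,
      0 ≤ A.fTens a1 a2 a3 a4 a5 a6 a7 b1 b2 b3 b4 b5 b6 b7 c1 c2 c3 c4 c5 c6 c7 d1 d2 d3 d4 d5 d6 d7)
    (hv : ∀ z1 z2 z3 z4 z5 z6 z7 : ℝ, 0 ≤ A.fPV z1 z2 z3 z4 z5 z6 z7 z1 z2 z3 z4 z5 z6 z7) :
    0 ≤ nf5 A s := by
  have e : 1 * (A.fTens (-58943/100000) (40737/100000) (-4029/25000) (181/50000) (-67/25000) (1461/12500) ((4857/50000)*A.T+(-3061/50000)*A.H+(199/50000)*A.G) (27469/100000) (-7557/25000) (13073/50000) (-917/50000) (39/4000) (-91/12500) ((-457/100000)*A.T+(337/50000)*A.H+(-3829/100000)*A.G) (11921/20000) (-41651/100000) (16401/100000) 0 0 (-5761/50000) ((-9693/100000)*A.T+(307/5000)*A.H+(-93/20000)*A.G) (-1759/6250) (30937/100000) (-13777/50000) (411/25000) 0 0 ((91/20000)*A.T+(-549/100000)*A.H+(2043/50000)*A.G))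 = nf5 A s := by
    unfold nf5 Atoms.fTens Atoms.fIP Atoms.fPV
    ring
  rw [← e]
  exact mul_nonneg (by norm_num) (ht _ _ _ _ _ _ _ _ _ _ _ _ _ _ _ _ _ _ _ _ _ _ _ _ _ _ _ _)

noncomputable def nf6 (A : Atoms) (s : ℝ) : ℝ :=
  (17223/2500000000)*A.Aqqq*A.G + (-147937/10000000000)*A.Aqqq*A.H + (1019/40000000)*A.Aqqq*A.T + (-1433/156250000)*A.Aqqx*A.G + (93547/5000000000)*A.Aqqx*A.H + (-310803/10000000000)*A.Aqqx*A.T + (5757/1250000000)*A.Aqxx*A.G + (-94783/10000000000)*A.Aqxx*A.H + (76247/5000000000)*A.Aqxx*A.T + (-441/500000000)*A.Axxx*A.G + (9417/5000000000)*A.Axxx*A.H + (-5613/2000000000)*A.Axxx*A.T + (23667/10000000000)*A.G^3 + (-42913/2500000000)*A.G^2*A.H + (516331/20000000000)*A.G^2*A.T + (720013/20000000000)*A.G*A.H^2 + (-6125301/50000000000)*A.G*A.H*A.T + (9/78125000)*A.G*A.HH + (81/156250000)*A.G*A.HM + (-9/31250000)*A.G*A.HN + (729/1250000000)*A.G*A.MM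 + (-81/125000000)*A.G*A.MN + (9/50000000)*A.G*A.NN + (1989331/20000000000)*A.G*A.T^2 + (7503/2500000000)*A.G*A.pqq + (-6663/2500000000)*A.G*A.pqx + (441/625000000)*A.G*A.pxx + (-242573/10000000000)*A.H^3 + (12845429/100000000000)*A.H^2*A.T + (-81/156250000)*A.H*A.HH + (-1479/625000000)*A.H*A.HM + (711/625000000)*A.H*A.HN + (-27/10000000)*A.H*A.MM + (813/312500000)*A.H*A.MN + (-153/250000000)*A.H*A.NN + (-180139/781250000)*A.H*A.T^2 + (-32199/5000000000)*A.H*A.pqq + (26463/5000000000)*A.H*A.pqx + (-411/250000000)*A.H*A.pxx + (729/1250000000)*A.HH*A.T + (27/10000000)*A.HM*A.T + (-1377/1250000000)*A.HN*A.T + (1/320000)*A.MM*A.T + (-51/20000000)*A.MN*A.T + (2601/5000000000)*A.NN*A.T + (1349937/10000000000)*A.T^3 + (27513/2500000000)*A.T*A.pqq + (-45123/5000000000)*A.T*A.pqx + (2529/1000000000)*A.T*A.pxx + (729/1250000000)*A.b11 + (-81/156250000)*A.b12 + (9/78125000)*A.b22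 + (27/10000000)*A.bc11 + (-2877/1250000000)*A.bc12 + (153/312500000)*A.bc13 + (-729/625000000)*A.bc21 + (729/625000000)*A.bc22 + (-9/31250000)*A.bc23 + (1/320000)*A.c11 + (-21/4000000)*A.c12 + (1377/1250000000)*A.c13 + (13017/5000000000)*A.c22 + (-63/50000000)*A.c23 + (9/50000000)*A.c33

lemma chunk6 (A : Atoms) (s : ℝ) (ht : ∀ a1 a2 a3 a4 a5 a6 a7 b1 b2 b3 b4 b5 b6 b7 c1 c2 c3 c4 c5 c6 c7 d1 d2 d3 d4 d5 d6 d7 : ℝ,
      0 ≤ A.fTens a1 a2 a3 a4 a5 a6 a7 b1 b2 b3 b4 b5 b6 b7 c1 c2 c3 c4 c5 c6 c7 d1 d2 d3 d4 d5 d6 d7)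
    (hv : ∀ z1 z2 z3 z4 z5 z6 z7 : ℝ, 0 ≤ A.fPV z1 z2 z3 z4 z5 z6 z7 z1 z2 z3 z4 z5 z6 z7) :
    0 ≤ nf6 A s := by
  have e : 1 * (A.fTens (27/50000) (1/800) (-51/100000) (91/50000) (-73/100000) (11/25000) ((327/100000)*A.T+(-31/25000)*A.H+(97/100000)*A.G) (-3/12500) (-27/50000) (3/10000) (-3/4000) (39/100000) (-13/50000) ((-71/50000)*A.T+(59/100000)*A.H+(-47/100000)*A.G) (27/50000) (1/800) (-51/100000) 0 0 (11/25000) ((41/12500)*A.T+(-31/25000)*A.H+(49/50000)*A.G) (-3/12500) (-27/50000) (3/10000) (-3/4000) 0 0 ((-143/100000)*A.T+(59/100000)*A.H+(-3/6250)*A.G)) = nf6 A s := by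
    unfold nf6 Atoms.fTens Atoms.fIP Atoms.fPV
    ring
  rw [← e]
  exact mul_nonneg (by norm_num) (ht _ _ _ _ _ _ _ _ _ _ _ _ _ _ _ _ _ _ _ _ _ _ _ _ _ _ _ _)

noncomputable def nf7 (A : Atoms) (s : ℝ) : ℝ :=
  (-149/10000000000)*A.Aqqq*A.G + (-52967/10000000000)*A.Aqqq*A.H + (6337/1000000000)*A.Aqqq*A.T + (20939/10000000000)*A.Aqqx*A.G + (45047/10000000000)*A.Aqqx*A.H + (-4101/400000000)*A.Aqqx*A.T + (-2761/2500000000)*A.Aqxx*A.G + (-2963/10000000000)*A.Aqxx*A.H + (453/78125000)*A.Aqxx*A.T + (-41/250000000)*A.Axxx*A.G + (-429/1250000000)*A.Axxx*A.H + (-41/31250000)*A.Axxx*A.T + (17521/10000000000)*A.G^3 + (-139/78125000)*A.G^2*A.H + (110147/25000000000)*A.G^2*A.T + (-5647/1250000000)*A.G*A.H^2 + (-407097/50000000000)*A.G*A.H*A.T + (28561/10000000000)*A.G*A.HH + (-383/1000000000)*A.G*A.HM + (-67/200000000)*A.G*A.HN + (73/5000000000)*A.G*A.MM + (31/1250000000)*A.G*A.MN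 + (53/5000000000)*A.G*A.NN + (1117361/100000000000)*A.G*A.T^2 + (-3663/500000000)*A.G*A.pqq + (-1247/1000000000)*A.G*A.pqx + (13393/5000000000)*A.G*A.pxx + (-17037/10000000000)*A.H^3 + (1487001/100000000000)*A.H^2*A.T + (-3361/312500000)*A.H*A.HH + (16511/5000000000)*A.H*A.HM + (-7717/5000000000)*A.H*A.HN + (-429/2500000000)*A.H*A.MM + (-9/1000000000)*A.H*A.MN + (623/5000000000)*A.H*A.NN + (-86743/3125000000)*A.H*A.T^2 + (177779/5000000000)*A.H*A.pqq + (-95923/5000000000)*A.H*A.pqx + (301/625000000)*A.H*A.pxx + (25313/2500000000)*A.HH*A.T + (-12149/2500000000)*A.HM*A.T + (5117/1250000000)*A.HN*A.T + (2917/5000000000)*A.MM*A.T + (-4921/5000000000)*A.MN*A.T + (833/2000000000)*A.NN*A.T + (615829/50000000000)*A.T^3 + (-16511/625000000)*A.T*A.pqq + (2669/156250000)*A.T*A.pqx + (-5123/2500000000)*A.T*A.pxx + (791/78125000)*A.b11 + (-26887/2500000000)*A.b12 + (357/125000000)*A.b22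 + (-12151/2500000000)*A.bc11 + (33389/5000000000)*A.bc12 + (-5439/2500000000)*A.bc13 + (1797/2500000000)*A.bc21 + (1237/5000000000)*A.bc22 + (-1671/5000000000)*A.bc23 + (583/1000000000)*A.c11 + (-5777/5000000000)*A.c12 + (749/5000000000)*A.c13 + (1353/5000000000)*A.c22 + (751/5000000000)*A.c23 + (9/1000000000)*A.c33

lemma chunk7 (A : Atoms) (s : ℝ) (ht : ∀ a1 a2 a3 a4 a5 a6 a7 b1 b2 b3 b4 b5 b6 b7 c1 c2 c3 c4 c5 c6 c7 d1 d2 d3 d4 d5 d6 d7 : ℝ,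
      0 ≤ A.fTens a1 a2 a3 a4 a5 a6 a7 b1 b2 b3 b4 b5 b6 b7 c1 c2 c3 c4 c5 c6 c7 d1 d2 d3 d4 d5 d6 d7)
    (hv : ∀ z1 z2 z3 z4 z5 z6 z7 : ℝ, 0 ≤ A.fPV z1 z2 z3 z4 z5 z6 z7 z1 z2 z3 z4 z5 z6 z7) :
    0 ≤ nf7 A s := by
  have e : 1 * (A.fTens (7/3125) (-11/20000) (49/100000) (-97/25000) (183/100000) (-3/6250) ((11/12500)*A.T+(-1/3125)*A.H+(7/20000)*A.G) (-119/100000) (1/20000) (1/20000) (21/12500) (-3/5000) (-13/100000) ((-41/50000)*A.T+(7/25000)*A.H+(-13/25000)*A.G) (113/50000) (-53/100000) (21/50000) 0 0 (-9/20000) ((101/100000)*A.T+(-17/50000)*A.H+(19/50000)*A.G) (-3/2500) (11/100000) (9/100000) (23/12500) 0 0 ((-2/3125)*A.T+(13/50000)*A.H+(-17/50000)*A.G)) = nf7 A s := by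
    unfold nf7 Atoms.fTens Atoms.fIP Atoms.fPV
    ring
  rw [← e]
  exact mul_nonneg (by norm_num) (ht _ _ _ _ _ _ _ _ _ _ _ _ _ _ _ _ _ _ _ _ _ _ _ _ _ _ _ _)

noncomputable def nf8 (A : Atoms) (s : ℝ) : ℝ :=
  (4033/2500000000)*A.Aqqq*A.G + (-231/312500000)*A.Aqqq*A.H + (3141/1250000000)*A.Aqqq*A.T + (57473/10000000000)*A.Aqqx*A.G + (-5767/1250000000)*A.Aqqx*A.H + (41749/5000000000)*A.Aqqx*A.T + (14053/5000000000)*A.Aqxx*A.G + (-21463/2000000000)*A.Aqxx*A.H + (-1889/1000000000)*A.Aqxx*A.T + (-2187/156250000)*A.Axxx*A.G + (-6819/625000000)*A.Axxx*A.H + (18627/5000000000)*A.Axxx*A.T + (145557/10000000000)*A.G^3 + (25807/625000000)*A.G^2*A.H + (-1436669/100000000000)*A.G^2*A.T + (932031/20000000000)*A.G*A.H^2 + (-634621/12500000000)*A.G*A.H*A.T + (8489/5000000000)*A.G*A.HH + (189/2500000000)*A.G*A.HM + (-18447/5000000000)*A.G*A.HN + (1/1000000000)*A.G*A.MM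 + (-393/5000000000)*A.G*A.MN + (20241/10000000000)*A.G*A.NN + (772703/50000000000)*A.G*A.T^2 + (-1273/200000000)*A.G*A.pqq + (-22053/10000000000)*A.G*A.pqx + (7999/625000000)*A.G*A.pxx + (300943/5000000000)*A.H^3 + (-91023/12500000000)*A.H^2*A.T + (813/5000000000)*A.H*A.HH + (-15093/5000000000)*A.H*A.HM + (-3/1000000000)*A.H*A.HN + (-83/1250000000)*A.H*A.MM + (16497/5000000000)*A.H*A.MN + (-837/5000000000)*A.H*A.NN + (93307/25000000000)*A.H*A.T^2 + (-24271/5000000000)*A.H*A.pqq + (14937/10000000000)*A.H*A.pqx + (110519/10000000000)*A.H*A.pxx + (9/2000000000)*A.HH*A.T + (-183/1250000000)*A.HM*A.T + (9/2500000000)*A.HN*A.T + (841/625000000)*A.MM*A.T + (-3/19531250)*A.MN*A.T + (153/10000000000)*A.NN*A.T + (-2263/5000000000)*A.T^3 + (-27/200000000)*A.T*A.pqq + (8011/5000000000)*A.T*A.pqx + (-35061/10000000000)*A.T*A.pxx + (9/2500000000)*A.b11 + (843/5000000000)*A.b12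 + (8439/5000000000)*A.b22 + (-93/625000000)*A.bc11 + (-3001/1000000000)*A.bc12 + (753/5000000000)*A.bc13 + (21/5000000000)*A.bc21 + (-533/5000000000)*A.bc22 + (-18537/5000000000)*A.bc23 + (21/15625000)*A.c11 + (-129/625000000)*A.c12 + (3/5000000000)*A.c13 + (16467/5000000000)*A.c22 + (-1383/5000000000)*A.c23 + (63/31250000)*A.c33

lemma chunk8 (A : Atoms) (s : ℝ) (ht : ∀ a1 a2 a3 a4 a5 a6 a7 b1 b2 b3 b4 b5 b6 b7 c1 c2 c3 c4 c5 c6 c7 d1 d2 d3 d4 d5 d6 d7 : ℝ,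
      0 ≤ A.fTens a1 a2 a3 a4 a5 a6 a7 b1 b2 b3 b4 b5 b6 b7 c1 c2 c3 c4 c5 c6 c7 d1 d2 d3 d4 d5 d6 d7)
    (hv : ∀ z1 z2 z3 z4 z5 z6 z7 : ℝ, 0 ≤ A.fPV z1 z2 z3 z4 z5 z6 z7 z1 z2 z3 z4 z5 z6 z7) :
    0 ≤ nf8 A s := by
  have e : 1 * (A.fTens (-3/50000) (1/1250) (3/100000) (133/100000) (-3/25000) (13/50000) ((-13/25000)*A.T+(-93/50000)*A.H+(49/100000)*A.G) (-87/100000) (-1/100000) (21/20000) (33/20000) (-39/100000) (-319/100000) ((93/100000)*A.T+(-61/20000)*A.H+(-1/4000)*A.G) (-3/100000) (21/25000) (-3/25000) 0 0 (49/100000) ((-61/100000)*A.T+(-193/100000)*A.H+(29/50000)*A.G) (-97/100000) (-3/100000) (3/3125) (181/100000) 0 0 ((19/20000)*A.T+(-321/100000)*A.H+(-33/100000)*A.G)) = nf8 A s := by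
    unfold nf8 Atoms.fTens Atoms.fIP Atoms.fPV
    ring
  rw [← e]
  exact mul_nonneg (by norm_num) (ht _ _ _ _ _ _ _ _ _ _ _ _ _ _ _ _ _ _ _ _ _ _ _ _ _ _ _ _)

noncomputable def nf9 (A : Atoms) (s : ℝ) : ℝ :=
  (-4979101/5000000000)*A.Aqqq*A.G + (447248203/5000000000)*A.Aqqq*A.H + (-372308629/2500000000)*A.Aqqq*A.T + (50280073/500000000)*A.Aqqx*A.G + (-2740418883/5000000000)*A.Aqqx*A.H + (89648081/625000000)*A.Aqqx*A.T + (-2295650739/5000000000)*A.Aqxx*A.G + (2816943989/5000000000)*A.Aqxx*A.H + (-782385769/5000000000)*A.Aqxx*A.T + (1709423067/5000000000)*A.Axxx*A.G + (-1468660717/5000000000)*A.Axxx*A.H + (33730991/625000000)*A.Axxx*A.T + (79218827/1250000000)*A.G^3 + (-1401036411/5000000000)*A.G^2*A.H + (3578732881/50000000000)*A.G^2*A.T + (1171767487/5000000000)*A.G*A.H^2 + (-110600769/1562500000)*A.G*A.H*A.T + (98097157/10000000000)*A.G*A.HH + (-70190149/2500000000)*A.G*A.HM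 + (20213501/250000000)*A.G*A.HN + (5025121/250000000)*A.G*A.MM + (-291559471/2500000000)*A.G*A.MN + (1848132533/10000000000)*A.G*A.NN + (125374809/25000000000)*A.G*A.T^2 + (438019/1250000000)*A.G*A.pqq + (-26405911/625000000)*A.G*A.pqx + (370607633/5000000000)*A.G*A.pxx + (-15718383/100000000)*A.H^3 + (4388416131/25000000000)*A.H^2*A.T + (-24953971/625000000)*A.H*A.HH + (575970089/5000000000)*A.H*A.HM + (-1026080887/5000000000)*A.H*A.HN + (-207268261/2500000000)*A.H*A.MM + (720808809/2500000000)*A.H*A.MN + (-202698823/2500000000)*A.H*A.NN + (-601628253/12500000000)*A.H*A.T^2 + (-77759843/1250000000)*A.H*A.pqq + (1201017941/5000000000)*A.H*A.pqx + (-1273708449/5000000000)*A.H*A.pxx + (3699413/78125000)*A.HH*A.T + (-82520779/625000000)*A.HM*A.T + (25356407/625000000)*A.HN*A.T + (926420717/10000000000)*A.MM*A.T + (-287537939/5000000000)*A.MN*A.T + (18120269/2000000000)*A.NN*A.T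 + (1496826341/50000000000)*A.T^3 + (13338799/125000000)*A.T*A.pqq + (-175633333/2500000000)*A.T*A.pqx + (106593033/1250000000)*A.T*A.pxx + (737751/15625000)*A.b11 + (-25652289/625000000)*A.b12 + (18805017/2500000000)*A.b22 + (-82790441/625000000)*A.bc11 + (12102659/125000000)*A.bc12 + (-41044557/2500000000)*A.bc13 + (2312019/39062500)*A.bc21 + (-522629429/2500000000)*A.bc22 + (79156039/1000000000)*A.bc23 + (230752327/2500000000)*A.c11 + (-85771243/625000000)*A.c12 + (11906613/500000000)*A.c13 + (285600299/1000000000)*A.c22 + (-973232063/5000000000)*A.c23 + (461245477/2500000000)*A.c33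

lemma chunk9 (A : Atoms) (s : ℝ) (ht : ∀ a1 a2 a3 a4 a5 a6 a7 b1 b2 b3 b4 b5 b6 b7 c1 c2 c3 c4 c5 c6 c7 d1 d2 d3 d4 d5 d6 d7 : ℝ,
      0 ≤ A.fTens a1 a2 a3 a4 a5 a6 a7 b1 b2 b3 b4 b5 b6 b7 c1 c2 c3 c4 c5 c6 c7 d1 d2 d3 d4 d5 d6 d7)
    (hv : ∀ z1 z2 z3 z4 z5 z6 z7 : ℝ, 0 ≤ A.fPV z1 z2 z3 z4 z5 z6 z7 z1 z2 z3 z4 z5 z6 z7) :
    0 ≤ nf9 A s := by
  have e : 1 * (A.fTens (1849/12500) (-11213/50000) (1937/25000) (4179/25000) (-1/8) (139/1000) ((33/3125)*A.T+(-23/100000)*A.H+(-1811/100000)*A.G) (-4487/50000) (6349/50000) (-31273/100000) (-227/5000) (18643/50000) (-427/1250) ((-73/5000)*A.T+(3373/100000)*A.H+(6099/100000)*A.G) (399/2500) (-20579/100000) (5529/100000) 0 0 (-6087/100000) ((179/100000)*A.T+(879/100000)*A.H+(-1329/100000)*A.G) (-4191/100000) (3153/50000) (-14749/50000) (1983/50000) 0 0 ((-397/25000)*A.T+(707/20000)*A.H+(5967/100000)*A.G)) = nf9 A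 s := by
    unfold nf9 Atoms.fTens Atoms.fIP Atoms.fPV
    ring
  rw [← e]
  exact mul_nonneg (by norm_num) (ht _ _ _ _ _ _ _ _ _ _ _ _ _ _ _ _ _ _ _ _ _ _ _ _ _ _ _ _)

noncomputable def nf10 (A : Atoms) (s : ℝ) : ℝ :=
  (-82536463/10000000000)*A.Aqqq*A.G + (511459089/10000000000)*A.Aqqq*A.H + (65487319/1250000000)*A.Aqqq*A.T + (-544515339/5000000000)*A.Aqqx*A.G + (403508589/5000000000)*A.Aqqx*A.H + (-136763087/10000000000)*A.Aqqx*A.T + (-55199227/1000000000)*A.Aqxx*A.G + (233725447/2500000000)*A.Aqxx*A.H + (-1113319311/10000000000)*A.Aqxx*A.T + (92069909/2500000000)*A.Axxx*A.G + (14741217/312500000)*A.Axxx*A.H + (-135108111/2500000000)*A.Axxx*A.T + (161580123/10000000000)*A.G^3 + (-163751691/5000000000)*A.G^2*A.H + (182916137/12500000000)*A.G^2*A.T + (-12833887/1250000000)*A.G*A.H^2 + (4492496699/50000000000)*A.G*A.H*A.T + (19484737/2000000000)*A.G*A.HH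 + (-102027/39062500)*A.G*A.HM + (-193424041/5000000000)*A.G*A.HN + (26329/80000000)*A.G*A.MM + (1218491/312500000)*A.G*A.MN + (410879197/10000000000)*A.G*A.NN + (2258773637/100000000000)*A.G*A.T^2 + (126380043/5000000000)*A.G*A.pqq + (2604541/625000000)*A.G*A.pqx + (-42434553/2500000000)*A.G*A.pxx + (-398841453/10000000000)*A.H^3 + (204080471/20000000000)*A.H^2*A.T + (338669/19531250)*A.H*A.HH + (268461311/5000000000)*A.H*A.HM + (-55914029/2500000000)*A.H*A.HN + (-32670261/5000000000)*A.H*A.MM + (-579446101/5000000000)*A.H*A.MN + (-14087091/500000000)*A.H*A.NN + (-1029288693/25000000000)*A.H*A.T^2 + (31721381/2000000000)*A.H*A.pqq + (-77328469/5000000000)*A.H*A.pqx + (-7321811/312500000)*A.H*A.pxx + (79558141/10000000000)*A.HH*A.T + (50660957/1000000000)*A.HM*A.T + (62368369/5000000000)*A.HN*A.T + (808020341/10000000000)*A.MM*A.T + (198840949/5000000000)*A.MN*A.T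 + (48939337/10000000000)*A.NN*A.T + (-485741397/10000000000)*A.T^3 + (20596211/1250000000)*A.T*A.pqq + (102514021/10000000000)*A.T*A.pqx + (-2956261/1250000000)*A.T*A.pxx + (-3973959/500000000)*A.b11 + (-87294703/5000000000)*A.b12 + (-23233381/2500000000)*A.b22 + (-63385979/1250000000)*A.bc11 + (-338748233/5000000000)*A.bc12 + (-68156803/5000000000)*A.bc13 + (2566319/1250000000)*A.bc21 + (94046387/2500000000)*A.bc22 + (49964861/1250000000)*A.bc23 + (-40364807/500000000)*A.c11 + (-83908261/2500000000)*A.c12 + (3872251/2500000000)*A.c13 + (550041033/5000000000)*A.c22 + (14437687/625000000)*A.c23 + (-100413957/2500000000)*A.c33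

lemma chunk10 (A : Atoms) (s : ℝ) (ht : ∀ a1 a2 a3 a4 a5 a6 a7 b1 b2 b3 b4 b5 b6 b7 c1 c2 c3 c4 c5 c6 c7 d1 d2 d3 d4 d5 d6 d7 : ℝ,
      0 ≤ A.fTens a1 a2 a3 a4 a5 a6 a7 b1 b2 b3 b4 b5 b6 b7 c1 c2 c3 c4 c5 c6 c7 d1 d2 d3 d4 d5 d6 d7)
    (hv : ∀ z1 z2 z3 z4 z5 z6 z7 : ℝ, 0 ≤ A.fPV z1 z2 z3 z4 z5 z6 z7 z1 z2 z3 z4 z5 z6 z7) :
    0 ≤ nf10 A s := by
  have e : 1 * (A.fTens (-3223/50000) (-1967/10000) (-613/12500) (-279/100000) (-121/100000) (3781/50000) ((1291/20000)*A.T+(-3359/100000)*A.H+(-601/100000)*A.G) (-5839/100000) (-109/50000) (15771/100000) (-9359/100000) (-577/25000) (719/50000) ((6571/100000)*A.T+(-13/5000)*A.H+(-1317/20000)*A.G) (1233/20000) (20521/100000) (4989/100000) 0 0 (-7671/100000) ((-1319/20000)*A.T+(104/3125)*A.H+(329/50000)*A.G) (3979/50000) (-1801/100000) (-6367/50000) (10073/100000) 0 0 ((-1337/20000)*A.T+(1/2000)*A.H+(3041/50000)*A.G))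 = nf10 A s := by
    unfold nf10 Atoms.fTens Atoms.fIP Atoms.fPV
    ring
  rw [← e]
  exact mul_nonneg (by norm_num) (ht _ _ _ _ _ _ _ _ _ _ _ _ _ _ _ _ _ _ _ _ _ _ _ _ _ _ _ _)

noncomputable def nf11 (A : Atoms) (s : ℝ) : ℝ :=
  (31049/5000000000)*A.Aqqq*A.G + (1529/200000000)*A.Aqqq*A.H + (-1107/5000000000)*A.Aqqq*A.T + (25859/2500000000)*A.Aqqx*A.G + (-179043/10000000000)*A.Aqqx*A.H + (-29469/2500000000)*A.Aqqx*A.T + (39529/10000000000)*A.Aqxx*A.G + (-64257/5000000000)*A.Aqxx*A.H + (13437/10000000000)*A.Aqxx*A.T + (6683/5000000000)*A.Axxx*A.G + (34309/10000000000)*A.Axxx*A.H + (26509/5000000000)*A.Axxx*A.T + (11187/10000000000)*A.G^3 + (-38769/2500000000)*A.G^2*A.H + (-696959/100000000000)*A.G^2*A.T + (1784849/20000000000)*A.G*A.H^2 + (1548559/25000000000)*A.G*A.H*A.T + (197/500000000)*A.G*A.HH + (797/2500000000)*A.G*A.HM + (-103/2500000000)*A.G*A.HN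 + (5197/2000000000)*A.G*A.MM + (24217/5000000000)*A.G*A.MN + (11657/5000000000)*A.G*A.NN + (627179/50000000000)*A.G*A.T^2 + (-203/78125000)*A.G*A.pqq + (2377/625000000)*A.G*A.pqx + (149/500000000)*A.G*A.pxx + (-655917/5000000000)*A.H^3 + (-926859/25000000000)*A.H^2*A.T + (-331/625000000)*A.H*A.HH + (-879/100000000)*A.H*A.HM + (-3793/500000000)*A.H*A.HN + (-35517/5000000000)*A.H*A.MM + (-13191/1250000000)*A.H*A.MN + (-241/62500000)*A.H*A.NN + (819927/25000000000)*A.H*A.T^2 + (18593/2500000000)*A.H*A.pqq + (-77961/5000000000)*A.H*A.pqx + (-1369/312500000)*A.H*A.pxx + (16133/2500000000)*A.HH*A.T + (27999/2500000000)*A.HM*A.T + (7877/1250000000)*A.HN*A.T + (24361/5000000000)*A.MM*A.T + (423/78125000)*A.MN*A.T + (1993/1250000000)*A.NN*A.T + (42143/12500000000)*A.T^3 + (-649/2500000000)*A.T*A.pqq + (-30409/2500000000)*A.T*A.pqx + (30043/5000000000)*A.T*A.pxx +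 (3977/625000000)*A.b11 + (-1307/1250000000)*A.b12 + (-27/78125000)*A.b22 + (27849/2500000000)*A.bc11 + (13103/2500000000)*A.bc12 + (-989/1250000000)*A.bc13 + (-20159/2500000000)*A.bc21 + (-16481/2500000000)*A.bc22 + (2391/2500000000)*A.bc23 + (24311/5000000000)*A.c11 + (-1743/1000000000)*A.c12 + (-9509/2500000000)*A.c13 + (-6283/2500000000)*A.c22 + (6503/5000000000)*A.c23 + (399/200000000)*A.c33

lemma chunk11 (A : Atoms) (s : ℝ) (ht : ∀ a1 a2 a3 a4 a5 a6 a7 b1 b2 b3 b4 b5 b6 b7 c1 c2 c3 c4 c5 c6 c7 d1 d2 d3 d4 d5 d6 d7 : ℝ,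
      0 ≤ A.fTens a1 a2 a3 a4 a5 a6 a7 b1 b2 b3 b4 b5 b6 b7 c1 c2 c3 c4 c5 c6 c7 d1 d2 d3 d4 d5 d6 d7)
    (hv : ∀ z1 z2 z3 z4 z5 z6 z7 : ℝ, 0 ≤ A.fPV z1 z2 z3 z4 z5 z6 z7 z1 z2 z3 z4 z5 z6 z7) :
    0 ≤ nf11 A s := by
  have e : 1 * (A.fTens (-41/25000) (-151/100000) (-31/50000) (29/100000) (-71/50000) (-4/3125) ((-3/12500)*A.T+(-333/100000)*A.H+(37/50000)*A.G) (27/50000) (103/100000) (3/4000) (19/12500) (27/20000) (43/50000) ((81/100000)*A.T+(163/100000)*A.H+(-3/5000)*A.G) (-97/50000) (-161/100000) (-11/10000) 0 0 (-3/2500) ((-27/100000)*A.T+(-3/1250)*A.H+(-1/100000)*A.G) (-1/3125) (31/25000) (133/100000) (29/10000) 0 0 ((27/100000)*A.T+(179/50000)*A.H+(-43/100000)*A.G)) = nf11 A s := by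
    unfold nf11 Atoms.fTens Atoms.fIP Atoms.fPV
    ring
  rw [← e]
  exact mul_nonneg (by norm_num) (ht _ _ _ _ _ _ _ _ _ _ _ _ _ _ _ _ _ _ _ _ _ _ _ _ _ _ _ _)

noncomputable def nf12 (A : Atoms) (s : ℝ) : ℝ :=
  (-731819/5000000000)*A.Aqqq*A.G + (-1267313/2500000000)*A.Aqqq*A.H + (-2366991/1000000000)*A.Aqqq*A.T + (-3585011/10000000000)*A.Aqqx*A.G + (2675171/2000000000)*A.Aqqx*A.H + (-21520281/5000000000)*A.Aqqx*A.T + (-5534279/10000000000)*A.Aqxx*A.G + (20073843/10000000000)*A.Aqxx*A.H + (-13268241/10000000000)*A.Aqxx*A.T + (163527/5000000000)*A.Axxx*A.G + (449227/10000000000)*A.Axxx*A.H + (2595651/5000000000)*A.Axxx*A.T + (27027/400000000)*A.G^3 + (-73713/1000000000)*A.G^2*A.H + (11742581/100000000000)*A.G^2*A.T + (3055401/20000000000)*A.G*A.H^2 + (-590271/1250000000)*A.G*A.H*A.T + (82561/2000000000)*A.G*A.HH + (-77147/5000000000)*A.G*A.HM + (-663173/5000000000)*A.G*A.HN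 + (49361/5000000000)*A.G*A.MM + (101637/5000000000)*A.G*A.MN + (1071289/10000000000)*A.G*A.NN + (751499/2000000000)*A.G*A.T^2 + (-106713/5000000000)*A.G*A.pqq + (1953563/10000000000)*A.G*A.pqx + (-104847/5000000000)*A.G*A.pxx + (-1186969/2500000000)*A.H^3 + (-2843027/5000000000)*A.H^2*A.T + (-181687/5000000000)*A.H*A.HH + (88667/250000000)*A.H*A.HM + (2030027/5000000000)*A.H*A.HN + (73953/2500000000)*A.H*A.MM + (-2977761/5000000000)*A.H*A.MN + (-715709/1250000000)*A.H*A.NN + (15860777/12500000000)*A.H*A.T^2 + (-280177/1000000000)*A.H*A.pqq + (-5353243/10000000000)*A.H*A.pqx + (753809/10000000000)*A.H*A.pxx + (181277/10000000000)*A.HH*A.T + (-1343649/5000000000)*A.HM*A.T + (-302291/1250000000)*A.HN*A.T + (1097937/1000000000)*A.MM*A.T + (2504409/1250000000)*A.MN*A.T + (114461/125000000)*A.NN*A.T + (28994793/50000000000)*A.T^3 + (727117/2500000000)*A.T*A.pqq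 + (1056541/5000000000)*A.T*A.pqx + (-151913/2000000000)*A.T*A.pxx + (36763/2500000000)*A.b11 + (-66743/1250000000)*A.b12 + (50071/2500000000)*A.b22 + (-1341429/5000000000)*A.bc11 + (596351/5000000000)*A.bc12 + (204301/625000000)*A.bc13 + (22937/5000000000)*A.bc21 + (112343/1000000000)*A.bc22 + (-182453/2500000000)*A.bc23 + (5489613/5000000000)*A.c11 + (5081163/2500000000)*A.c12 + (42599/1250000000)*A.c13 + (22437/78125000)*A.c22 + (-586919/1000000000)*A.c23 + (16317/250000000)*A.c33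

lemma chunk12 (A : Atoms) (s : ℝ) (ht : ∀ a1 a2 a3 a4 a5 a6 a7 b1 b2 b3 b4 b5 b6 b7 c1 c2 c3 c4 c5 c6 c7 d1 d2 d3 d4 d5 d6 d7 : ℝ,
      0 ≤ A.fTens a1 a2 a3 a4 a5 a6 a7 b1 b2 b3 b4 b5 b6 b7 c1 c2 c3 c4 c5 c6 c7 d1 d2 d3 d4 d5 d6 d7)
    (hv : ∀ z1 z2 z3 z4 z5 z6 z7 : ℝ, 0 ≤ A.fPV z1 z2 z3 z4 z5 z6 z7 z1 z2 z3 z4 z5 z6 z7) :
    0 ≤ nf12 A s := by
  have e : 1 * (A.fTens (-97/50000) (2337/100000) (139/6250) (-277/12500) (-231/6250) (33/6250) ((-87/25000)*A.T+(-79/50000)*A.H+(-4/3125)*A.G) (311/50000) (-189/100000) (-49/5000) (-71/50000) (1029/100000) (33/12500) ((-149/100000)*A.T+(3/1250)*A.H+(-243/100000)*A.G) (-379/100000) (2349/100000) (513/25000) 0 0 (77/50000) ((-271/100000)*A.T+(-29/20000)*A.H+(-67/50000)*A.G) (161/100000) (251/100000) (-333/100000) (1271/100000) 0 0 ((43/50000)*A.H+(-219/50000)*A.G)) = nf12 A s := by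
    unfold nf12 Atoms.fTens Atoms.fIP Atoms.fPV
    ring
  rw [← e]
  exact mul_nonneg (by norm_num) (ht _ _ _ _ _ _ _ _ _ _ _ _ _ _ _ _ _ _ _ _ _ _ _ _ _ _ _ _)

noncomputable def nf13 (A : Atoms) (s : ℝ) : ℝ :=
  (142813/10000000000)*A.Aqqq*A.G + (-52433/10000000000)*A.Aqqq*A.H + (-3799/5000000000)*A.Aqqq*A.T + (4401/625000000)*A.Aqqx*A.G + (-86407/5000000000)*A.Aqqx*A.H + (9207/2000000000)*A.Aqqx*A.T + (14123/10000000000)*A.Aqxx*A.G + (-156947/5000000000)*A.Aqxx*A.H + (12757/2000000000)*A.Aqxx*A.T + (-2341/1250000000)*A.Axxx*A.G + (-9109/400000000)*A.Axxx*A.H + (14641/5000000000)*A.Axxx*A.T + (69177/10000000000)*A.G^3 + (-136327/5000000000)*A.G^2*A.H + (-601659/100000000000)*A.G^2*A.T + (1462329/20000000000)*A.G*A.H^2 + (325633/10000000000)*A.G*A.H*A.T + (24021/10000000000)*A.G*A.HH + (-18423/5000000000)*A.G*A.HM + (-7701/5000000000)*A.G*A.HN + (14913/10000000000)*A.G*A.MM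 + (11589/5000000000)*A.G*A.MN + (4369/1000000000)*A.G*A.NN + (180933/20000000000)*A.G*A.T^2 + (-21139/2000000000)*A.G*A.pqq + (-14133/2000000000)*A.G*A.pqx + (-38151/5000000000)*A.G*A.pxx + (-183769/10000000000)*A.H^3 + (-2921629/100000000000)*A.H^2*A.T + (11049/2500000000)*A.H*A.HH + (-1431/1000000000)*A.H*A.HM + (-67/39062500)*A.H*A.HN + (-1851/1000000000)*A.H*A.MM + (-6709/2500000000)*A.H*A.MN + (4697/2500000000)*A.H*A.NN + (37413/12500000000)*A.H*A.T^2 + (-66013/5000000000)*A.H*A.pqq + (162639/10000000000)*A.H*A.pqx + (85597/10000000000)*A.H*A.pxx + (113/50000000)*A.HH*A.T + (1433/625000000)*A.HM*A.T + (1177/1250000000)*A.HN*A.T + (2909/5000000000)*A.MM*A.T + (1133/2500000000)*A.MN*A.T + (1573/2500000000)*A.NN*A.T + (106229/50000000000)*A.T^3 + (-769/500000000)*A.T*A.pqq + (23381/2500000000)*A.T*A.pqx + (421/200000000)*A.T*A.pxx + (-2583/1250000000)*A.b11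 + (-8607/2500000000)*A.b12 + (-117/100000000)*A.b22 + (-1323/625000000)*A.bc11 + (-351/200000000)*A.bc12 + (2013/2500000000)*A.bc13 + (8019/2500000000)*A.bc21 + (777/100000000)*A.bc22 + (31233/5000000000)*A.bc23 + (-2709/5000000000)*A.c11 + (8169/5000000000)*A.c12 + (-99/500000000)*A.c13 + (4893/2500000000)*A.c22 + (-339/200000000)*A.c23 + (627/5000000000)*A.c33

lemma chunk13 (A : Atoms) (s : ℝ) (ht : ∀ a1 a2 a3 a4 a5 a6 a7 b1 b2 b3 b4 b5 b6 b7 c1 c2 c3 c4 c5 c6 c7 d1 d2 d3 d4 d5 d6 d7 : ℝ,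
      0 ≤ A.fTens a1 a2 a3 a4 a5 a6 a7 b1 b2 b3 b4 b5 b6 b7 c1 c2 c3 c4 c5 c6 c7 d1 d2 d3 d4 d5 d6 d7)
    (hv : ∀ z1 z2 z3 z4 z5 z6 z7 : ℝ, 0 ≤ A.fPV z1 z2 z3 z4 z5 z6 z7 z1 z2 z3 z4 z5 z6 z7) :
    0 ≤ nf13 A s := by
  have e : 1 * (A.fTens (-63/50000) (-63/100000) (-33/50000) (33/50000) (-143/100000) (-3/25000) ((-43/100000)*A.T+(61/100000)*A.H+(13/12500)*A.G) (-3/2000) (27/25000) (-3/100000) (229/50000) (13/100000) (191/100000) ((-57/50000)*A.T+(223/100000)*A.H+(-3/2000)*A.G) (41/50000) (43/100000) (-11/25000) 0 0 (109/50000) ((1/10000)*A.T+(-7/10000)*A.H+(-57/50000)*A.G) (39/100000) (-57/100000) (-209/100000) (-109/100000) 0 0 ((33/100000)*A.T+(-213/100000)*A.H+(37/50000)*A.G)) = nf13 A s := by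
    unfold nf13 Atoms.fTens Atoms.fIP Atoms.fPV
    ring
  rw [← e]
  exact mul_nonneg (by norm_num) (ht _ _ _ _ _ _ _ _ _ _ _ _ _ _ _ _ _ _ _ _ _ _ _ _ _ _ _ _)

noncomputable def nf14 (A : Atoms) (s : ℝ) : ℝ :=
  (-3251/5000000000)*A.Aqqq*A.G + (-437/625000000)*A.Aqqq*A.H + (1147/5000000000)*A.Aqqq*A.T + (17993/2500000000)*A.Aqqx*A.G + (457/500000000)*A.Aqqx*A.H + (-2361/2500000000)*A.Aqqx*A.T + (165141/5000000000)*A.Aqxx*A.G + (90737/5000000000)*A.Aqxx*A.H + (-24779/5000000000)*A.Aqxx*A.T + (-35007/2500000000)*A.Axxx*A.G + (11319/625000000)*A.Axxx*A.H + (6893/5000000000)*A.Axxx*A.T + (9621/500000000)*A.G^3 + (-8637/62500000)*A.G^2*A.H + (4863949/50000000000)*A.G^2*A.T + (958167/10000000000)*A.G*A.H^2 + (156339/1000000000)*A.G*A.H*A.T + (521/10000000000)*A.G*A.HH + (101/1250000000)*A.G*A.HM + (231/250000000)*A.G*A.HN + (17/500000000)*A.G*A.MM + (833/1250000000)*A.G*A.MN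 + (10829/2500000000)*A.G*A.NN + (-1090223/25000000000)*A.G*A.T^2 + (-1131/1250000000)*A.G*A.pqq + (1057/250000000)*A.G*A.pqx + (-7563/5000000000)*A.G*A.pxx + (347487/5000000000)*A.H^3 + (775649/50000000000)*A.H^2*A.T + (-39/625000000)*A.H*A.HH + (-219/2500000000)*A.H*A.HM + (-549/1000000000)*A.H*A.HN + (-79/2500000000)*A.H*A.MM + (-987/2500000000)*A.H*A.MN + (77/125000000)*A.H*A.NN + (-736447/25000000000)*A.H*A.T^2 + (-153/156250000)*A.H*A.pqq + (-353/5000000000)*A.H*A.pqx + (5911/2500000000)*A.H*A.pxx + (9/400000000)*A.HH*A.T + (159/5000000000)*A.HM*A.T + (-111/2500000000)*A.HN*A.T + (113/10000000000)*A.MM*A.T + (-79/2500000000)*A.MN*A.T + (221/10000000000)*A.NN*A.T + (270227/50000000000)*A.T^3 + (1581/5000000000)*A.T*A.pqq + (-2117/2500000000)*A.T*A.pqx + (-4673/5000000000)*A.T*A.pxx + (27/1250000000)*A.b11 + (-339/5000000000)*A.b12 + (11/250000000)*A.b22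 + (39/1250000000)*A.bc11 + (-57/625000000)*A.bc12 + (33/500000000)*A.bc13 + (-63/1250000000)*A.bc21 + (-283/500000000)*A.bc22 + (2247/2500000000)*A.bc23 + (7/625000000)*A.c11 + (-329/5000000000)*A.c12 + (119/2500000000)*A.c13 + (-203/500000000)*A.c22 + (623/500000000)*A.c23 + (539/125000000)*A.c33

lemma chunk14 (A : Atoms) (s : ℝ) (ht : ∀ a1 a2 a3 a4 a5 a6 a7 b1 b2 b3 b4 b5 b6 b7 c1 c2 c3 c4 c5 c6 c7 d1 d2 d3 d4 d5 d6 d7 : ℝ,
      0 ≤ A.fTens a1 a2 a3 a4 a5 a6 a7 b1 b2 b3 b4 b5 b6 b7 c1 c2 c3 c4 c5 c6 c7 d1 d2 d3 d4 d5 d6 d7)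
    (hv : ∀ z1 z2 z3 z4 z5 z6 z7 : ℝ, 0 ≤ A.fPV z1 z2 z3 z4 z5 z6 z7 z1 z2 z3 z4 z5 z6 z7) :
    0 ≤ nf14 A s := by
  have e : 1 * (A.fTens (-9/100000) (-7/100000) (1/10000) 0 (1/2500) (173/100000) ((-31/50000)*A.T+(183/100000)*A.H+(287/100000)*A.G) (1/5000) (9/50000) (77/50000) (3/6250) (79/50000) (-57/50000) ((7/25000)*A.T+(101/100000)*A.H+(-99/100000)*A.G) (-3/25000) (-1/12500) (11/100000) 0 0 (47/25000) ((-93/100000)*A.T+(23/12500)*A.H+(289/100000)*A.G) (11/100000) (1/25000) (7/5000) (31/100000) 0 0 ((-11/100000)*A.T+(3/3125)*A.H+(-147/100000)*A.G)) = nf14 A s := by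
    unfold nf14 Atoms.fTens Atoms.fIP Atoms.fPV
    ring
  rw [← e]
  exact mul_nonneg (by norm_num) (ht _ _ _ _ _ _ _ _ _ _ _ _ _ _ _ _ _ _ _ _ _ _ _ _ _ _ _ _)

noncomputable def nf15 (A : Atoms) (s : ℝ) : ℝ :=
  (-144361/10000000000)*A.Aqqq*A.G + (42371/5000000000)*A.Aqqq*A.H + (49219/5000000000)*A.Aqqq*A.T + (42621/10000000000)*A.Aqqx*A.G + (44687/2500000000)*A.Aqqx*A.H + (3307/200000000)*A.Aqqx*A.T + (-20321/5000000000)*A.Aqxx*A.G + (37559/2000000000)*A.Aqxx*A.H + (127807/10000000000)*A.Aqxx*A.T + (-689/5000000000)*A.Axxx*A.G + (1503/500000000)*A.Axxx*A.H + (-11619/2500000000)*A.Axxx*A.T + (5351/1250000000)*A.G^3 + (18009/5000000000)*A.G^2*A.H + (99991/3125000000)*A.G^2*A.T + (-97331/10000000000)*A.G*A.H^2 + (-243341/5000000000)*A.G*A.H*A.T + (2281/625000000)*A.G*A.HH + (3793/1250000000)*A.G*A.HM + (-6007/1250000000)*A.G*A.HN + (661/1000000000)*A.G*A.MM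 + (-11833/5000000000)*A.G*A.MN + (27053/10000000000)*A.G*A.NN + (-288741/20000000000)*A.G*A.T^2 + (-7601/625000000)*A.G*A.pqq + (21521/2500000000)*A.G*A.pqx + (-1883/1250000000)*A.G*A.pxx + (175599/2500000000)*A.H^3 + (5299593/100000000000)*A.H^2*A.T + (-63/125000000)*A.H*A.HH + (-15067/2500000000)*A.H*A.HM + (-1401/500000000)*A.H*A.HN + (-13157/5000000000)*A.H*A.MM + (16383/5000000000)*A.H*A.MN + (27019/5000000000)*A.H*A.NN + (146413/5000000000)*A.H*A.T^2 + (-48139/5000000000)*A.H*A.pqq + (-9759/625000000)*A.H*A.pqx + (-4027/312500000)*A.H*A.pxx + (49/2500000000)*A.HH*A.T + (217/625000000)*A.HM*A.T + (147/2500000000)*A.HN*A.T + (1073/400000000)*A.MM*A.T + (433/100000000)*A.MN*A.T + (257/80000000)*A.NN*A.T + (192579/50000000000)*A.T^3 + (903/1250000000)*A.T*A.pqq + (-387/5000000000)*A.T*A.pqx + (2407/1250000000)*A.T*A.pxx + (-7/39062500)*A.b12 + (9/3906250)*A.b22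 + (749/2500000000)*A.bc11 + (-193/39062500)*A.bc12 + (-4173/625000000)*A.bc13 + (-301/2500000000)*A.bc21 + (221/78125000)*A.bc22 + (-3859/625000000)*A.bc23 + (3317/1250000000)*A.c11 + (2901/1250000000)*A.c12 + (-2637/1000000000)*A.c13 + (16597/2500000000)*A.c22 + (4389/5000000000)*A.c23 + (5893/2500000000)*A.c33

lemma chunk15 (A : Atoms) (s : ℝ) (ht : ∀ a1 a2 a3 a4 a5 a6 a7 b1 b2 b3 b4 b5 b6 b7 c1 c2 c3 c4 c5 c6 c7 d1 d2 d3 d4 d5 d6 d7 : ℝ,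
      0 ≤ A.fTens a1 a2 a3 a4 a5 a6 a7 b1 b2 b3 b4 b5 b6 b7 c1 c2 c3 c4 c5 c6 c7 d1 d2 d3 d4 d5 d6 d7)
    (hv : ∀ z1 z2 z3 z4 z5 z6 z7 : ℝ, 0 ≤ A.fPV z1 z2 z3 z4 z5 z6 z7 z1 z2 z3 z4 z5 z6 z7) :
    0 ≤ nf15 A s := by
  have e : 1 * (A.fTens 0 (-107/100000) (-89/50000) (-7/3125) (-33/20000) (77/100000) ((-17/50000)*A.T+(-161/100000)*A.H+(177/100000)*A.G) (2/3125) (43/100000) (-71/50000) (-11/20000) (-1/1000) (9/12500) ((1/6250)*A.T+(-111/50000)*A.H+(-127/100000)*A.G) (-7/50000) (-31/25000) (-21/100000) 0 0 (-1/1250) ((63/100000)*A.T+(-9/25000)*A.H+(251/100000)*A.G) (9/5000) (69/100000) (-83/100000) (-111/50000) 0 0 ((77/100000)*A.T+(-39/50000)*A.H+(-7/20000)*A.G)) = nf15 A s := by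
    unfold nf15 Atoms.fTens Atoms.fIP Atoms.fPV
    ring
  rw [← e]
  exact mul_nonneg (by norm_num) (ht _ _ _ _ _ _ _ _ _ _ _ _ _ _ _ _ _ _ _ _ _ _ _ _ _ _ _ _)

noncomputable def nf16 (A : Atoms) (s : ℝ) : ℝ :=
  (-140196047/1000000000)*A.Aqqq*A.G + (-14970993/312500000)*A.Aqqq*A.H + (-6234101/1000000000)*A.Aqqq*A.T + (5515427/250000000)*A.Aqqx*A.G + (-359485129/2500000000)*A.Aqqx*A.H + (-33790689/1000000000)*A.Aqqx*A.T + (384080759/2500000000)*A.Aqxx*A.G + (-29760343/1250000000)*A.Aqxx*A.H + (280185289/5000000000)*A.Aqxx*A.T + (200677523/5000000000)*A.Axxx*A.G + (-9439127/2500000000)*A.Axxx*A.H + (17899821/1000000000)*A.Axxx*A.T + (18286891/1000000000)*A.G^3 + (35706101/5000000000)*A.G^2*A.H + (87738907/2000000000)*A.G^2*A.T + (-536781269/5000000000)*A.G*A.H^2 + (-32967221/1250000000)*A.G*A.H*A.T + (402002721/2000000000)*A.G*A.HH + (-1390754217/5000000000)*A.G*A.HM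 + (-419330463/5000000000)*A.G*A.HN + (38625113/400000000)*A.G*A.MM + (288364373/5000000000)*A.G*A.MN + (44211557/5000000000)*A.G*A.NN + (1651107303/50000000000)*A.G*A.T^2 + (203682693/1000000000)*A.G*A.pqq + (-253954903/2500000000)*A.G*A.pqx + (-19150881/100000000)*A.G*A.pxx + (466599/78125000)*A.H^3 + (316413227/50000000000)*A.H^2*A.T + (8025741/625000000)*A.H*A.HH + (-367026143/5000000000)*A.H*A.HM + (-13702041/2500000000)*A.H*A.HN + (44010193/1000000000)*A.H*A.MM + (20574689/1250000000)*A.H*A.MN + (249579/1250000000)*A.H*A.NN + (38157901/1562500000)*A.H*A.T^2 + (69576951/2500000000)*A.H*A.pqq + (52835887/250000000)*A.H*A.pqx + (248339/15625000)*A.H*A.pxx + (7921/15625000)*A.HH*A.T + (-58063/31250000)*A.HM*A.T + (-35747/39062500)*A.HN*A.T + (5103757/1000000000)*A.MM*A.T + (315409/1250000000)*A.MN*A.T + (28109/50000000)*A.NN*A.T + (14049921/50000000000)*A.T^3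 + (182239/125000000)*A.T*A.pqq + (108074977/5000000000)*A.T*A.pqx + (-206084773/2500000000)*A.T*A.pxx + (-10323/78125000)*A.b11 + (1461621/125000000)*A.b12 + (501214041/2500000000)*A.b22 + (-320493/156250000)*A.bc11 + (-63288501/1000000000)*A.bc12 + (-4064379/2500000000)*A.bc13 + (-4636823/625000000)*A.bc21 + (-697646083/2500000000)*A.bc22 + (-421369821/5000000000)*A.bc23 + (25445823/5000000000)*A.c11 + (224173399/5000000000)*A.c12 + (5197/20000000)*A.c13 + (269119361/2500000000)*A.c22 + (296087811/5000000000)*A.c23 + (8761671/1000000000)*A.c33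

lemma chunk16 (A : Atoms) (s : ℝ) (ht : ∀ a1 a2 a3 a4 a5 a6 a7 b1 b2 b3 b4 b5 b6 b7 c1 c2 c3 c4 c5 c6 c7 d1 d2 d3 d4 d5 d6 d7 : ℝ,
      0 ≤ A.fTens a1 a2 a3 a4 a5 a6 a7 b1 b2 b3 b4 b5 b6 b7 c1 c2 c3 c4 c5 c6 c7 d1 d2 d3 d4 d5 d6 d7)
    (hv : ∀ z1 z2 z3 z4 z5 z6 z7 : ℝ, 0 ≤ A.fPV z1 z2 z3 z4 z5 z6 z7 z1 z2 z3 z4 z5 z6 z7) :
    0 ≤ nf16 A s := by
  have e : 1 * (A.fTens (279/12500) (-4857/100000) (-927/50000) (853/50000) (457/50000) (-131/4000) ((28/3125)*A.T+(439/50000)*A.H+(-63/50000)*A.G) (32817/100000) (-23953/100000) (-1237/20000) (3301/20000) (-5657/50000) (-18143/100000) ((-6227/100000)*A.T+(3891/100000)*A.H+(1451/50000)*A.G) (-37/12500) (-5239/100000) (739/50000) 0 0 (243/5000) ((381/20000)*A.T+(-397/100000)*A.H+(-39/5000)*A.G) (15273/50000) (-4949/25000) (-7083/100000) (15207/100000) 0 0 ((-1637/25000)*A.T+(3887/100000)*A.H+(3151/100000)*A.G))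 = nf16 A s := by
    unfold nf16 Atoms.fTens Atoms.fIP Atoms.fPV
    ring
  rw [← e]
  exact mul_nonneg (by norm_num) (ht _ _ _ _ _ _ _ _ _ _ _ _ _ _ _ _ _ _ _ _ _ _ _ _ _ _ _ _)

noncomputable def nf17 (A : Atoms) (s : ℝ) : ℝ :=
  (-52001773/10000000000)*A.Aqqq*A.G + (946991/625000000)*A.Aqqq*A.H + (-1867041/1000000000)*A.Aqqq*A.T + (-293609809/10000000000)*A.Aqqx*A.G + (55286369/10000000000)*A.Aqqx*A.H + (3089061/2500000000)*A.Aqqx*A.T + (-14086147/1000000000)*A.Aqxx*A.G + (347549947/10000000000)*A.Aqxx*A.H + (19810831/1000000000)*A.Aqxx*A.T + (366723/500000000)*A.Axxx*A.G + (1095083/100000000)*A.Axxx*A.H + (176261/500000000)*A.Axxx*A.T + (9274923/10000000000)*A.G^3 + (-4929683/5000000000)*A.G^2*A.H + (864091079/100000000000)*A.G^2*A.T + (-173463763/20000000000)*A.G*A.H^2 + (-457281403/50000000000)*A.G*A.H*A.T + (307994297/10000000000)*A.G*A.HH + (74600319/1000000000)*A.G*A.HM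 + (94637561/5000000000)*A.G*A.HN + (227471569/5000000000)*A.G*A.MM + (108266179/5000000000)*A.G*A.MN + (8322533/2000000000)*A.G*A.NN + (-5315741077/100000000000)*A.G*A.T^2 + (-1457139/250000000)*A.G*A.pqq + (-134051457/5000000000)*A.G*A.pqx + (-13000021/2500000000)*A.G*A.pxx + (5721111/10000000000)*A.H^3 + (2601891639/100000000000)*A.H^2*A.T + (10952403/1250000000)*A.H*A.HH + (12220207/2500000000)*A.H*A.HM + (-20193931/625000000)*A.H*A.HN + (-19960617/5000000000)*A.H*A.MM + (-252900399/5000000000)*A.H*A.MN + (-11897043/1250000000)*A.H*A.NN + (-35909929/12500000000)*A.H*A.T^2 + (-35480541/10000000000)*A.H*A.pqq + (-29120147/2000000000)*A.H*A.pqx + (87315741/2500000000)*A.H*A.pxx + (23000769/10000000000)*A.HH*A.T + (-8143773/2500000000)*A.HM*A.T + (-1464573/500000000)*A.HN*A.T + (11956853/10000000000)*A.MM*A.T + (419429/625000000)*A.MN*A.T + (31410949/2500000000)*A.NN*A.T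 + (15522379/50000000000)*A.T^3 + (2981847/1250000000)*A.T*A.pqq + (33230313/10000000000)*A.T*A.pqx + (472314681/10000000000)*A.T*A.pxx + (297297/250000000)*A.b11 + (-38865453/5000000000)*A.b12 + (-9602929/312500000)*A.b22 + (-11091399/5000000000)*A.bc11 + (27049109/2500000000)*A.bc12 + (96317797/2500000000)*A.bc13 + (-54694299/5000000000)*A.bc21 + (-46394487/625000000)*A.bc22 + (-11279263/625000000)*A.bc23 + (2381593/2500000000)*A.c11 + (1268659/1000000000)*A.c12 + (114611369/2500000000)*A.c13 + (-288549643/5000000000)*A.c22 + (-49030153/5000000000)*A.c23 + (-870909/625000000)*A.c33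

lemma chunk17 (A : Atoms) (s : ℝ) (ht : ∀ a1 a2 a3 a4 a5 a6 a7 b1 b2 b3 b4 b5 b6 b7 c1 c2 c3 c4 c5 c6 c7 d1 d2 d3 d4 d5 d6 d7 : ℝ,
      0 ≤ A.fTens a1 a2 a3 a4 a5 a6 a7 b1 b2 b3 b4 b5 b6 b7 c1 c2 c3 c4 c5 c6 c7 d1 d2 d3 d4 d5 d6 d7)
    (hv : ∀ z1 z2 z3 z4 z5 z6 z7 : ℝ, 0 ≤ A.fPV z1 z2 z3 z4 z5 z6 z7 z1 z2 z3 z4 z5 z6 z7) :
    0 ≤ nf17 A s := by
  have e : 1 * (A.fTens (231/5000) (-3097/100000) (-1459/25000) (123/5000) (-771/20000) (3951/100000) ((-119/25000)*A.T+(3/100)*A.H+(347/50000)*A.G) (12821/100000) (14303/100000) (6357/100000) (-1037/50000) (-3279/100000) (339/12500) ((-4429/50000)*A.T+(-627/25000)*A.H+(141/20000)*A.G) (1287/100000) (-769/50000) (957/10000) 0 0 (-359/12500) ((-431/100000)*A.T+(-3019/100000)*A.H+(-1009/100000)*A.G) (-749/6250) (-15823/100000) (-137/12500) (913/50000) 0 0 ((9169/100000)*A.T+(1859/100000)*A.H+(-773/50000)*A.G)) =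 nf17 A s := by
    unfold nf17 Atoms.fTens Atoms.fIP Atoms.fPV
    ring
  rw [← e]
  exact mul_nonneg (by norm_num) (ht _ _ _ _ _ _ _ _ _ _ _ _ _ _ _ _ _ _ _ _ _ _ _ _ _ _ _ _)

noncomputable def nf18 (A : Atoms) (s : ℝ) : ℝ :=
  (-47259/2500000000)*A.Aqqq*A.G + (146513/5000000000)*A.Aqqq*A.H + (22527/2500000000)*A.Aqqq*A.T + (-413967/2500000000)*A.Aqqx*A.G + (-74211/5000000000)*A.Aqqx*A.H + (-6103/5000000000)*A.Aqqx*A.T + (-1538697/10000000000)*A.Aqxx*A.G + (-6973/5000000000)*A.Aqxx*A.H + (19467/5000000000)*A.Aqxx*A.T + (133781/5000000000)*A.Axxx*A.G + (114943/10000000000)*A.Axxx*A.H + (14393/5000000000)*A.Axxx*A.T + (659739/5000000000)*A.G^3 + (364971/5000000000)*A.G^2*A.H + (-7929973/100000000000)*A.G^2*A.T + (-859121/20000000000)*A.G*A.H^2 + (-369543/10000000000)*A.G*A.H*A.T + (2353/312500000)*A.G*A.HH + (15053/312500000)*A.G*A.HM + (-8177/1250000000)*A.G*A.HN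 + (19493/250000000)*A.G*A.MM + (-55669/2500000000)*A.G*A.MN + (3809/2000000000)*A.G*A.NN + (-27067/5000000000)*A.G*A.T^2 + (-26681/2500000000)*A.G*A.pqq + (-311649/5000000000)*A.G*A.pqx + (-70613/1250000000)*A.G*A.pxx + (-89221/10000000000)*A.H^3 + (611249/12500000000)*A.H^2*A.T + (13129/1250000000)*A.H*A.HH + (123331/2500000000)*A.H*A.HM + (-6947/625000000)*A.H*A.HN + (118223/2500000000)*A.H*A.MM + (-13307/500000000)*A.H*A.MN + (4469/1250000000)*A.H*A.NN + (139001/6250000000)*A.H*A.T^2 + (49027/5000000000)*A.H*A.pqq + (-50583/5000000000)*A.H*A.pqx + (-84631/5000000000)*A.H*A.pxx + (42157/10000000000)*A.HH*A.T + (55829/5000000000)*A.HM*A.T + (-12771/2500000000)*A.HN*A.T + (74321/10000000000)*A.MM*A.T + (-3299/500000000)*A.MN*A.T + (4321/2500000000)*A.NN*A.T + (95879/50000000000)*A.T^3 + (3391/500000000)*A.T*A.pqq + (6723/5000000000)*A.T*A.pqx + (-14291/5000000000)*A.T*A.pxx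 + (9483/2500000000)*A.b11 + (14039/1250000000)*A.b12 + (451/62500000)*A.b22 + (25997/2500000000)*A.bc11 + (3477/312500000)*A.bc12 + (-827/125000000)*A.bc13 + (89011/2500000000)*A.bc21 + (43029/1000000000)*A.bc22 + (-9199/1250000000)*A.bc23 + (1771/250000000)*A.c11 + (105917/2500000000)*A.c12 + (-25187/1250000000)*A.c13 + (72081/1000000000)*A.c22 + (-25957/1250000000)*A.c23 + (3429/2500000000)*A.c33

lemma chunk18 (A : Atoms) (s : ℝ) (ht : ∀ a1 a2 a3 a4 a5 a6 a7 b1 b2 b3 b4 b5 b6 b7 c1 c2 c3 c4 c5 c6 c7 d1 d2 d3 d4 d5 d6 d7 : ℝ,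
      0 ≤ A.fTens a1 a2 a3 a4 a5 a6 a7 b1 b2 b3 b4 b5 b6 b7 c1 c2 c3 c4 c5 c6 c7 d1 d2 d3 d4 d5 d6 d7)
    (hv : ∀ z1 z2 z3 z4 z5 z6 z7 : ℝ, 0 ≤ A.fPV z1 z2 z3 z4 z5 z6 z7 z1 z2 z3 z4 z5 z6 z7) :
    0 ≤ nf18 A s := by
  have e : 1 * (A.fTens (109/100000) (161/100000) (-3/10000) (109/100000) (-9/50000) (-19/25000) ((27/100000)*A.T+(47/100000)*A.H+(-151/100000)*A.G) (11/5000) (323/50000) (-27/50000) (-17/100000) (-659/100000) (-463/100000) ((9/20000)*A.T+(11/5000)*A.H+(-7/2500)*A.G) (87/50000) (11/5000) (-4/3125) 0 0 (159/100000) ((-3/20000)*A.T+(39/50000)*A.H+(-37/25000)*A.G) (41/25000) (301/50000) (-127/100000) (-7/20000) 0 0 ((37/50000)*A.T+(1/400)*A.H+(-267/100000)*A.G)) = nf18 A s := by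
    unfold nf18 Atoms.fTens Atoms.fIP Atoms.fPV
    ring
  rw [← e]
  exact mul_nonneg (by norm_num) (ht _ _ _ _ _ _ _ _ _ _ _ _ _ _ _ _ _ _ _ _ _ _ _ _ _ _ _ _)

noncomputable def nf19 (A : Atoms) (s : ℝ) : ℝ :=
  (240257/2500000000)*A.Aqqq*A.G + (166157/5000000000)*A.Aqqq*A.H + (-156689/5000000000)*A.Aqqq*A.T + (-1176383/10000000000)*A.Aqqx*A.G + (-2455189/10000000000)*A.Aqqx*A.H + (124001/2500000000)*A.Aqqx*A.T + (15227/1000000000)*A.Aqxx*A.G + (114933/400000000)*A.Aqxx*A.H + (-1665139/10000000000)*A.Aqxx*A.T + (-15327/1000000000)*A.Axxx*A.G + (-73551/1250000000)*A.Axxx*A.H + (1217393/5000000000)*A.Axxx*A.T + (33137/5000000000)*A.G^3 + (-211021/5000000000)*A.G^2*A.H + (12658689/100000000000)*A.G^2*A.T + (-336709/20000000000)*A.G*A.H^2 + (-3141353/25000000000)*A.G*A.H*A.T + (20261/10000000000)*A.G*A.HH + (-25833/5000000000)*A.G*A.HM + (-5429/1000000000)*A.G*A.HN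 + (17629/5000000000)*A.G*A.MM + (36921/5000000000)*A.G*A.MN + (38669/10000000000)*A.G*A.NN + (2861133/25000000000)*A.G*A.T^2 + (665859/5000000000)*A.G*A.pqq + (-14819/500000000)*A.G*A.pqx + (57399/5000000000)*A.G*A.pxx + (-14227/312500000)*A.H^3 + (-81947/50000000000)*A.H^2*A.T + (21749/625000000)*A.H*A.HH + (-46191/2500000000)*A.H*A.HM + (-192899/2500000000)*A.H*A.HN + (-174961/5000000000)*A.H*A.MM + (2117/1250000000)*A.H*A.MN + (20167/500000000)*A.H*A.NN + (1005619/6250000000)*A.H*A.T^2 + (487797/5000000000)*A.H*A.pqq + (-932193/5000000000)*A.H*A.pqx + (2201/25000000)*A.H*A.pxx + (376157/2500000000)*A.HH*A.T + (580869/2500000000)*A.HM*A.T + (-319231/1250000000)*A.HN*A.T + (179401/2000000000)*A.MM*A.T + (-492983/2500000000)*A.MN*A.T + (135473/1250000000)*A.NN*A.T + (-1619731/12500000000)*A.T^3 + (-20277/500000000)*A.T*A.pqq + (-47353/1000000000)*A.T*A.pqx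 + (-1432203/5000000000)*A.T*A.pxx + (93883/625000000)*A.b11 + (87271/2500000000)*A.b12 + (1007/500000000)*A.b22 + (145011/625000000)*A.bc11 + (-1140773/5000000000)*A.bc12 + (-14809/500000000)*A.bc13 + (-22407/500000000)*A.bc21 + (-261793/5000000000)*A.bc22 + (-1733/312500000)*A.bc23 + (223979/2500000000)*A.c11 + (-1158221/5000000000)*A.c12 + (47651/1250000000)*A.c13 + (93943/1250000000)*A.c22 + (46849/1000000000)*A.c23 + (1793/500000000)*A.c33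

lemma chunk19 (A : Atoms) (s : ℝ) (ht : ∀ a1 a2 a3 a4 a5 a6 a7 b1 b2 b3 b4 b5 b6 b7 c1 c2 c3 c4 c5 c6 c7 d1 d2 d3 d4 d5 d6 d7 : ℝ,
      0 ≤ A.fTens a1 a2 a3 a4 a5 a6 a7 b1 b2 b3 b4 b5 b6 b7 c1 c2 c3 c4 c5 c6 c7 d1 d2 d3 d4 d5 d6 d7)
    (hv : ∀ z1 z2 z3 z4 z5 z6 z7 : ℝ, 0 ≤ A.fPV z1 z2 z3 z4 z5 z6 z7 z1 z2 z3 z4 z5 z6 z7) :
    0 ≤ nf19 A s := by
  have e : 1 * (A.fTens (223/25000) (343/50000) (-3/400) (507/100000) (-121/50000) (-171/20000) ((-161/25000)*A.T+(147/100000)*A.H+(77/20000)*A.G) (19/20000) (-157/100000) (-163/100000) (87/100000) (407/100000) (341/100000) ((-29/100000)*A.T+(73/100000)*A.H+(-37/100000)*A.G) (421/50000) (653/100000) (-361/50000) 0 0 (-993/100000) ((-121/20000)*A.T+(137/100000)*A.H+(73/20000)*A.G) (53/50000) (-103/100000) (-11/10000) (39/20000) 0 0 ((-9/50000)*A.T+(2/3125)*A.H+(-19/25000)*A.G)) = nf19 A s := by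
    unfold nf19 Atoms.fTens Atoms.fIP Atoms.fPV
    ring
  rw [← e]
  exact mul_nonneg (by norm_num) (ht _ _ _ _ _ _ _ _ _ _ _ _ _ _ _ _ _ _ _ _ _ _ _ _ _ _ _ _)

noncomputable def nf20 (A : Atoms) (s : ℝ) : ℝ :=
  (-108433/10000000000)*A.Aqqq*A.G + (-272391/400000000)*A.Aqqq*A.H + (4215893/5000000000)*A.Aqqq*A.T + (377907/5000000000)*A.Aqqx*A.G + (2501173/10000000000)*A.Aqqx*A.H + (6365073/10000000000)*A.Aqqx*A.T + (595367/10000000000)*A.Aqxx*A.G + (440607/2000000000)*A.Aqxx*A.H + (7439741/5000000000)*A.Aqxx*A.T + (3299893/5000000000)*A.Axxx*A.G + (18127733/10000000000)*A.Axxx*A.H + (-2708477/10000000000)*A.Axxx*A.T + (432697/5000000000)*A.G^3 + (-1292871/5000000000)*A.G^2*A.H + (122377/4000000000)*A.G^2*A.T + (-6196471/4000000000)*A.G*A.H^2 + (3881571/25000000000)*A.G*A.H*A.T + (680269/2000000000)*A.G*A.HH + (-1544529/5000000000)*A.G*A.HM + (-9262671/5000000000)*A.G*A.HN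 + (350689/5000000000)*A.G*A.MM + (841331/1000000000)*A.G*A.MN + (25241057/10000000000)*A.G*A.NN + (-15699161/100000000000)*A.G*A.T^2 + (1463171/10000000000)*A.G*A.pqq + (4275601/10000000000)*A.G*A.pqx + (-1210043/5000000000)*A.G*A.pxx + (-1716959/5000000000)*A.H^3 + (-141484591/100000000000)*A.H^2*A.T + (-4570071/5000000000)*A.H*A.HH + (-3676553/5000000000)*A.H*A.HM + (289831/156250000)*A.H*A.HN + (653301/1250000000)*A.H*A.MM + (17146437/5000000000)*A.H*A.MN + (346863/200000000)*A.H*A.NN + (6558783/25000000000)*A.H*A.T^2 + (-5414567/10000000000)*A.H*A.pqq + (909167/1250000000)*A.H*A.pqx + (-6646703/10000000000)*A.H*A.pxx + (3070593/5000000000)*A.HH*A.T + (386859/250000000)*A.HM*A.T + (1067781/1250000000)*A.HN*A.T + (4912237/5000000000)*A.MM*A.T + (2716571/2500000000)*A.MN*A.T + (1502941/5000000000)*A.NN*A.T + (-50963739/50000000000)*A.T^3 + (678027/1000000000)*A.T*A.pqq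 + (-5407943/10000000000)*A.T*A.pqx + (3112349/10000000000)*A.T*A.pxx + (-613683/1000000000)*A.b11 + (4564857/5000000000)*A.b12 + (-106097/312500000)*A.b22 + (-1939377/1250000000)*A.bc11 + (1490599/5000000000)*A.bc12 + (3191837/5000000000)*A.bc13 + (-1036689/2500000000)*A.bc21 + (-1363089/625000000)*A.bc22 + (289377/156250000)*A.bc23 + (-972961/1000000000)*A.c11 + (-3993913/2500000000)*A.c12 + (-362241/1250000000)*A.c13 + (-17543217/5000000000)*A.c22 + (-25769/10000000)*A.c23 + (-788749/312500000)*A.c33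

lemma chunk20 (A : Atoms) (s : ℝ) (ht : ∀ a1 a2 a3 a4 a5 a6 a7 b1 b2 b3 b4 b5 b6 b7 c1 c2 c3 c4 c5 c6 c7 d1 d2 d3 d4 d5 d6 d7 : ℝ,
      0 ≤ A.fTens a1 a2 a3 a4 a5 a6 a7 b1 b2 b3 b4 b5 b6 b7 c1 c2 c3 c4 c5 c6 c7 d1 d2 d3 d4 d5 d6 d7)
    (hv : ∀ z1 z2 z3 z4 z5 z6 z7 : ℝ, 0 ≤ A.fPV z1 z2 z3 z4 z5 z6 z7 z1 z2 z3 z4 z5 z6 z7) :
    0 ≤ nf20 A s := by
  have e : 1 * (A.fTens (1719/100000) (473/20000) (1331/100000) (-71/50000) (-191/100000) (261/100000) ((-491/50000)*A.T+(543/100000)*A.H+(-13/25000)*A.G) (-79/6250) (577/100000) (221/6250) (-227/100000) (27/100000) (7/20000) ((269/100000)*A.T+(-513/50000)*A.H+(-61/12500)*A.G) (-357/20000) (-2057/100000) (-1111/100000) 0 0 (-117/50000) ((947/100000)*A.T+(-7/1250)*A.H+(41/100000)*A.G) (1343/100000) (-607/100000) (-3569/100000) (61/20000) 0 0 ((-279/100000)*A.T+(521/50000)*A.H+(441/100000)*A.G)) = nf20 A s := by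
    unfold nf20 Atoms.fTens Atoms.fIP Atoms.fPV
    ring
  rw [← e]
  exact mul_nonneg (by norm_num) (ht _ _ _ _ _ _ _ _ _ _ _ _ _ _ _ _ _ _ _ _ _ _ _ _ _ _ _ _)

noncomputable def nf21 (A : Atoms) (s : ℝ) : ℝ :=
  (46167/625000000)*A.Aqqq*A.G + (-24203/1250000000)*A.Aqqq*A.H + (-21559/500000000)*A.Aqqq*A.T + (754109/5000000000)*A.Aqqx*A.G + (-63947/1000000000)*A.Aqqx*A.H + (-140823/1000000000)*A.Aqqx*A.T + (326281/5000000000)*A.Aqxx*A.G + (373/6250000)*A.Aqxx*A.H + (-211843/5000000000)*A.Aqxx*A.T + (-70071/625000000)*A.Axxx*A.G + (5097/5000000000)*A.Axxx*A.H + (385551/5000000000)*A.Axxx*A.T + (1077461/2500000000)*A.G^3 + (184633/312500000)*A.G^2*A.H + (-15184393/20000000000)*A.G^2*A.T + (-3975019/20000000000)*A.G*A.H^2 + (-15535283/12500000000)*A.G*A.H*A.T + (11629/500000000)*A.G*A.HH + (23443/625000000)*A.G*A.HM + (-46041/1250000000)*A.G*A.HN + (37813/2500000000)*A.G*A.MM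 + (-37123/1250000000)*A.G*A.MN + (18229/1250000000)*A.G*A.NN + (6240571/50000000000)*A.G*A.T^2 + (70401/1250000000)*A.G*A.pqq + (137511/1000000000)*A.G*A.pqx + (44247/312500000)*A.G*A.pxx + (-50357/1250000000)*A.H^3 + (13612383/50000000000)*A.H^2*A.T + (11867/625000000)*A.H*A.HH + (59191/1250000000)*A.H*A.HM + (-12901/1250000000)*A.H*A.HN + (6461/250000000)*A.H*A.MM + (-54041/2500000000)*A.H*A.MN + (-9389/2500000000)*A.H*A.NN + (8260919/12500000000)*A.H*A.T^2 + (-14367/1250000000)*A.H*A.pqq + (-95053/1250000000)*A.H*A.pqx + (-5509/5000000000)*A.H*A.pxx + (397/100000000)*A.HH*A.T + (3301/250000000)*A.HM*A.T + (5221/2500000000)*A.HN*A.T + (1109/100000000)*A.MM*A.T + (1677/500000000)*A.MN*A.T + (613/2000000000)*A.NN*A.T + (7363981/50000000000)*A.T^3 + (-12783/500000000)*A.T*A.pqq + (-280961/2500000000)*A.T*A.pqx + (-48961/500000000)*A.T*A.pxx + (-2349/625000000)*A.b11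 + (-4733/250000000)*A.b12 + (-7267/312500000)*A.b22 + (-101/7812500)*A.bc11 + (-4223/125000000)*A.bc12 + (-11709/2500000000)*A.bc13 + (-4781/312500000)*A.bc21 + (-2817/125000000)*A.bc22 + (46029/1250000000)*A.bc23 + (-11/1000000)*A.c11 + (-7247/250000000)*A.c12 + (-4753/1250000000)*A.c13 + (12577/1250000000)*A.c22 + (16699/500000000)*A.c23 + (-18221/1250000000)*A.c33

lemma chunk21 (A : Atoms) (s : ℝ) (ht : ∀ a1 a2 a3 a4 a5 a6 a7 b1 b2 b3 b4 b5 b6 b7 c1 c2 c3 c4 c5 c6 c7 d1 d2 d3 d4 d5 d6 d7 : ℝ,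
      0 ≤ A.fTens a1 a2 a3 a4 a5 a6 a7 b1 b2 b3 b4 b5 b6 b7 c1 c2 c3 c4 c5 c6 c7 d1 d2 d3 d4 d5 d6 d7)
    (hv : ∀ z1 z2 z3 z4 z5 z6 z7 : ℝ, 0 ≤ A.fPV z1 z2 z3 z4 z5 z6 z7 z1 z2 z3 z4 z5 z6 z7) :
    0 ≤ nf21 A s := by
  have e : 1 * (A.fTens (-81/50000) (-1/400) (-53/100000) (-1/100000) (1/2000) (9/100000) ((-223/50000)*A.T+(-383/100000)*A.H+(18/3125)*A.G) (-43/12500) (-137/50000) (137/50000) (-169/100000) (-11/100000) (-1/10000) ((-143/20000)*A.T+(-1/25000)*A.H+(521/50000)*A.G) (29/25000) (11/5000) (1/6250) 0 0 (1/100000) ((47/10000)*A.T+(191/50000)*A.H+(-581/100000)*A.G) (169/50000) (69/25000) (-133/50000) (1/625) 0 0 ((143/20000)*A.T+(-517/50000)*A.G)) = nf21 A s := by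
    unfold nf21 Atoms.fTens Atoms.fIP Atoms.fPV
    ring
  rw [← e]
  exact mul_nonneg (by norm_num) (ht _ _ _ _ _ _ _ _ _ _ _ _ _ _ _ _ _ _ _ _ _ _ _ _ _ _ _ _)

noncomputable def nf22 (A : Atoms) (s : ℝ) : ℝ :=
  (14907/1250000000)*A.Aqqq*A.G + (-18333/1000000000)*A.Aqqq*A.H + (-33183/5000000000)*A.Aqqq*A.T + (-24071/10000000000)*A.Aqqx*A.G + (50897/5000000000)*A.Aqqx*A.H + (2881/250000000)*A.Aqqx*A.T + (-37659/10000000000)*A.Aqxx*A.G + (20797/5000000000)*A.Aqxx*A.H + (44659/5000000000)*A.Aqxx*A.T + (2059/1000000000)*A.Axxx*A.G + (-31717/2000000000)*A.Axxx*A.H + (-2787/2000000000)*A.Axxx*A.T + (1773/2000000000)*A.G^3 + (-74947/5000000000)*A.G^2*A.H + (60537/20000000000)*A.G^2*A.T + (1670453/20000000000)*A.G*A.H^2 + (98081/5000000000)*A.G*A.H*A.T + (953/2000000000)*A.G*A.HH + (17259/5000000000)*A.G*A.HM + (399/200000000)*A.G*A.HN + (67869/10000000000)*A.G*A.MM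 + (39777/5000000000)*A.G*A.MN + (4673/2000000000)*A.G*A.NN + (-19861/1250000000)*A.G*A.T^2 + (27817/5000000000)*A.G*A.pqq + (-39603/10000000000)*A.G*A.pqx + (777/1000000000)*A.G*A.pxx + (-52491/500000000)*A.H^3 + (-1409409/50000000000)*A.H^2*A.T + (-11441/5000000000)*A.H*A.HH + (-54177/5000000000)*A.H*A.HM + (-19783/2500000000)*A.H*A.HN + (-17577/2500000000)*A.H*A.MM + (-70107/5000000000)*A.H*A.MN + (-28849/5000000000)*A.H*A.NN + (566903/12500000000)*A.H*A.T^2 + (-1387/62500000)*A.H*A.pqq + (205673/10000000000)*A.H*A.pqx + (-75723/10000000000)*A.H*A.pxx + (30053/10000000000)*A.HH*A.T + (11691/2500000000)*A.HM*A.T + (32903/5000000000)*A.HN*A.T + (729/400000000)*A.MM*A.T + (12879/2500000000)*A.MN*A.T + (36781/10000000000)*A.NN*A.T + (341677/25000000000)*A.T^3 + (-42429/5000000000)*A.T*A.pqq + (15701/1250000000)*A.T*A.pqx + (24483/10000000000)*A.T*A.pxx + (7007/2500000000)*A.b11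 + (-373/156250000)*A.b12 + (1161/2500000000)*A.b22 + (22167/5000000000)*A.bc11 + (23093/5000000000)*A.bc12 + (-3301/1250000000)*A.bc13 + (-10581/1250000000)*A.bc21 + (-401/312500000)*A.bc22 + (2623/1250000000)*A.bc23 + (2187/1250000000)*A.c11 + (-999/625000000)*A.c12 + (-1221/125000000)*A.c13 + (1239/200000000)*A.c22 + (2121/1250000000)*A.c23 + (5289/2500000000)*A.c33

lemma chunk22 (A : Atoms) (s : ℝ) (ht : ∀ a1 a2 a3 a4 a5 a6 a7 b1 b2 b3 b4 b5 b6 b7 c1 c2 c3 c4 c5 c6 c7 d1 d2 d3 d4 d5 d6 d7 : ℝ,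
      0 ≤ A.fTens a1 a2 a3 a4 a5 a6 a7 b1 b2 b3 b4 b5 b6 b7 c1 c2 c3 c4 c5 c6 c7 d1 d2 d3 d4 d5 d6 d7)
    (hv : ∀ z1 z2 z3 z4 z5 z6 z7 : ℝ, 0 ≤ A.fPV z1 z2 z3 z4 z5 z6 z7 z1 z2 z3 z4 z5 z6 z7) :
    0 ≤ nf22 A s := by
  have e : 1 * (A.fTens (49/50000) (81/100000) (13/10000) (9/50000) (3/1250) (19/20000) ((-203/100000)*A.T+(-179/50000)*A.H+(19/20000)*A.G) (-27/50000) (-3/2000) (-41/50000) (-111/100000) (-79/100000) (-21/100000) ((99/50000)*A.T+(227/100000)*A.H+(-3/6250)*A.G) (143/100000) (27/25000) (141/100000) 0 0 (93/50000) ((-181/100000)*A.T+(-67/25000)*A.H+(1/5000)*A.G) (-43/100000) (-213/100000) (-129/100000) (-133/50000) 0 0 ((11/6250)*A.T+(43/20000)*A.H+(1/25000)*A.G)) = nf22 A s := by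
    unfold nf22 Atoms.fTens Atoms.fIP Atoms.fPV
    ring
  rw [← e]
  exact mul_nonneg (by norm_num) (ht _ _ _ _ _ _ _ _ _ _ _ _ _ _ _ _ _ _ _ _ _ _ _ _ _ _ _ _)

noncomputable def nf23 (A : Atoms) (s : ℝ) : ℝ :=
  (-47613/10000000000)*A.Aqqq*A.G + (27127/2000000000)*A.Aqqq*A.H + (26647/2500000000)*A.Aqqq*A.T + (-18191/10000000000)*A.Aqqx*A.G + (-30557/2500000000)*A.Aqqx*A.H + (-3167/2000000000)*A.Aqqx*A.T + (-11/31250000)*A.Aqxx*A.G + (63491/10000000000)*A.Aqxx*A.H + (-1341/10000000000)*A.Aqxx*A.T + (929/5000000000)*A.Axxx*A.G + (-807/500000000)*A.Axxx*A.H + (-913/250000000)*A.Axxx*A.T + (11361/10000000000)*A.G^3 + (-47909/2500000000)*A.G^2*A.H + (-7629/1000000000)*A.G^2*A.T + (245269/2500000000)*A.G*A.H^2 + (3723459/50000000000)*A.G*A.H*A.T + (5189/2000000000)*A.G*A.HH + (21699/5000000000)*A.G*A.HM + (1443/2500000000)*A.G*A.HN + (9197/5000000000)*A.G*A.MM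 + (2713/5000000000)*A.G*A.MN + (137/2000000000)*A.G*A.NN + (274691/20000000000)*A.G*A.T^2 + (-29033/5000000000)*A.G*A.pqq + (-6989/5000000000)*A.G*A.pqx + (11841/5000000000)*A.G*A.pxx + (-1366729/10000000000)*A.H^3 + (-4885503/100000000000)*A.H^2*A.T + (7869/1250000000)*A.H*A.HH + (50757/5000000000)*A.H*A.HM + (-15387/5000000000)*A.H*A.HN + (5141/1250000000)*A.H*A.MM + (-13217/5000000000)*A.H*A.MN + (-2461/5000000000)*A.H*A.NN + (181651/12500000000)*A.H*A.T^2 + (85239/5000000000)*A.H*A.pqq + (-2759/625000000)*A.H*A.pqx + (-40253/2500000000)*A.H*A.pxx + (1241/312500000)*A.HH*A.T + (3917/625000000)*A.HM*A.T + (-1319/312500000)*A.HN*A.T + (2477/1000000000)*A.MM*A.T + (-4237/1250000000)*A.MN*A.T + (6613/5000000000)*A.NN*A.T + (17449/10000000000)*A.T^3 + (8383/625000000)*A.T*A.pqq + (35267/5000000000)*A.T*A.pqx + (-18379/5000000000)*A.T*A.pxx + (-1209/312500000)*A.b11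 + (-8021/1250000000)*A.b12 + (-1599/625000000)*A.b22 + (-3853/625000000)*A.bc11 + (-2773/5000000000)*A.bc12 + (17269/5000000000)*A.bc13 + (-1683/312500000)*A.bc21 + (-24661/5000000000)*A.bc22 + (-467/1000000000)*A.bc23 + (-12257/5000000000)*A.c11 + (-109/156250000)*A.c12 + (1379/500000000)*A.c13 + (-3363/1000000000)*A.c22 + (-121/1250000000)*A.c23 + (39/2500000000)*A.c33

lemma chunk23 (A : Atoms) (s : ℝ) (ht : ∀ a1 a2 a3 a4 a5 a6 a7 b1 b2 b3 b4 b5 b6 b7 c1 c2 c3 c4 c5 c6 c7 d1 d2 d3 d4 d5 d6 d7 : ℝ,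
      0 ≤ A.fTens a1 a2 a3 a4 a5 a6 a7 b1 b2 b3 b4 b5 b6 b7 c1 c2 c3 c4 c5 c6 c7 d1 d2 d3 d4 d5 d6 d7)
    (hv : ∀ z1 z2 z3 z4 z5 z6 z7 : ℝ, 0 ≤ A.fPV z1 z2 z3 z4 z5 z6 z7 z1 z2 z3 z4 z5 z6 z7) :
    0 ≤ nf23 A s := by
  have e : 1 * (A.fTens (31/25000) (103/100000) (-101/100000) (3/100000) (23/100000) (39/50000) ((-231/100000)*A.T+(-213/50000)*A.H+(-1/100000)*A.G) (123/100000) (113/100000) (13/50000) (-23/20000) (-17/50000) (-9/100000) ((47/25000)*A.T+(14/3125)*A.H+(-27/50000)*A.G) (-39/25000) (-119/100000) (11/20000) 0 0 (-87/100000) ((251/100000)*A.T+(439/100000)*A.H+(-3/50000)*A.G) (-13/12500) (-3/4000) (3/100000) (63/50000) 0 0 ((-201/100000)*A.T+(-111/25000)*A.H+(13/25000)*A.G)) = nf23 A s := by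
    unfold nf23 Atoms.fTens Atoms.fIP Atoms.fPV
    ring
  rw [← e]
  exact mul_nonneg (by norm_num) (ht _ _ _ _ _ _ _ _ _ _ _ _ _ _ _ _ _ _ _ _ _ _ _ _ _ _ _ _)

noncomputable def nf24 (A : Atoms) (s : ℝ) : ℝ :=
  (-329/200000000)*A.Aqqq*A.G + (-25121/2500000000)*A.Aqqq*A.H + (-20683/2500000000)*A.Aqqq*A.T + (32399/625000000)*A.Aqqx*A.G + (-245173/5000000000)*A.Aqqx*A.H + (-187331/2500000000)*A.Aqqx*A.T + (298983/2500000000)*A.Aqxx*A.G + (-29107/5000000000)*A.Aqxx*A.H + (-637469/5000000000)*A.Aqxx*A.T + (27183/1250000000)*A.Axxx*A.G + (-3/7812500)*A.Axxx*A.H + (-6723/312500000)*A.Axxx*A.T + (2474749/5000000000)*A.G^3 + (613271/1250000000)*A.G^2*A.H + (-37745503/50000000000)*A.G^2*A.T + (-528087/2000000000)*A.G*A.H^2 + (-12762329/12500000000)*A.G*A.H*A.T + (29/200000000)*A.G*A.HH + (-7059/2500000000)*A.G*A.HM + (-2983/5000000000)*A.G*A.HN + (98069/5000000000)*A.G*A.MM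 + (47613/5000000000)*A.G*A.MN + (12013/10000000000)*A.G*A.NN + (8035279/50000000000)*A.G*A.T^2 + (-28011/5000000000)*A.G*A.pqq + (-40913/2500000000)*A.G*A.pqx + (-33027/5000000000)*A.G*A.pxx + (-45369/5000000000)*A.H^3 + (13596659/50000000000)*A.H^2*A.T + (51/156250000)*A.H*A.HH + (-1529/250000000)*A.H*A.HM + (-1953/1000000000)*A.H*A.HN + (8073/1250000000)*A.H*A.MM + (26313/2500000000)*A.H*A.MN + (11619/5000000000)*A.H*A.NN + (2721613/5000000000)*A.H*A.T^2 + (13409/2500000000)*A.H*A.pqq + (5837/1250000000)*A.H*A.pqx + (5719/5000000000)*A.H*A.pxx + (533/1250000000)*A.HH*A.T + (-1053/1250000000)*A.HM*A.T + (-139/100000000)*A.HN*A.T + (2873/5000000000)*A.MM*A.T + (273/200000000)*A.MN*A.T + (11329/10000000000)*A.NN*A.T + (1110661/10000000000)*A.T^3 + (8863/1250000000)*A.T*A.pqq + (11169/625000000)*A.T*A.pqx + (15827/2500000000)*A.T*A.pxx + (87/250000000)*A.b11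 + (151/312500000)*A.b12 + (333/5000000000)*A.b22 + (-247/250000000)*A.bc11 + (-3831/2500000000)*A.bc12 + (-3947/5000000000)*A.bc13 + (-213/39062500)*A.bc21 + (-651/156250000)*A.bc22 + (-3963/5000000000)*A.bc23 + (507/1000000000)*A.c11 + (40859/5000000000)*A.c12 + (44289/5000000000)*A.c13 + (6921/312500000)*A.c22 + (56887/5000000000)*A.c23 + (2697/2500000000)*A.c33

lemma chunk24 (A : Atoms) (s : ℝ) (ht : ∀ a1 a2 a3 a4 a5 a6 a7 b1 b2 b3 b4 b5 b6 b7 c1 c2 c3 c4 c5 c6 c7 d1 d2 d3 d4 d5 d6 d7 : ℝ,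
      0 ≤ A.fTens a1 a2 a3 a4 a5 a6 a7 b1 b2 b3 b4 b5 b6 b7 c1 c2 c3 c4 c5 c6 c7 d1 d2 d3 d4 d5 d6 d7)
    (hv : ∀ z1 z2 z3 z4 z5 z6 z7 : ℝ, 0 ≤ A.fPV z1 z2 z3 z4 z5 z6 z7 z1 z2 z3 z4 z5 z6 z7) :
    0 ≤ nf24 A s := by
  have e : 1 * (A.fTens (29/50000) (-39/100000) (-19/20000) (31/100000) (1/5000) (-49/100000) ((9/2500)*A.T+(229/100000)*A.H+(-177/50000)*A.G) (9/100000) (-323/100000) (-93/100000) (67/100000) (163/50000) (89/100000) ((749/100000)*A.T+(-39/100000)*A.H+(-403/50000)*A.G) (3/10000) (-13/20000) (-3/6250) 0 0 (-79/50000) ((189/50000)*A.T+(53/25000)*A.H+(-9/2500)*A.G) (37/100000) (-303/100000) (-29/50000) (17/25000) 0 0 ((737/100000)*A.T+(-23/50000)*A.H+(-811/100000)*A.G)) = nf24 A s := by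
    unfold nf24 Atoms.fTens Atoms.fIP Atoms.fPV
    ring
  rw [← e]
  exact mul_nonneg (by norm_num) (ht _ _ _ _ _ _ _ _ _ _ _ _ _ _ _ _ _ _ _ _ _ _ _ _ _ _ _ _)

noncomputable def nf25 (A : Atoms) (s : ℝ) : ℝ :=
  (78578943/5000000000)*A.Aqqq*A.G + (13805919/1000000000)*A.Aqqq*A.H + (-15587767/2500000000)*A.Aqqq*A.T + (-39174101/1000000000)*A.Aqqx*A.G + (1114606697/10000000000)*A.Aqqx*A.H + (-182665827/2500000000)*A.Aqqx*A.T + (-113587773/5000000000)*A.Aqxx*A.G + (-744278977/10000000000)*A.Aqxx*A.H + (731209333/10000000000)*A.Aqxx*A.T + (33816549/5000000000)*A.Axxx*A.G + (-89741671/2500000000)*A.Axxx*A.H + (1525278949/10000000000)*A.Axxx*A.T + (32993011/10000000000)*A.G^3 + (-76309097/5000000000)*A.G^2*A.H + (791022109/20000000000)*A.G^2*A.T + (-160062611/20000000000)*A.G*A.H^2 + (-774382617/10000000000)*A.G*A.H*A.T + (2898173/400000000)*A.G*A.HH + (-18545793/500000000)*A.G*A.HM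 + (33310267/2500000000)*A.G*A.HN + (28028961/500000000)*A.G*A.MM + (-48577137/1250000000)*A.G*A.MN + (67843481/10000000000)*A.G*A.NN + (1364327377/100000000000)*A.G*A.T^2 + (-52353891/2000000000)*A.G*A.pqq + (372092587/10000000000)*A.G*A.pqx + (4072953/625000000)*A.G*A.pxx + (810510451/10000000000)*A.H^3 + (-2861926061/20000000000)*A.H^2*A.T + (6765161/250000000)*A.H*A.HH + (-240382893/2500000000)*A.H*A.HM + (-26315191/1250000000)*A.H*A.HN + (21136773/1250000000)*A.H*A.MM + (80472021/500000000)*A.H*A.MN + (-57112141/1000000000)*A.H*A.NN + (1626726101/25000000000)*A.H*A.T^2 + (-293194663/5000000000)*A.H*A.pqq + (884772729/10000000000)*A.H*A.pqx + (-335348689/10000000000)*A.H*A.pxx + (82079609/2000000000)*A.HH*A.T + (-10708291/625000000)*A.HM*A.T + (-708042513/5000000000)*A.HN*A.T + (1080433/500000000)*A.MM*A.T + (68690731/2500000000)*A.MN*A.T + (625331537/5000000000)*A.NN*A.T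 + (-177146389/25000000000)*A.T^3 + (548797/20000000)*A.T*A.pqq + (-15402199/5000000000)*A.T*A.pqx + (-49750477/500000000)*A.T*A.pxx + (-99765339/2500000000)*A.b11 + (-156518687/5000000000)*A.b12 + (-8187931/2500000000)*A.b22 + (7417139/500000000)*A.bc11 + (753563089/5000000000)*A.bc12 + (250762603/5000000000)*A.bc13 + (239708367/2500000000)*A.bc21 + (-5771953/2500000000)*A.bc22 + (-49601533/5000000000)*A.bc23 + (-622079/625000000)*A.c11 + (-122452387/2500000000)*A.c12 + (-411582783/2500000000)*A.c13 + (-855308127/5000000000)*A.c22 + (461691523/5000000000)*A.c23 + (-756851/125000000)*A.c33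

lemma chunk25 (A : Atoms) (s : ℝ) (ht : ∀ a1 a2 a3 a4 a5 a6 a7 b1 b2 b3 b4 b5 b6 b7 c1 c2 c3 c4 c5 c6 c7 d1 d2 d3 d4 d5 d6 d7 : ℝ,
      0 ≤ A.fTens a1 a2 a3 a4 a5 a6 a7 b1 b2 b3 b4 b5 b6 b7 c1 c2 c3 c4 c5 c6 c7 d1 d2 d3 d4 d5 d6 d7)
    (hv : ∀ z1 z2 z3 z4 z5 z6 z7 : ℝ, 0 ≤ A.fPV z1 z2 z3 z4 z5 z6 z7 z1 z2 z3 z4 z5 z6 z7) :
    0 ≤ nf25 A s := by
  have e : 1 * (A.fTens (-15909/100000) (1129/25000) (24107/100000) (-1639/100000) (71/4000) (7477/50000) ((6/125)*A.T+(-783/10000)*A.H+(-4193/100000)*A.G) (-989/50000) (3519/25000) (-863/20000) (469/12500) (-3307/100000) (327/50000) ((-4341/100000)*A.T+(377/50000)*A.H+(17/625)*A.G) (6271/50000) (-551/50000) (-207/800) 0 0 (-7819/50000) ((-4493/100000)*A.T+(7807/100000)*A.H+(4423/100000)*A.G) (8279/100000) (-9519/50000) (877/12500) (-949/100000) 0 0 ((1717/50000)*A.T+(-129/25000)*A.H+(-601/20000)*A.G)) = nf25 A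 s := by
    unfold nf25 Atoms.fTens Atoms.fIP Atoms.fPV
    ring
  rw [← e]
  exact mul_nonneg (by norm_num) (ht _ _ _ _ _ _ _ _ _ _ _ _ _ _ _ _ _ _ _ _ _ _ _ _ _ _ _ _)

noncomputable def nf26 (A : Atoms) (s : ℝ) : ℝ :=
  (2985349/1250000000)*A.Aqqq*A.G + (119469011/10000000000)*A.Aqqq*A.H + (-150889163/5000000000)*A.Aqqq*A.T + (-2267597/250000000)*A.Aqqx*A.G + (531426239/10000000000)*A.Aqqx*A.H + (642390557/10000000000)*A.Aqqx*A.T + (-128131059/5000000000)*A.Aqxx*A.G + (-421669999/5000000000)*A.Aqxx*A.H + (-389421469/10000000000)*A.Aqxx*A.T + (56284081/2500000000)*A.Axxx*A.G + (49163891/2500000000)*A.Axxx*A.H + (6417793/2500000000)*A.Axxx*A.T + (40327489/10000000000)*A.G^3 + (-15304451/1250000000)*A.G^2*A.H + (65115653/10000000000)*A.G^2*A.T + (-245986349/10000000000)*A.G*A.H^2 + (70977009/12500000000)*A.G*A.H*A.T + (2323381/2500000000)*A.G*A.HH + (2294217/625000000)*A.G*A.HM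 + (1092891/625000000)*A.G*A.HN + (8645121/2000000000)*A.G*A.MM + (-5918367/2500000000)*A.G*A.MN + (32398273/2500000000)*A.G*A.NN + (610638101/100000000000)*A.G*A.T^2 + (-4719371/1000000000)*A.G*A.pqq + (-16278053/2500000000)*A.G*A.pqx + (1403669/2500000000)*A.G*A.pxx + (130912379/5000000000)*A.H^3 + (415312871/100000000000)*A.H^2*A.T + (1445123/1250000000)*A.H*A.HH + (-36870439/5000000000)*A.H*A.HM + (41179203/1250000000)*A.H*A.HN + (22667613/5000000000)*A.H*A.MM + (-42154013/1000000000)*A.H*A.MN + (49276499/2500000000)*A.H*A.NN + (-149093357/6250000000)*A.H*A.T^2 + (-103295689/5000000000)*A.H*A.pqq + (-137094851/5000000000)*A.H*A.pqx + (192283863/5000000000)*A.H*A.pxx + (51823781/2000000000)*A.HH*A.T + (-213314471/5000000000)*A.HM*A.T + (31100169/1000000000)*A.HN*A.T + (87895477/5000000000)*A.MM*A.T + (-62568479/2500000000)*A.MN*A.T + (2765093/200000000)*A.NN*A.T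 + (67130949/12500000000)*A.T^3 + (183559613/5000000000)*A.T*A.pqq + (-125128627/2500000000)*A.T*A.pqx + (3161797/5000000000)*A.T*A.pxx + (8072097/312500000)*A.b11 + (953997/2500000000)*A.b12 + (-114741/125000000)*A.b22 + (-212099923/5000000000)*A.bc11 + (163284791/5000000000)*A.bc12 + (10782631/2500000000)*A.bc13 + (-3872463/500000000)*A.bc21 + (79805831/2500000000)*A.bc22 + (-846457/1250000000)*A.bc23 + (3479477/200000000)*A.c11 + (-102672893/5000000000)*A.c12 + (3555441/1000000000)*A.c13 + (-134014487/5000000000)*A.c22 + (43571193/2500000000)*A.c23 + (3800919/312500000)*A.c33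

lemma chunk26 (A : Atoms) (s : ℝ) (ht : ∀ a1 a2 a3 a4 a5 a6 a7 b1 b2 b3 b4 b5 b6 b7 c1 c2 c3 c4 c5 c6 c7 d1 d2 d3 d4 d5 d6 d7 : ℝ,
      0 ≤ A.fTens a1 a2 a3 a4 a5 a6 a7 b1 b2 b3 b4 b5 b6 b7 c1 c2 c3 c4 c5 c6 c7 d1 d2 d3 d4 d5 d6 d7)
    (hv : ∀ z1 z2 z3 z4 z5 z6 z7 : ℝ, 0 ≤ A.fPV z1 z2 z3 z4 z5 z6 z7 z1 z2 z3 z4 z5 z6 z7) :
    0 ≤ nf26 A s := by
  have e : 1 * (A.fTens (-10923/100000) (8677/100000) (-11479/100000) (-9693/100000) (2887/20000) (197/100000) ((1669/100000)*A.T+(1231/100000)*A.H+(1177/100000)*A.G) (99/5000) (5919/100000) (-3257/50000) (1447/50000) (583/6250) (-8339/100000) ((-249/10000)*A.T+(181/50000)*A.H+(579/50000)*A.G) (-739/6250) (401/4000) (-2547/100000) 0 0 (-4431/100000) ((787/50000)*A.T+(-1197/100000)*A.H+(23/25000)*A.G) (-1159/50000) (-1431/50000) (-1167/12500) (-1003/100000) 0 0 ((29/2500)*A.T+(1811/100000)*A.H+(27/2000)*A.G)) =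 nf26 A s := by
    unfold nf26 Atoms.fTens Atoms.fIP Atoms.fPV
    ring
  rw [← e]
  exact mul_nonneg (by norm_num) (ht _ _ _ _ _ _ _ _ _ _ _ _ _ _ _ _ _ _ _ _ _ _ _ _ _ _ _ _)

noncomputable def nf27 (A : Atoms) (s : ℝ) : ℝ :=
  (39/9765625)*A.Aqqq*A.G + (1537/1000000000)*A.Aqqq*A.H + (-6899/5000000000)*A.Aqqq*A.T + (-3823/1000000000)*A.Aqqx*A.G + (-797/78125000)*A.Aqqx*A.H + (-5431/1000000000)*A.Aqqx*A.T + (-13257/5000000000)*A.Aqxx*A.G + (12223/5000000000)*A.Aqxx*A.H + (7383/2500000000)*A.Aqxx*A.T + (-15183/5000000000)*A.Axxx*A.G + (743/625000000)*A.Axxx*A.H + (-27107/5000000000)*A.Axxx*A.T + (68417/2500000000)*A.G^3 + (93377/5000000000)*A.G^2*A.H + (590447/6250000000)*A.G^2*A.T + (-2813/125000000)*A.G*A.H^2 + (251927/5000000000)*A.G*A.H*A.T + (17/400000000)*A.G*A.HH + (1/2500000)*A.G*A.HM + (863/5000000000)*A.G*A.HN + (457/400000000)*A.G*A.MM + (1061/1250000000)*A.G*A.MN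 + (1769/10000000000)*A.G*A.NN + (165659/2000000000)*A.G*A.T^2 + (-297/2500000000)*A.G*A.pqq + (-8677/2500000000)*A.G*A.pqx + (-1449/1000000000)*A.G*A.pxx + (32003/5000000000)*A.H^3 + (-733811/25000000000)*A.H^2*A.T + (537/5000000000)*A.H*A.HH + (2421/2500000000)*A.H*A.HM + (-593/5000000000)*A.H*A.HN + (4193/5000000000)*A.H*A.MM + (-8429/5000000000)*A.H*A.MN + (-959/1250000000)*A.H*A.NN + (15271/390625000)*A.H*A.T^2 + (1403/1000000000)*A.H*A.pqq + (-9619/5000000000)*A.H*A.pqx + (783/1250000000)*A.H*A.pxx + (901/5000000000)*A.HH*A.T + (653/2500000000)*A.HM*A.T + (-1727/2500000000)*A.HN*A.T + (809/5000000000)*A.MM*A.T + (-1881/2500000000)*A.MN*A.T + (449/500000000)*A.NN*A.T + (27969/3125000000)*A.T^3 + (-7133/5000000000)*A.T*A.pqq + (-14089/2500000000)*A.T*A.pqx + (-1089/1250000000)*A.T*A.pxx + (-451/5000000000)*A.b11 + (-867/5000000000)*A.b12 + (-19/625000000)*A.b22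 + (-803/2500000000)*A.bc11 + (2813/5000000000)*A.bc12 + (899/2500000000)*A.bc13 + (-3821/5000000000)*A.bc21 + (-1907/2500000000)*A.bc22 + (-169/1250000000)*A.bc23 + (-759/5000000000)*A.c11 + (-521/5000000000)*A.c12 + (2531/1250000000)*A.c13 + (-11687/5000000000)*A.c22 + (-561/5000000000)*A.c23 + (-37/250000000)*A.c33

lemma chunk27 (A : Atoms) (s : ℝ) (ht : ∀ a1 a2 a3 a4 a5 a6 a7 b1 b2 b3 b4 b5 b6 b7 c1 c2 c3 c4 c5 c6 c7 d1 d2 d3 d4 d5 d6 d7 : ℝ,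
      0 ≤ A.fTens a1 a2 a3 a4 a5 a6 a7 b1 b2 b3 b4 b5 b6 b7 c1 c2 c3 c4 c5 c6 c7 d1 d2 d3 d4 d5 d6 d7)
    (hv : ∀ z1 z2 z3 z4 z5 z6 z7 : ℝ, 0 ≤ A.fPV z1 z2 z3 z4 z5 z6 z7 z1 z2 z3 z4 z5 z6 z7) :
    0 ≤ nf27 A s := by
  have e : 1 * (A.fTens (-41/100000) (-23/100000) (33/50000) (29/100000) (17/25000) (-7/12500) ((-137/100000)*A.T+(-19/100000)*A.H+(-43/50000)*A.G) (-1/12500) (-79/100000) (-1/5000) (-161/100000) (3/6250) (-1/12500) ((-291/100000)*A.T+(21/100000)*A.H+(-271/100000)*A.G) (11/100000) (33/100000) (-17/25000) 0 0 (79/100000) ((29/25000)*A.T+(39/100000)*A.H+(103/100000)*A.G) (19/100000) (9/12500) (37/100000) (139/100000) 0 0 ((141/50000)*A.T+(-11/100000)*A.H+(251/100000)*A.G)) = nf27 A s := by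
    unfold nf27 Atoms.fTens Atoms.fIP Atoms.fPV
    ring
  rw [← e]
  exact mul_nonneg (by norm_num) (ht _ _ _ _ _ _ _ _ _ _ _ _ _ _ _ _ _ _ _ _ _ _ _ _ _ _ _ _)

noncomputable def nf28 (A : Atoms) (s : ℝ) : ℝ :=
  (8323/1250000000)*A.Aqqq*A.G + (-417/78125000)*A.Aqqq*A.H + (-3/9765625)*A.Aqqq*A.T + (-36457/2500000000)*A.Aqqx*A.G + (22861/2500000000)*A.Aqqx*A.H + (41/12500000)*A.Aqqx*A.T + (5571/625000000)*A.Aqxx*A.G + (116331/5000000000)*A.Aqxx*A.H + (-9983/2500000000)*A.Aqxx*A.T + (-1/25000000)*A.Axxx*A.G + (6491/5000000000)*A.Axxx*A.H + (-9743/1000000000)*A.Axxx*A.T + (79661/10000000000)*A.G^3 + (-1179/1250000000)*A.G^2*A.H + (-958281/100000000000)*A.G^2*A.T + (390531/20000000000)*A.G*A.H^2 + (-647527/50000000000)*A.G*A.H*A.T + (9769/2500000000)*A.G*A.HH + (3003/625000000)*A.G*A.HM + (2813/2500000000)*A.G*A.HN + (3733/2500000000)*A.G*A.MM + (1079/1250000000)*A.G*A.MN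 + (1069/2000000000)*A.G*A.NN + (106159/50000000000)*A.G*A.T^2 + (1941/250000000)*A.G*A.pqq + (-2437/500000000)*A.G*A.pqx + (2219/312500000)*A.G*A.pxx + (153559/10000000000)*A.H^3 + (-146749/12500000000)*A.H^2*A.T + (-7209/2500000000)*A.H*A.HH + (-11477/2500000000)*A.H*A.HM + (211/40000000)*A.H*A.HN + (-17/9765625)*A.H*A.MM + (3719/1250000000)*A.H*A.MN + (1077/2500000000)*A.H*A.NN + (22397/2500000000)*A.H*A.T^2 + (-28137/5000000000)*A.H*A.pqq + (1833/2000000000)*A.H*A.pqx + (4337/1250000000)*A.H*A.pxx + (2669/5000000000)*A.HH*A.T + (163/156250000)*A.HM*A.T + (-657/312500000)*A.HN*A.T + (1/1953125)*A.MM*A.T + (-159/78125000)*A.MN*A.T + (2637/1250000000)*A.NN*A.T + (3607/2500000000)*A.T^3 + (-833/2500000000)*A.T*A.pqq + (3813/1250000000)*A.T*A.pqx + (-789/10000000000)*A.T*A.pxx + (-2331/5000000000)*A.b11 + (6091/2500000000)*A.b12 + (-99/31250000)*A.b22 + (-137/156250000)*A.bc11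 + (133/31250000)*A.bc12 + (-261/50000000)*A.bc13 + (699/500000000)*A.bc21 + (-18893/5000000000)*A.bc22 + (101/156250000)*A.bc23 + (-4/9765625)*A.c11 + (31/9765625)*A.c12 + (-3819/1250000000)*A.c13 + (-4123/1250000000)*A.c22 + (803/1250000000)*A.c23 + (329/625000000)*A.c33

lemma chunk28 (A : Atoms) (s : ℝ) (ht : ∀ a1 a2 a3 a4 a5 a6 a7 b1 b2 b3 b4 b5 b6 b7 c1 c2 c3 c4 c5 c6 c7 d1 d2 d3 d4 d5 d6 d7 : ℝ,
      0 ≤ A.fTens a1 a2 a3 a4 a5 a6 a7 b1 b2 b3 b4 b5 b6 b7 c1 c2 c3 c4 c5 c6 c7 d1 d2 d3 d4 d5 d6 d7)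
    (hv : ∀ z1 z2 z3 z4 z5 z6 z7 : ℝ, 0 ≤ A.fPV z1 z2 z3 z4 z5 z6 z7 z1 z2 z3 z4 z5 z6 z7) :
    0 ≤ nf28 A s := by
  have e : 1 * (A.fTens (-37/100000) (-1/3125) (9/10000) (-1/6250) (-19/50000) (-223/100000) ((3/50000)*A.T+(-23/12500)*A.H+(27/10000)*A.G) (9/10000) (11/25000) (-47/100000) (21/100000) (37/100000) (-9/100000) ((83/100000)*A.T+(-181/50000)*A.H+(-23/20000)*A.G) (63/100000) (2/3125) (-57/50000) 0 0 (239/100000) ((11/25000)*A.T+(23/6250)*A.H+(-17/6250)*A.G) (-11/6250) (-57/50000) (-7/12500) (-37/100000) 0 0 ((-57/50000)*A.T+(107/50000)*A.H+(161/100000)*A.G)) = nf28 A s := by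
    unfold nf28 Atoms.fTens Atoms.fIP Atoms.fPV
    ring
  rw [← e]
  exact mul_nonneg (by norm_num) (ht _ _ _ _ _ _ _ _ _ _ _ _ _ _ _ _ _ _ _ _ _ _ _ _ _ _ _ _)

noncomputable def nf29 (A : Atoms) (s : ℝ) : ℝ :=
  (-1477/500000000)*A.Aqqq*A.G + (-15963/5000000000)*A.Aqqq*A.H + (1471/2500000000)*A.Aqqq*A.T + (104041/10000000000)*A.Aqqx*A.G + (-671/200000000)*A.Aqqx*A.H + (3179/1250000000)*A.Aqqx*A.T + (24081/1250000000)*A.Aqxx*A.G + (-52383/10000000000)*A.Aqxx*A.H + (6799/5000000000)*A.Aqxx*A.T + (-5847/1250000000)*A.Axxx*A.G + (-4329/1250000000)*A.Axxx*A.H + (319/625000000)*A.Axxx*A.T + (60833/10000000000)*A.G^3 + (-36539/1250000000)*A.G^2*A.H + (8073813/100000000000)*A.G^2*A.T + (-1254013/20000000000)*A.G*A.H^2 + (1844061/25000000000)*A.G*A.H*A.T + (409/2000000000)*A.G*A.HH + (507/5000000000)*A.G*A.HM + (471/500000000)*A.G*A.HN + (2817/10000000000)*A.G*A.MM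 + (3687/2500000000)*A.G*A.MN + (629/250000000)*A.G*A.NN + (-185637/10000000000)*A.G*A.T^2 + (-10479/5000000000)*A.G*A.pqq + (23881/10000000000)*A.G*A.pqx + (-1509/5000000000)*A.G*A.pxx + (-4483/200000000)*A.H^3 + (119171/6250000000)*A.H^2*A.T + (1079/2500000000)*A.H*A.HH + (-79/1250000000)*A.H*A.HM + (-363/500000000)*A.H*A.HN + (-141/312500000)*A.H*A.MM + (-3297/2500000000)*A.H*A.MN + (-7351/2500000000)*A.H*A.NN + (-84481/12500000000)*A.H*A.T^2 + (-2319/1000000000)*A.H*A.pqq + (-271/1250000000)*A.H*A.pqx + (3417/10000000000)*A.H*A.pxx + (349/1250000000)*A.HH*A.T + (683/2500000000)*A.HM*A.T + (-2997/2500000000)*A.HN*A.T + (2081/10000000000)*A.MM*A.T + (-507/5000000000)*A.MN*A.T + (17033/10000000000)*A.NN*A.T + (38263/25000000000)*A.T^3 + (-1813/2500000000)*A.T*A.pqq + (-969/2500000000)*A.T*A.pqx + (289/125000000)*A.T*A.pxx + (299/1250000000)*A.b11 + (1189/2500000000)*A.b12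 + (481/2500000000)*A.b22 + (73/2500000000)*A.bc11 + (-5897/5000000000)*A.bc12 + (-5391/5000000000)*A.bc13 + (429/2500000000)*A.bc21 + (2889/2500000000)*A.bc22 + (1299/2500000000)*A.bc23 + (-41/250000000)*A.c11 + (-933/5000000000)*A.c12 + (1419/5000000000)*A.c13 + (6587/2500000000)*A.c22 + (-409/156250000)*A.c23 + (-1463/1250000000)*A.c33

lemma chunk29 (A : Atoms) (s : ℝ) (ht : ∀ a1 a2 a3 a4 a5 a6 a7 b1 b2 b3 b4 b5 b6 b7 c1 c2 c3 c4 c5 c6 c7 d1 d2 d3 d4 d5 d6 d7 : ℝ,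
      0 ≤ A.fTens a1 a2 a3 a4 a5 a6 a7 b1 b2 b3 b4 b5 b6 b7 c1 c2 c3 c4 c5 c6 c7 d1 d2 d3 d4 d5 d6 d7)
    (hv : ∀ z1 z2 z3 z4 z5 z6 z7 : ℝ, 0 ≤ A.fPV z1 z2 z3 z4 z5 z6 z7 z1 z2 z3 z4 z5 z6 z7) :
    0 ≤ nf29 A s := by
  have e : 1 * (A.fTens (-23/50000) (-41/100000) (67/100000) (59/100000) (1/12500) (-9/3125) ((21/25000)*A.T+(-77/50000)*A.H+(-141/50000)*A.G) (-13/50000) (9/25000) (19/50000) (109/100000) (27/100000) (29/100000) ((-51/100000)*A.T+(-37/100000)*A.H+(47/50000)*A.G) (-13/50000) (1/5000) (7/6250) 0 0 (21/20000) ((-61/100000)*A.T+(177/100000)*A.H+(73/20000)*A.G) (-37/100000) (-39/100000) (-77/50000) (-53/100000) 0 0 ((19/100000)*A.T+(13/50000)*A.H+(-73/50000)*A.G)) = nf29 A s := by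
    unfold nf29 Atoms.fTens Atoms.fIP Atoms.fPV
    ring
  rw [← e]
  exact mul_nonneg (by norm_num) (ht _ _ _ _ _ _ _ _ _ _ _ _ _ _ _ _ _ _ _ _ _ _ _ _ _ _ _ _)

noncomputable def nf30 (A : Atoms) (s : ℝ) : ℝ :=
  (-14757/10000000000)*A.Aqqq*A.G + (-67/31250000)*A.Aqqq*A.H + (-1323/1250000000)*A.Aqqq*A.T + (141573/10000000000)*A.Aqqx*A.G + (7191/5000000000)*A.Aqqx*A.H + (89417/5000000000)*A.Aqqx*A.T + (5857/1250000000)*A.Aqxx*A.G + (-40613/1000000000)*A.Aqxx*A.H + (18903/2000000000)*A.Aqxx*A.T + (991/500000000)*A.Axxx*A.G + (773/50000000)*A.Axxx*A.H + (-187253/10000000000)*A.Axxx*A.T + (57077/10000000000)*A.G^3 + (-11409/5000000000)*A.G^2*A.H + (3621863/100000000000)*A.G^2*A.T + (-163823/4000000000)*A.G*A.H^2 + (148989/6250000000)*A.G*A.H*A.T + (11141/10000000000)*A.G*A.HH + (461/1250000000)*A.G*A.HM + (20509/5000000000)*A.G*A.HN + (137/2000000000)*A.G*A.MM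 + (2073/2500000000)*A.G*A.MN + (39241/10000000000)*A.G*A.NN + (853363/100000000000)*A.G*A.T^2 + (-52037/5000000000)*A.G*A.pqq + (49563/5000000000)*A.G*A.pqx + (653/500000000)*A.G*A.pxx + (-15733/625000000)*A.H^3 + (-1791763/100000000000)*A.H^2*A.T + (17379/5000000000)*A.H*A.HH + (899/1000000000)*A.H*A.HM + (-263/1250000000)*A.H*A.HN + (-13/2500000000)*A.H*A.MM + (-2049/5000000000)*A.H*A.MN + (-58807/5000000000)*A.H*A.NN + (139437/12500000000)*A.H*A.T^2 + (-24793/2000000000)*A.H*A.pqq + (104487/10000000000)*A.H*A.pqx + (1001/200000000)*A.H*A.pxx + (549/200000000)*A.HH*A.T + (171/250000000)*A.HM*A.T + (-25389/2500000000)*A.HN*A.T + (17/250000000)*A.MM*A.T + (-1519/1250000000)*A.MN*A.T + (47089/5000000000)*A.NN*A.T + (47833/10000000000)*A.T^3 + (-24753/2500000000)*A.T*A.pqq + (-50347/10000000000)*A.T*A.pqx + (125407/10000000000)*A.T*A.pxx + (13653/5000000000)*A.b11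 + (17487/5000000000)*A.b12 + (553/500000000)*A.b22 + (783/1250000000)*A.bc11 + (-6073/625000000)*A.bc12 + (-32333/5000000000)*A.bc13 + (573/1000000000)*A.bc21 + (8429/1250000000)*A.bc22 + (1987/500000000)*A.bc23 + (13/1250000000)*A.c11 + (-2703/2500000000)*A.c12 + (-4991/5000000000)*A.c13 + (51657/5000000000)*A.c22 + (-709/62500000)*A.c23 + (171/50000000)*A.c33

lemma chunk30 (A : Atoms) (s : ℝ) (ht : ∀ a1 a2 a3 a4 a5 a6 a7 b1 b2 b3 b4 b5 b6 b7 c1 c2 c3 c4 c5 c6 c7 d1 d2 d3 d4 d5 d6 d7 : ℝ,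
      0 ≤ A.fTens a1 a2 a3 a4 a5 a6 a7 b1 b2 b3 b4 b5 b6 b7 c1 c2 c3 c4 c5 c6 c7 d1 d2 d3 d4 d5 d6 d7)
    (hv : ∀ z1 z2 z3 z4 z5 z6 z7 : ℝ, 0 ≤ A.fPV z1 z2 z3 z4 z5 z6 z7 z1 z2 z3 z4 z5 z6 z7) :
    0 ≤ nf30 A s := by
  have e : 1 * (A.fTens (111/100000) (1/50000) (-217/100000) (-197/100000) (-111/100000) (7/6250) ((3/25000)*A.T+(-107/100000)*A.H+(-67/25000)*A.G) (79/100000) (13/50000) (171/100000) (-1/4000) (209/100000) (-9/20000) ((1/5000)*A.T+(3/50000)*A.H+(127/100000)*A.G) (123/100000) (13/50000) (-217/100000) 0 0 (131/50000) ((-11/25000)*A.T+(-1/12500)*A.H+(-73/100000)*A.G) (7/10000) (-3/100000) (1/1000) (-73/100000) 0 0 ((3/6250)*A.T+(1/12500)*A.H+(11/20000)*A.G)) = nf30 A s := by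
    unfold nf30 Atoms.fTens Atoms.fIP Atoms.fPV
    ring
  rw [← e]
  exact mul_nonneg (by norm_num) (ht _ _ _ _ _ _ _ _ _ _ _ _ _ _ _ _ _ _ _ _ _ _ _ _ _ _ _ _)

noncomputable def nf31 (A : Atoms) (s : ℝ) : ℝ :=
  (-699/1000000000)*A.Aqqq*A.G + (-4791/5000000000)*A.Aqqq*A.H + (-189/1000000000)*A.Aqqq*A.T + (-36049/5000000000)*A.Aqqx*A.G + (-96559/5000000000)*A.Aqqx*A.H + (4763/2500000000)*A.Aqqx*A.T + (-5859/625000000)*A.Aqxx*A.G + (-23449/1250000000)*A.Aqxx*A.H + (-551/200000000)*A.Aqxx*A.T + (-9649/1250000000)*A.Axxx*A.G + (-49973/2500000000)*A.Axxx*A.H + (-30489/2500000000)*A.Axxx*A.T + (47801/10000000000)*A.G^3 + (4401/2500000000)*A.G^2*A.H + (39767/5000000000)*A.G^2*A.T + (6247/625000000)*A.G*A.H^2 + (16647/25000000000)*A.G*A.H*A.T + (19937/2000000000)*A.G*A.HH + (24937/2500000000)*A.G*A.HM + (829/50000000)*A.G*A.HN + (8573/2500000000)*A.G*A.MM + (6441/625000000)*A.G*A.MN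 + (997/125000000)*A.G*A.NN + (-136463/50000000000)*A.G*A.T^2 + (-8163/1000000000)*A.G*A.pqq + (-11451/5000000000)*A.G*A.pqx + (-52983/5000000000)*A.G*A.pxx + (-18961/2500000000)*A.H^3 + (-743039/50000000000)*A.H^2*A.T + (27147/5000000000)*A.H*A.HH + (10087/5000000000)*A.H*A.HM + (115703/5000000000)*A.H*A.HN + (-1163/2500000000)*A.H*A.MM + (24237/2500000000)*A.H*A.MN + (20817/1250000000)*A.H*A.NN + (-15153/25000000000)*A.H*A.T^2 + (-27659/5000000000)*A.H*A.pqq + (-3/800000)*A.H*A.pqx + (-4163/312500000)*A.H*A.pxx + (8793/10000000000)*A.HH*A.T + (957/5000000000)*A.HM*A.T + (25491/5000000000)*A.HN*A.T + (61/1000000000)*A.MM*A.T + (-31/312500000)*A.MN*A.T + (47521/5000000000)*A.NN*A.T + (12923/12500000000)*A.T^3 + (-1569/5000000000)*A.T*A.pqq + (6689/5000000000)*A.T*A.pqx + (-3623/625000000)*A.T*A.pxx + (279/1250000000)*A.b11 + (9159/2500000000)*A.b12 + (21951/2500000000)*A.b22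 + (-1797/5000000000)*A.bc11 + (8037/2500000000)*A.bc12 + (89171/5000000000)*A.bc13 + (4071/1250000000)*A.bc21 + (10159/625000000)*A.bc22 + (11071/625000000)*A.bc23 + (-273/5000000000)*A.c11 + (-1309/2500000000)*A.c12 + (28279/2500000000)*A.c13 + (58333/5000000000)*A.c22 + (33621/1250000000)*A.c23 + (301/39062500)*A.c33

lemma chunk31 (A : Atoms) (s : ℝ) (ht : ∀ a1 a2 a3 a4 a5 a6 a7 b1 b2 b3 b4 b5 b6 b7 c1 c2 c3 c4 c5 c6 c7 d1 d2 d3 d4 d5 d6 d7 : ℝ,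
      0 ≤ A.fTens a1 a2 a3 a4 a5 a6 a7 b1 b2 b3 b4 b5 b6 b7 c1 c2 c3 c4 c5 c6 c7 d1 d2 d3 d4 d5 d6 d7)
    (hv : ∀ z1 z2 z3 z4 z5 z6 z7 : ℝ, 0 ≤ A.fPV z1 z2 z3 z4 z5 z6 z7 z1 z2 z3 z4 z5 z6 z7) :
    0 ≤ nf31 A s := by
  have e : 1 * (A.fTens (-3/25000) (21/100000) (-179/100000) (1/20000) (-39/25000) (6/3125) ((1/6250)*A.T+(79/100000)*A.H+(-1/2500)*A.G) (-81/50000) (-41/25000) (-7/3125) (-61/100000) (-149/50000) (61/100000) ((2/3125)*A.T+(1/4000)*A.H+(11/10000)*A.G) (-93/100000) (-13/100000) (-251/100000) 0 0 (171/100000) ((-37/100000)*A.T+(31/50000)*A.H+(131/100000)*A.G) (-271/100000) (-43/50000) (-43/25000) (273/100000) 0 0 ((9/20000)*A.T+(101/100000)*A.H+(-1/5000)*A.G)) = nf31 A s := by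
    unfold nf31 Atoms.fTens Atoms.fIP Atoms.fPV
    ring
  rw [← e]
  exact mul_nonneg (by norm_num) (ht _ _ _ _ _ _ _ _ _ _ _ _ _ _ _ _ _ _ _ _ _ _ _ _ _ _ _ _)

noncomputable def nf32 (A : Atoms) (s : ℝ) : ℝ :=
  (-16194237/25000000)*A.Aqqq*A.G + (347670879/312500000)*A.Aqqq*A.H + (-232863843/312500000)*A.Aqqq*A.T + (2178835069/2500000000)*A.Aqqx*A.G + (-1673697961/1250000000)*A.Aqqx*A.H + (92122499/78125000)*A.Aqqx*A.T + (277268277/1250000000)*A.Aqqx*s + (-1626589067/2500000000)*A.Aqxx*A.G + (505919747/500000000)*A.Aqxx*A.H + (-4332970349/5000000000)*A.Aqxx*A.T + (-741910169/5000000000)*A.Aqxx*s + (302304147/1250000000)*A.Axxx*A.G + (-410276373/1250000000)*A.Axxx*A.H + (939165451/2500000000)*A.Axxx*A.T + (306041879/2500000000)*A.Axxx*s + (100580841/2500000000)*A.G^3 + (-71296161/312500000)*A.G^2*A.H + (266127089/1250000000)*A.G^2*A.T + (101824437/2500000000)*A.G^2*s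 + (1099542267/2500000000)*A.G*A.H^2 + (-495749471/625000000)*A.G*A.H*A.T + (-72177677/625000000)*A.G*A.H*s + (2993363049/10000000000)*A.G*A.T^2 + (316337021/5000000000)*A.G*A.T*s + (99489389/100000000)*A.G*A.pqq + (-2176683017/2500000000)*A.G*A.pqx + (20890407/156250000)*A.G*A.pxx + (103083409/10000000000)*A.G*s^2 + (-173281641/625000000)*A.H^3 + (952938483/1250000000)*A.H^2*A.T + (129257843/1250000000)*A.H^2*s + (-699904687/1250000000)*A.H*A.T^2 + (-86574631/1250000000)*A.H*A.T*s + (-2135918063/1250000000)*A.H*A.pqq + (3132155839/2500000000)*A.H*A.pqx + (-28351713/156250000)*A.H*A.pxx + (72709729/625000000)*A.T^3 + (1430600371/1250000000)*A.T*A.pqq + (-1272810957/1000000000)*A.T*A.pqx + (64900031/312500000)*A.T*A.pxx + (28147779529/10000000000)*A.b11 + (-349471159/312500000)*A.b12 + (4338889/39062500)*A.b22 + (-4581712857/1250000000)*A.bc11 + (12259676429/5000000000)*A.bc12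 + (-5057181539/2500000000)*A.bc13 + (56884647/78125000)*A.bc21 + (-152211059/312500000)*A.bc22 + (62787869/156250000)*A.bc23 + (745781481/625000000)*A.c11 + (-1995550557/1250000000)*A.c12 + (823175187/625000000)*A.c13 + (5339663329/10000000000)*A.c22 + (-2202639439/2500000000)*A.c23 + (908600449/2500000000)*A.c33 + (-1703399269/5000000000)*A.pqx*s + (21148699/312500000)*A.pxx*s

lemma chunk32 (A : Atoms) (s : ℝ) (ht : ∀ a1 a2 a3 a4 a5 a6 a7 b1 b2 b3 b4 b5 b6 b7 c1 c2 c3 c4 c5 c6 c7 d1 d2 d3 d4 d5 d6 d7 : ℝ,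
      0 ≤ A.fTens a1 a2 a3 a4 a5 a6 a7 b1 b2 b3 b4 b5 b6 b7 c1 c2 c3 c4 c5 c6 c7 d1 d2 d3 d4 d5 d6 d7)
    (hv : ∀ z1 z2 z3 z4 z5 z6 z7 : ℝ, 0 ≤ A.fPV z1 z2 z3 z4 z5 z6 z7 z1 z2 z3 z4 z5 z6 z7) :
    0 ≤ nf32 A s := by
  have e : 1 * (A.fPV (167773/100000) (-2083/6250) (-27309/25000) (73073/100000) (-30143/50000) ((8527/25000)*A.T+(-12731/25000)*A.H+(593/2000)*A.G) ((-31157/100000)*A.T+(13611/50000)*A.H+(-10029/50000)*A.G+(-10153/100000)*s) (167773/100000) (-2083/6250) (-27309/25000) (73073/100000) (-30143/50000) ((8527/25000)*A.T+(-12731/25000)*A.H+(593/2000)*A.G) ((-31157/100000)*A.T+(13611/50000)*A.H+(-10029/50000)*A.G+(-10153/100000)*s)) = nf32 A s := by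
    unfold nf32 Atoms.fPV
    ring
  rw [← e]
  exact mul_nonneg (by norm_num) (hv _ _ _ _ _ _ _)

noncomputable def nf33 (A : Atoms) (s : ℝ) : ℝ :=
  (296354091/2500000000)*A.Aqqq*A.G + (-197850543/2500000000)*A.Aqqq*A.H + (-52307541/1250000000)*A.Aqqq*A.T + (630043901/5000000000)*A.Aqqx*A.G + (14597483/5000000000)*A.Aqqx*A.H + (866853/31250000)*A.Aqqx*A.T + (-9305571/2500000000)*A.Aqqx*s + (-1688778041/5000000000)*A.Aqxx*A.G + (1856715611/5000000000)*A.Aqxx*A.H + (1201219903/5000000000)*A.Aqxx*A.T + (-31184801/5000000000)*A.Aqxx*s + (66184391/500000000)*A.Axxx*A.G + (-154396641/625000000)*A.Axxx*A.H + (-891851051/5000000000)*A.Axxx*A.T + (33923911/5000000000)*A.Axxx*s + (1723969/100000000)*A.G^3 + (-60315281/500000000)*A.G^2*A.H + (-5244691/10000000000)*A.G^2*A.T + (883649/500000000)*A.G^2*s + (101329441/500000000)*A.G*A.H^2 + (151355031/1250000000)*A.G*A.H*A.T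 + (-30915601/5000000000)*A.G*A.H*s + (-11281907/10000000000)*A.G*A.T^2 + (-11907389/5000000000)*A.G*A.T*s + (-454958291/2500000000)*A.G*A.pqq + (-874496277/5000000000)*A.G*A.pqx + (87720217/500000000)*A.G*A.pxx + (452929/10000000000)*A.G*s^2 + (-43828467/625000000)*A.H^3 + (-672385321/10000000000)*A.H^2*A.T + (9629957/5000000000)*A.H^2*s + (-1600209/312500000)*A.H*A.T^2 + (2545959/2500000000)*A.H*A.T*s + (303737143/2500000000)*A.H*A.pqq + (-16864567/1000000000)*A.H*A.pqx + (-204635967/625000000)*A.H*A.pxx + (14311089/2500000000)*A.T^3 + (80301741/1250000000)*A.T*A.pqq + (-7676929/156250000)*A.T*A.pqx + (-1182051637/5000000000)*A.T*A.pxx + (450585529/2500000000)*A.b11 + (1418154643/2500000000)*A.b12 + (4463442481/10000000000)*A.b22 + (-293505729/1250000000)*A.bc11 + (-983595499/2500000000)*A.bc12 + (1069989389/2500000000)*A.bc13 + (-923768043/2500000000)*A.bc21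 + (-3095728633/5000000000)*A.bc22 + (3367641263/5000000000)*A.bc23 + (191185929/2500000000)*A.c11 + (640701699/2500000000)*A.c12 + (-696977589/2500000000)*A.c13 + (2147117569/10000000000)*A.c22 + (-2335709159/5000000000)*A.c23 + (2540865649/10000000000)*A.c33 + (14285771/2500000000)*A.pqx*s + (44962457/5000000000)*A.pxx*s

lemma chunk33 (A : Atoms) (s : ℝ) (ht : ∀ a1 a2 a3 a4 a5 a6 a7 b1 b2 b3 b4 b5 b6 b7 c1 c2 c3 c4 c5 c6 c7 d1 d2 d3 d4 d5 d6 d7 : ℝ,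
      0 ≤ A.fTens a1 a2 a3 a4 a5 a6 a7 b1 b2 b3 b4 b5 b6 b7 c1 c2 c3 c4 c5 c6 c7 d1 d2 d3 d4 d5 d6 d7)
    (hv : ∀ z1 z2 z3 z4 z5 z6 z7 : ℝ, 0 ≤ A.fPV z1 z2 z3 z4 z5 z6 z7 z1 z2 z3 z4 z5 z6 z7) :
    0 ≤ nf33 A s := by
  have e : 1 * (A.fPV (21227/50000) (66809/100000) (-13827/50000) (-46337/100000) (50407/100000) ((3783/50000)*A.T+(14309/100000)*A.H+(-21433/100000)*A.G) ((-17693/100000)*A.T+(-3063/12500)*A.H+(1313/10000)*A.G+(673/100000)*s) (21227/50000) (66809/100000) (-13827/50000) (-46337/100000) (50407/100000) ((3783/50000)*A.T+(14309/100000)*A.H+(-21433/100000)*A.G) ((-17693/100000)*A.T+(-3063/12500)*A.H+(1313/10000)*A.G+(673/100000)*s)) = nf33 A s := by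
    unfold nf33 Atoms.fPV
    ring
  rw [← e]
  exact mul_nonneg (by norm_num) (hv _ _ _ _ _ _ _)

noncomputable def nf34 (A : Atoms) (s : ℝ) : ℝ :=
  (130019739/5000000000)*A.Aqqq*A.G + (-103335339/5000000000)*A.Aqqq*A.H + (-32710627/500000000)*A.Aqqq*A.T + (-27448411/625000000)*A.Aqqx*A.G + (785743/1000000000)*A.Aqqx*A.H + (-23723791/2500000000)*A.Aqqx*A.T + (466977/2500000000)*A.Aqqx*s + (-6208357/1000000000)*A.Aqxx*A.G + (10145263/2500000000)*A.Aqxx*A.H + (7836453/625000000)*A.Aqxx*A.T + (11991/2500000000)*A.Aqxx*s + (173633/20000000)*A.Axxx*A.G + (-16021/62500000)*A.Axxx*A.H + (190087/125000000)*A.Axxx*A.T + (-9093/250000000)*A.Axxx*s + (160801/16000000)*A.G^3 + (-2463343/200000000)*A.G^2*A.H + (69395209/10000000000)*A.G^2*A.T + (-8421/100000000)*A.G^2*s + (9672139/1000000000)*A.G*A.H^2 + (109509633/5000000000)*A.G*A.H*A.T + (129003/2500000000)*A.G*A.H*s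 + (-42233801/2500000000)*A.G*A.T^2 + (-9219/625000000)*A.G*A.T*s + (80098053/5000000000)*A.G*A.pqq + (-77038211/5000000000)*A.G*A.pqx + (-516889/25000000)*A.G*A.pxx + (441/2500000000)*A.G*s^2 + (-171939/625000000)*A.H^3 + (29206553/10000000000)*A.H^2*A.T + (-97587/2500000000)*A.H^2*s + (9418813/500000000)*A.H*A.T^2 + (-30891/250000000)*A.H*A.T*s + (-63659253/5000000000)*A.H*A.pqq + (-68539/7812500)*A.H*A.pqx + (47693/78125000)*A.H*A.pxx + (2163841/100000000)*A.T^3 + (-20151229/500000000)*A.T*A.pqq + (-43936241/1250000000)*A.T*A.pqx + (-565871/156250000)*A.T*A.pxx + (187662601/10000000000)*A.b11 + (17658011/625000000)*A.b12 + (1661521/156250000)*A.b22 + (304624663/5000000000)*A.bc11 + (7822129/5000000000)*A.bc12 + (-5931667/500000000)*A.bc13 + (28663493/625000000)*A.bc21 + (736019/625000000)*A.bc22 + (-558137/62500000)*A.bc23 + (494484169/10000000000)*A.c11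 + (12697327/5000000000)*A.c12 + (-9628621/500000000)*A.c13 + (326041/10000000000)*A.c22 + (-247243/500000000)*A.c23 + (187489/100000000)*A.c33 + (287679/2500000000)*A.pqx*s + (27069/312500000)*A.pxx*s

lemma chunk34 (A : Atoms) (s : ℝ) (ht : ∀ a1 a2 a3 a4 a5 a6 a7 b1 b2 b3 b4 b5 b6 b7 c1 c2 c3 c4 c5 c6 c7 d1 d2 d3 d4 d5 d6 d7 : ℝ,
      0 ≤ A.fTens a1 a2 a3 a4 a5 a6 a7 b1 b2 b3 b4 b5 b6 b7 c1 c2 c3 c4 c5 c6 c7 d1 d2 d3 d4 d5 d6 d7)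
    (hv : ∀ z1 z2 z3 z4 z5 z6 z7 : ℝ, 0 ≤ A.fPV z1 z2 z3 z4 z5 z6 z7 z1 z2 z3 z4 z5 z6 z7) :
    0 ≤ nf34 A s := by
  have e : 1 * (A.fPV (13699/100000) (1289/12500) (22237/100000) (571/100000) (-433/10000) ((-1471/10000)*A.T+(-4647/100000)*A.H+(5847/100000)*A.G) ((-439/25000)*A.T+(37/12500)*A.H+(-401/4000)*A.G+(21/50000)*s) (13699/100000) (1289/12500) (22237/100000) (571/100000) (-433/10000) ((-1471/10000)*A.T+(-4647/100000)*A.H+(5847/100000)*A.G) ((-439/25000)*A.T+(37/12500)*A.H+(-401/4000)*A.G+(21/50000)*s)) = nf34 A s := by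
    unfold nf34 Atoms.fPV
    ring
  rw [← e]
  exact mul_nonneg (by norm_num) (hv _ _ _ _ _ _ _)

noncomputable def nf35 (A : Atoms) (s : ℝ) : ℝ :=
  (2398503/5000000000)*A.Aqqq*A.G + (-356497/5000000000)*A.Aqqq*A.H + (-172463/5000000000)*A.Aqqq*A.T + (-64351/9765625)*A.Aqqx*A.G + (2215629/5000000000)*A.Aqqx*A.H + (4424501/5000000000)*A.Aqqx*A.T + (1653/200000000)*A.Aqqx*s + (-1653199/500000000)*A.Aqxx*A.G + (20140179/2500000000)*A.Aqxx*A.H + (-13901719/2500000000)*A.Aqxx*A.T + (-5829/50000000)*A.Aqxx*s + (-187267/625000000)*A.Axxx*A.G + (476807/500000000)*A.Axxx*A.H + (-337641/500000000)*A.Axxx*A.T + (-1401/100000000)*A.Axxx*s + (160801/625000000)*A.G^3 + (-18847/78125000)*A.G^2*A.H + (30545529/10000000000)*A.G^2*A.T + (1203/50000000)*A.G^2*s + (-20458681/10000000000)*A.G*A.H^2 + (-6036923/5000000000)*A.G*A.H*A.T + (-141/12500000)*A.G*A.H*s + (10343247/10000000000)*A.G*A.T^2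 + (2169/40000000)*A.G*A.T*s + (2616153/1000000000)*A.G*A.pqq + (-21415511/5000000000)*A.G*A.pqx + (-2416827/1250000000)*A.G*A.pxx + (9/16000000)*A.G*s^2 + (660587/1000000000)*A.H^3 + (-1063471/10000000000)*A.H^2*A.T + (-1941/200000000)*A.H^2*s + (-116123/625000000)*A.H*A.T^2 + (-939/200000000)*A.H*A.T*s + (-388847/1000000000)*A.H*A.pqq + (-357533/156250000)*A.H*A.pqx + (6153567/1000000000)*A.H*A.pxx + (97969/10000000000)*A.T^3 + (-188113/1000000000)*A.T*A.pqq + (6374763/2500000000)*A.T*A.pqx + (-4357521/1000000000)*A.T*A.pxx + (361201/400000000)*A.b11 + (-3622227/1000000000)*A.b12 + (36324729/10000000000)*A.b22 + (331151/1000000000)*A.bc11 + (-1167743/250000000)*A.bc12 + (-280667/500000000)*A.bc13 + (-3320877/5000000000)*A.bc21 + (11710461/1250000000)*A.bc22 + (2814609/2500000000)*A.bc23 + (303601/10000000000)*A.c11 + (-1070593/1250000000)*A.c12 + (-257317/2500000000)*A.c13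 + (3775249/625000000)*A.c22 + (907381/625000000)*A.c23 + (218089/2500000000)*A.c33 + (1803/40000000)*A.pqx*s + (-18081/200000000)*A.pxx*s

lemma chunk35 (A : Atoms) (s : ℝ) (ht : ∀ a1 a2 a3 a4 a5 a6 a7 b1 b2 b3 b4 b5 b6 b7 c1 c2 c3 c4 c5 c6 c7 d1 d2 d3 d4 d5 d6 d7 : ℝ,
      0 ≤ A.fTens a1 a2 a3 a4 a5 a6 a7 b1 b2 b3 b4 b5 b6 b7 c1 c2 c3 c4 c5 c6 c7 d1 d2 d3 d4 d5 d6 d7)
    (hv : ∀ z1 z2 z3 z4 z5 z6 z7 : ℝ, 0 ≤ A.fPV z1 z2 z3 z4 z5 z6 z7 z1 z2 z3 z4 z5 z6 z7) :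
    0 ≤ nf35 A s := by
  have e : 1 * (A.fPV (-601/20000) (6027/100000) (-551/100000) (1943/25000) (467/50000) ((313/100000)*A.T+(647/100000)*A.H+(-4353/100000)*A.G) ((-723/20000)*A.T+(1021/20000)*A.H+(-401/25000)*A.G+(-3/4000)*s) (-601/20000) (6027/100000) (-551/100000) (1943/25000) (467/50000) ((313/100000)*A.T+(647/100000)*A.H+(-4353/100000)*A.G) ((-723/20000)*A.T+(1021/20000)*A.H+(-401/25000)*A.G+(-3/4000)*s)) = nf35 A s := by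
    unfold nf35 Atoms.fPV
    ring
  rw [← e]
  exact mul_nonneg (by norm_num) (hv _ _ _ _ _ _ _)

noncomputable def nf36 (A : Atoms) (s : ℝ) : ℝ :=
  (-51813/62500000)*A.Aqqq*A.G + (-1758309/625000000)*A.Aqqq*A.H + (-128169/125000000)*A.Aqqq*A.T + (-19929/625000000)*A.Aqqx*A.G + (-2409827/312500000)*A.Aqqx*A.H + (-1370583/625000000)*A.Aqqx*A.T + (-303/625000000)*A.Aqqx*s + (1007117/1250000000)*A.Aqxx*A.G + (-7264971/500000000)*A.Aqxx*A.H + (-9733167/2500000000)*A.Aqxx*A.T + (-43/39062500)*A.Aqxx*s + (3790281/500000000)*A.Axxx*A.G + (-271089/50000000)*A.Axxx*A.H + (277047/500000000)*A.Axxx*A.T + (-993/500000000)*A.Axxx*s + (14569489/10000000000)*A.G^3 + (-423687/125000000)*A.G^2*A.H + (2526993/5000000000)*A.G^2*A.T + (-3817/5000000000)*A.G^2*s + (-13755301/5000000000)*A.G*A.H^2 + (122283/1000000000)*A.G*A.H*A.T + (111/125000000)*A.G*A.H*s + (7311141/10000000000)*A.G*A.T^2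 + (-279/5000000000)*A.G*A.T*s + (-302499/500000000)*A.G*A.pqq + (14513963/5000000000)*A.G*A.pqx + (-17325363/5000000000)*A.G*A.pxx + (1/10000000000)*A.G*s^2 + (1584219/500000000)*A.H^3 + (8396927/2000000000)*A.H^2*A.T + (5803/5000000000)*A.H^2*s + (584163/250000000)*A.H*A.T^2 + (423/1000000000)*A.H*A.T*s + (-10265507/5000000000)*A.H*A.pqq + (21510447/5000000000)*A.H*A.pqx + (1239147/500000000)*A.H*A.pxx + (178929/400000000)*A.T^3 + (-748287/1000000000)*A.T*A.pqq + (315423/156250000)*A.T*A.pqx + (-1266381/5000000000)*A.T*A.pxx + (3129361/10000000000)*A.b11 + (-8029491/5000000000)*A.b12 + (20602521/10000000000)*A.b22 + (536007/625000000)*A.bc11 + (76067/39062500)*A.bc12 + (1756617/500000000)*A.bc13 + (-1375317/625000000)*A.bc21 + (-195177/39062500)*A.bc22 + (-4507227/500000000)*A.bc23 + (91809/156250000)*A.c11 + (26058/9765625)*A.c12 + (300879/62500000)*A.c13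 + (29584/9765625)*A.c22 + (42699/3906250)*A.c23 + (986049/100000000)*A.c33 + (-1769/5000000000)*A.pqx*s + (4539/5000000000)*A.pxx*s

lemma chunk36 (A : Atoms) (s : ℝ) (ht : ∀ a1 a2 a3 a4 a5 a6 a7 b1 b2 b3 b4 b5 b6 b7 c1 c2 c3 c4 c5 c6 c7 d1 d2 d3 d4 d5 d6 d7 : ℝ,
      0 ≤ A.fTens a1 a2 a3 a4 a5 a6 a7 b1 b2 b3 b4 b5 b6 b7 c1 c2 c3 c4 c5 c6 c7 d1 d2 d3 d4 d5 d6 d7)
    (hv : ∀ z1 z2 z3 z4 z5 z6 z7 : ℝ, 0 ≤ A.fPV z1 z2 z3 z4 z5 z6 z7 z1 z2 z3 z4 z5 z6 z7) :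
    0 ≤ nf36 A s := by
  have e : 1 * (A.fPV (1769/100000) (-4539/100000) (303/12500) (172/3125) (993/10000) ((-423/20000)*A.T+(-5803/100000)*A.H+(-171/10000)*A.G) ((279/100000)*A.T+(-273/10000)*A.H+(3817/100000)*A.G+(-1/100000)*s) (1769/100000) (-4539/100000) (303/12500) (172/3125) (993/10000) ((-423/20000)*A.T+(-5803/100000)*A.H+(-171/10000)*A.G) ((279/100000)*A.T+(-273/10000)*A.H+(3817/100000)*A.G+(-1/100000)*s)) = nf36 A s := by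
    unfold nf36 Atoms.fPV
    ring
  rw [← e]
  exact mul_nonneg (by norm_num) (hv _ _ _ _ _ _ _)

noncomputable def nf37 (A : Atoms) (s : ℝ) : ℝ :=
  (4263/625000000)*A.Aqqq*A.G + (-1073/125000000)*A.Aqqq*A.H + (7163/312500000)*A.Aqqq*A.T + (-15323/2500000000)*A.Aqqx*A.G + (19389/2500000000)*A.Aqqx*A.H + (-24457/1250000000)*A.Aqqx*A.T + (9457/2500000000)*A.Aqxx*A.G + (-5973/1250000000)*A.Aqxx*A.H + (30691/2500000000)*A.Aqxx*A.T + (-287/250000000)*A.Axxx*A.G + (3649/2500000000)*A.Axxx*A.H + (-8733/2500000000)*A.Axxx*A.T + (49/100000000)*A.G^3 + (-413/125000000)*A.G^2*A.H + (51429/10000000000)*A.G^2*A.T + (59987/10000000000)*A.G*A.H^2 + (-112043/5000000000)*A.G*A.H*A.T + (38121/2000000000)*A.G*A.T^2 + (-1617/2500000000)*A.G*A.pqq + (1687/5000000000)*A.G*A.pqx + (-7/500000000)*A.G*A.pxx + (-3293/1000000000)*A.H^3 + (200967/10000000000)*A.H^2*A.T + (-49153/1250000000)*A.H*A.T^2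 + (407/500000000)*A.H*A.pqq + (-2143/5000000000)*A.H*A.pqx + (89/5000000000)*A.H*A.pxx + (61009/2500000000)*A.T^3 + (-2717/1250000000)*A.T*A.pqq + (259/250000000)*A.T*A.pqx + (-213/5000000000)*A.T*A.pxx + (121/2500000000)*A.b11 + (-11/2500000000)*A.b12 + (1/10000000000)*A.b22 + (-319/312500000)*A.bc11 + (539/1250000000)*A.bc12 + (-451/1250000000)*A.bc13 + (29/625000000)*A.bc21 + (-49/2500000000)*A.bc22 + (41/2500000000)*A.bc23 + (841/156250000)*A.c11 + (-1421/312500000)*A.c12 + (1189/312500000)*A.c13 + (2401/2500000000)*A.c22 + (-2009/1250000000)*A.c23 + (1681/2500000000)*A.c33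

lemma chunk37 (A : Atoms) (s : ℝ) (ht : ∀ a1 a2 a3 a4 a5 a6 a7 b1 b2 b3 b4 b5 b6 b7 c1 c2 c3 c4 c5 c6 c7 d1 d2 d3 d4 d5 d6 d7 : ℝ,
      0 ≤ A.fTens a1 a2 a3 a4 a5 a6 a7 b1 b2 b3 b4 b5 b6 b7 c1 c2 c3 c4 c5 c6 c7 d1 d2 d3 d4 d5 d6 d7)
    (hv : ∀ z1 z2 z3 z4 z5 z6 z7 : ℝ, 0 ≤ A.fPV z1 z2 z3 z4 z5 z6 z7 z1 z2 z3 z4 z5 z6 z7) :
    0 ≤ nf37 A s := by
  have e : 1 * (A.fPV (-11/50000) (1/100000) (29/12500) (-49/50000) (41/50000) ((247/50000)*A.T+(-37/20000)*A.H+(147/100000)*A.G) ((-213/100000)*A.T+(89/100000)*A.H+(-7/10000)*A.G) (-11/50000) (1/100000) (29/12500) (-49/50000) (41/50000) ((247/50000)*A.T+(-37/20000)*A.H+(147/100000)*A.G) ((-213/100000)*A.T+(89/100000)*A.H+(-7/10000)*A.G)) = nf37 A s := by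
    unfold nf37 Atoms.fPV
    ring
  rw [← e]
  exact mul_nonneg (by norm_num) (hv _ _ _ _ _ _ _)

noncomputable def nf38 (A : Atoms) (s : ℝ) : ℝ :=
  (-3283/1000000000)*A.Aqqq*A.G + (33859/1000000000)*A.Aqqq*A.H + (11221/1000000000)*A.Aqqq*A.T + (-17721/2500000000)*A.Aqqx*A.G + (49243/2500000000)*A.Aqqx*A.H + (-39/78125000)*A.Aqqx*A.T + (-1549/1250000000)*A.Aqxx*A.G + (-46647/625000000)*A.Aqxx*A.H + (-90589/2500000000)*A.Aqxx*A.T + (819/1000000000)*A.Axxx*A.G + (85293/5000000000)*A.Axxx*A.H + (9009/1000000000)*A.Axxx*A.T + (49/400000000)*A.G^3 + (1393/250000000)*A.G^2*A.H + (31439/10000000000)*A.G^2*A.T + (580757/10000000000)*A.G*A.H^2 + (63037/1250000000)*A.G*A.H*A.T + (117539/10000000000)*A.G*A.T^2 + (-8509/5000000000)*A.G*A.pqq + (1389/1000000000)*A.G*A.pqx + (119/100000000)*A.G*A.pxx + (-503739/5000000000)*A.H^3 + (-388471/10000000000)*A.H^2*A.T + (35037/2500000000)*A.H*A.T^2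 + (87757/5000000000)*A.H*A.pqq + (-210053/5000000000)*A.H*A.pqx + (12393/500000000)*A.H*A.pxx + (52441/10000000000)*A.T^3 + (29083/5000000000)*A.T*A.pqq + (-3513/200000000)*A.T*A.pqx + (1309/100000000)*A.T*A.pxx + (16129/10000000000)*A.b11 + (-2159/500000000)*A.b12 + (289/100000000)*A.b22 + (6223/1000000000)*A.bc11 + (50927/5000000000)*A.bc12 + (-14859/5000000000)*A.bc13 + (-833/100000000)*A.bc21 + (-6817/500000000)*A.bc22 + (1989/500000000)*A.bc23 + (2401/400000000)*A.c11 + (19649/1000000000)*A.c12 + (-5733/1000000000)*A.c13 + (160801/10000000000)*A.c22 + (-46917/5000000000)*A.c23 + (13689/10000000000)*A.c33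

lemma chunk38 (A : Atoms) (s : ℝ) (ht : ∀ a1 a2 a3 a4 a5 a6 a7 b1 b2 b3 b4 b5 b6 b7 c1 c2 c3 c4 c5 c6 c7 d1 d2 d3 d4 d5 d6 d7 : ℝ,
      0 ≤ A.fTens a1 a2 a3 a4 a5 a6 a7 b1 b2 b3 b4 b5 b6 b7 c1 c2 c3 c4 c5 c6 c7 d1 d2 d3 d4 d5 d6 d7)
    (hv : ∀ z1 z2 z3 z4 z5 z6 z7 : ℝ, 0 ≤ A.fPV z1 z2 z3 z4 z5 z6 z7 z1 z2 z3 z4 z5 z6 z7) :
    0 ≤ nf38 A s := by
  have e : 1 * (A.fPV (127/100000) (-17/10000) (49/20000) (401/100000) (-117/100000) ((229/100000)*A.T+(691/100000)*A.H+(-67/100000)*A.G) ((-77/20000)*A.T+(-729/100000)*A.H+(-7/20000)*A.G) (127/100000) (-17/10000) (49/20000) (401/100000) (-117/100000) ((229/100000)*A.T+(691/100000)*A.H+(-67/100000)*A.G) ((-77/20000)*A.T+(-729/100000)*A.H+(-7/20000)*A.G)) = nf38 A s := by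
    unfold nf38 Atoms.fPV
    ring
  rw [← e]
  exact mul_nonneg (by norm_num) (hv _ _ _ _ _ _ _)

noncomputable def nf39 (A : Atoms) (s : ℝ) : ℝ :=
  (-6519/500000000)*A.Aqqq*A.G + (-16359/2500000000)*A.Aqqq*A.H + (7011/5000000000)*A.Aqqq*A.T + (78519/5000000000)*A.Aqqx*A.G + (873/312500000)*A.Aqqx*A.H + (-6399/2500000000)*A.Aqqx*A.T + (75193/2500000000)*A.Aqxx*A.G + (48907/2500000000)*A.Aqxx*A.H + (-12351/5000000000)*A.Aqxx*A.T + (-55187/5000000000)*A.Axxx*A.G + (957/125000000)*A.Axxx*A.H + (8613/2500000000)*A.Axxx*A.T + (29929/10000000000)*A.G^3 + (-2249/100000000)*A.G^2*A.H + (32777/1250000000)*A.G^2*A.T + (12391/2500000000)*A.G*A.H^2 + (185941/5000000000)*A.G*A.H*A.T + (-1797/312500000)*A.G*A.T^2 + (-53/12500000)*A.G*A.pqq + (361/100000000)*A.G*A.pqx + (-3633/5000000000)*A.G*A.pxx + (399/62500000)*A.H^3 + (21451/2500000000)*A.H^2*A.T + (-57/15625000)*A.H*A.T^2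 + (-133/62500000)*A.H*A.pqq + (393/2500000000)*A.H*A.pqx + (63/125000000)*A.H*A.pxx + (3249/10000000000)*A.T^3 + (57/125000000)*A.T*A.pqq + (-3357/5000000000)*A.T*A.pqx + (567/2500000000)*A.T*A.pxx + (1/6250000)*A.b11 + (-21/125000000)*A.b12 + (441/10000000000)*A.b22 + (123/125000000)*A.bc11 + (-27/31250000)*A.bc12 + (-319/125000000)*A.bc13 + (-2583/5000000000)*A.bc21 + (567/1250000000)*A.bc22 + (6699/5000000000)*A.bc23 + (15129/10000000000)*A.c11 + (-3321/1250000000)*A.c12 + (-39237/5000000000)*A.c13 + (729/625000000)*A.c22 + (8613/1250000000)*A.c23 + (101761/10000000000)*A.c33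

lemma chunk39 (A : Atoms) (s : ℝ) (ht : ∀ a1 a2 a3 a4 a5 a6 a7 b1 b2 b3 b4 b5 b6 b7 c1 c2 c3 c4 c5 c6 c7 d1 d2 d3 d4 d5 d6 d7 : ℝ,
      0 ≤ A.fTens a1 a2 a3 a4 a5 a6 a7 b1 b2 b3 b4 b5 b6 b7 c1 c2 c3 c4 c5 c6 c7 d1 d2 d3 d4 d5 d6 d7)
    (hv : ∀ z1 z2 z3 z4 z5 z6 z7 : ℝ, 0 ≤ A.fPV z1 z2 z3 z4 z5 z6 z7 z1 z2 z3 z4 z5 z6 z7) :
    0 ≤ nf39 A s := by
  have e : 1 * (A.fPV (-1/2500) (21/100000) (-123/100000) (27/25000) (319/100000) ((-57/100000)*A.T+(133/50000)*A.H+(53/10000)*A.G) ((27/50000)*A.T+(3/2500)*A.H+(-173/100000)*A.G) (-1/2500) (21/100000) (-123/100000) (27/25000) (319/100000) ((-57/100000)*A.T+(133/50000)*A.H+(53/10000)*A.G) ((27/50000)*A.T+(3/2500)*A.H+(-173/100000)*A.G)) = nf39 A s := by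
    unfold nf39 Atoms.fPV
    ring
  rw [← e]
  exact mul_nonneg (by norm_num) (hv _ _ _ _ _ _ _)

noncomputable def nf40 (A : Atoms) (s : ℝ) : ℝ :=
  (1521/500000000)*A.Aqqq*A.G + (117/125000000)*A.Aqqq*A.H + (11583/2500000000)*A.Aqqq*A.T + (66547/5000000000)*A.Aqqx*A.G + (2687/2500000000)*A.Aqqx*A.H + (40977/2500000000)*A.Aqqx*A.T + (54377/5000000000)*A.Aqxx*A.G + (-3703/2500000000)*A.Aqxx*A.H + (5181/500000000)*A.Aqxx*A.T + (-36461/5000000000)*A.Axxx*A.G + (909/2500000000)*A.Axxx*A.H + (-303/39062500)*A.Axxx*A.T + (130321/10000000000)*A.G^3 + (2527/312500000)*A.G^2*A.H + (73537/2500000000)*A.G^2*A.T + (6131/2500000000)*A.G*A.H^2 + (59843/2500000000)*A.G*A.H*A.T + (24867/1250000000)*A.G*A.T^2 + (949/500000000)*A.G*A.pqq + (57813/5000000000)*A.G*A.pqx + (43681/2500000000)*A.G*A.pxx + (-9/62500000)*A.H^3 + (3149/1250000000)*A.H^2*A.T + (5247/312500000)*A.H*A.T^2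 + (73/125000000)*A.H*A.pqq + (4183/2500000000)*A.H*A.pqx + (-1089/1250000000)*A.H*A.pxx + (9801/2500000000)*A.T^3 + (7227/2500000000)*A.T*A.pqq + (18987/1250000000)*A.T*A.pqx + (363/19531250)*A.T*A.pxx + (5329/10000000000)*A.b11 + (8833/2500000000)*A.b12 + (14641/2500000000)*A.b22 + (8541/5000000000)*A.bc11 + (13651/5000000000)*A.bc12 + (-7373/5000000000)*A.bc13 + (14157/2500000000)*A.bc21 + (22627/2500000000)*A.bc22 + (-12221/2500000000)*A.bc23 + (13689/10000000000)*A.c11 + (21879/5000000000)*A.c12 + (-11817/5000000000)*A.c13 + (34969/10000000000)*A.c22 + (-18887/5000000000)*A.c23 + (10201/10000000000)*A.c33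

lemma chunk40 (A : Atoms) (s : ℝ) (ht : ∀ a1 a2 a3 a4 a5 a6 a7 b1 b2 b3 b4 b5 b6 b7 c1 c2 c3 c4 c5 c6 c7 d1 d2 d3 d4 d5 d6 d7 : ℝ,
      0 ≤ A.fTens a1 a2 a3 a4 a5 a6 a7 b1 b2 b3 b4 b5 b6 b7 c1 c2 c3 c4 c5 c6 c7 d1 d2 d3 d4 d5 d6 d7)
    (hv : ∀ z1 z2 z3 z4 z5 z6 z7 : ℝ, 0 ≤ A.fPV z1 z2 z3 z4 z5 z6 z7 z1 z2 z3 z4 z5 z6 z7) :
    0 ≤ nf40 A s := by
  have e : 1 * (A.fPV (73/100000) (121/50000) (117/100000) (187/100000) (-101/100000) ((99/50000)*A.T+(1/2500)*A.H+(13/10000)*A.G) ((12/3125)*A.T+(-9/50000)*A.H+(361/100000)*A.G) (73/100000) (121/50000) (117/100000) (187/100000) (-101/100000) ((99/50000)*A.T+(1/2500)*A.H+(13/10000)*A.G) ((12/3125)*A.T+(-9/50000)*A.H+(361/100000)*A.G)) = nf40 A s := by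
    unfold nf40 Atoms.fPV
    ring
  rw [← e]
  exact mul_nonneg (by norm_num) (hv _ _ _ _ _ _ _)

noncomputable def nf41 (A : Atoms) (s : ℝ) : ℝ :=
  (-21109/2500000000)*A.Aqqq*A.G + (16511/1000000000)*A.Aqqq*A.H + (1881/2500000000)*A.Aqqq*A.T + (2057/156250000)*A.Aqqx*A.G + (54197/5000000000)*A.Aqqx*A.H + (-4059/5000000000)*A.Aqqx*A.T + (-4537/500000000)*A.Aqxx*A.G + (-8589/2500000000)*A.Aqxx*A.H + (2997/5000000000)*A.Aqxx*A.T + (5247/1250000000)*A.Axxx*A.G + (3233/312500000)*A.Axxx*A.H + (-477/2500000000)*A.Axxx*A.T + (9801/2500000000)*A.G^3 + (14157/1250000000)*A.G^2*A.H + (931/250000000)*A.G^2*A.T + (49353/2500000000)*A.G*A.H^2 + (-197/12500000)*A.G*A.H*A.T + (-7191/10000000000)*A.G*A.T^2 + (-27169/2500000000)*A.G*A.pqq + (53093/2500000000)*A.G*A.pqx + (-12969/1250000000)*A.G*A.pxx + (4819/125000000)*A.H^3 + (166483/10000000000)*A.H^2*A.T + (1737/1250000000)*A.H*A.T^2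 + (21251/1000000000)*A.H*A.pqq + (13891/2500000000)*A.H*A.pqx + (-7991/312500000)*A.H*A.pxx + (81/2500000000)*A.T^3 + (2421/2500000000)*A.T*A.pqq + (-7137/5000000000)*A.T*A.pqx + (1179/2500000000)*A.T*A.pxx + (72361/10000000000)*A.b11 + (-35239/2500000000)*A.b12 + (17161/2500000000)*A.b22 + (56221/5000000000)*A.bc11 + (-32549/5000000000)*A.bc12 + (14257/2500000000)*A.bc13 + (-27379/2500000000)*A.bc21 + (15851/2500000000)*A.bc22 + (-6943/1250000000)*A.bc23 + (43681/10000000000)*A.c11 + (-25289/5000000000)*A.c12 + (11077/2500000000)*A.c13 + (14641/10000000000)*A.c22 + (-6413/2500000000)*A.c23 + (2809/2500000000)*A.c33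

lemma chunk41 (A : Atoms) (s : ℝ) (ht : ∀ a1 a2 a3 a4 a5 a6 a7 b1 b2 b3 b4 b5 b6 b7 c1 c2 c3 c4 c5 c6 c7 d1 d2 d3 d4 d5 d6 d7 : ℝ,
      0 ≤ A.fTens a1 a2 a3 a4 a5 a6 a7 b1 b2 b3 b4 b5 b6 b7 c1 c2 c3 c4 c5 c6 c7 d1 d2 d3 d4 d5 d6 d7)
    (hv : ∀ z1 z2 z3 z4 z5 z6 z7 : ℝ, 0 ≤ A.fPV z1 z2 z3 z4 z5 z6 z7 z1 z2 z3 z4 z5 z6 z7) :
    0 ≤ nf41 A s := by
  have e : 1 * (A.fPV (269/100000) (-131/50000) (209/100000) (-121/100000) (53/50000) ((9/50000)*A.T+(79/20000)*A.H+(-101/50000)*A.G) ((-9/100000)*A.T+(61/12500)*A.H+(99/50000)*A.G) (269/100000) (-131/50000) (209/100000) (-121/100000) (53/50000) ((9/50000)*A.T+(79/20000)*A.H+(-101/50000)*A.G) ((-9/100000)*A.T+(61/12500)*A.H+(99/50000)*A.G)) = nf41 A s := by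
    unfold nf41 Atoms.fPV
    ring
  rw [← e]
  exact mul_nonneg (by norm_num) (hv _ _ _ _ _ _ _)

noncomputable def nf42 (A : Atoms) (s : ℝ) : ℝ :=
  (-58479/2500000000)*A.Aqqq*A.G + (20503/5000000000)*A.Aqqq*A.H + (92819/5000000000)*A.Aqqq*A.T + (-38883/500000000)*A.Aqqx*A.G + (4317/2500000000)*A.Aqqx*A.H + (337527/5000000000)*A.Aqqx*A.T + (-483411/2500000000)*A.Aqxx*A.G + (81077/5000000000)*A.Aqxx*A.H + (810271/5000000000)*A.Aqxx*A.T + (-119067/500000000)*A.Axxx*A.G + (-15093/625000000)*A.Axxx*A.H + (1105143/5000000000)*A.Axxx*A.T + (45369/100000000)*A.G^3 + (146331/250000000)*A.G^2*A.H + (-221283/312500000)*A.G^2*A.T + (-79467/2500000000)*A.G*A.H^2 + (-2454471/2500000000)*A.G*A.H*A.T + (14241/80000000)*A.G*A.T^2 + (-28371/312500000)*A.G*A.pqq + (-15663/125000000)*A.G*A.pqx + (1917/25000000)*A.G*A.pxx + (-5481/625000000)*A.H^3 + (446863/10000000000)*A.H^2*A.T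 + (100171/250000000)*A.H*A.T^2 + (9947/625000000)*A.H*A.pqq + (-30303/1250000000)*A.H*A.pqx + (243/31250000)*A.H*A.pxx + (844561/10000000000)*A.T^3 + (45031/625000000)*A.T*A.pqq + (152391/1250000000)*A.T*A.pqx + (-17793/250000000)*A.T*A.pxx + (2401/156250000)*A.b11 + (-441/31250000)*A.b12 + (81/25000000)*A.b22 + (4949/625000000)*A.bc11 + (147/12500000)*A.bc12 + (27391/625000000)*A.bc13 + (-909/250000000)*A.bc21 + (-27/5000000)*A.bc22 + (-5031/250000000)*A.bc23 + (10201/10000000000)*A.c11 + (303/100000000)*A.c12 + (56459/5000000000)*A.c13 + (9/4000000)*A.c22 + (1677/100000000)*A.c23 + (312481/10000000000)*A.c33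

lemma chunk42 (A : Atoms) (s : ℝ) (ht : ∀ a1 a2 a3 a4 a5 a6 a7 b1 b2 b3 b4 b5 b6 b7 c1 c2 c3 c4 c5 c6 c7 d1 d2 d3 d4 d5 d6 d7 : ℝ,
      0 ≤ A.fTens a1 a2 a3 a4 a5 a6 a7 b1 b2 b3 b4 b5 b6 b7 c1 c2 c3 c4 c5 c6 c7 d1 d2 d3 d4 d5 d6 d7)
    (hv : ∀ z1 z2 z3 z4 z5 z6 z7 : ℝ, 0 ≤ A.fPV z1 z2 z3 z4 z5 z6 z7 z1 z2 z3 z4 z5 z6 z7) :
    0 ≤ nf42 A s := by
  have e : 1 * (A.fPV (-49/12500) (9/5000) (-101/100000) (-3/2000) (-559/100000) ((-919/100000)*A.T+(-203/100000)*A.H+(579/50000)*A.G) ((-1977/100000)*A.T+(27/12500)*A.H+(213/10000)*A.G) (-49/12500) (9/5000) (-101/100000) (-3/2000) (-559/100000) ((-919/100000)*A.T+(-203/100000)*A.H+(579/50000)*A.G) ((-1977/100000)*A.T+(27/12500)*A.H+(213/10000)*A.G)) = nf42 A s := by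
    unfold nf42 Atoms.fPV
    ring
  rw [← e]
  exact mul_nonneg (by norm_num) (hv _ _ _ _ _ _ _)

noncomputable def nf43 (A : Atoms) (s : ℝ) : ℝ :=
  (-39291491/5000000000)*A.Aqqq*A.G + (5467921/312500000)*A.Aqqq*A.H + (-29692549/2500000000)*A.Aqqq*A.T + (10146131/625000000)*A.Aqqx*A.G + (-163695613/5000000000)*A.Aqqx*A.H + (3642877/156250000)*A.Aqqx*A.T + (-186724823/100000000)*A.Aqqx*s + (-33893751/2500000000)*A.Aqxx*A.G + (134193247/5000000000)*A.Aqxx*A.H + (-24113069/1250000000)*A.Aqxx*A.T + (183512413/100000000)*A.Aqxx*s + (5624361/1000000000)*A.Axxx*A.G + (-10271571/1000000000)*A.Axxx*A.H + (3846759/500000000)*A.Axxx*A.T + (-24679689/20000000)*A.Axxx*s + (10131489/10000000000)*A.G^3 + (-1741101/312500000)*A.G^2*A.H + (7271057/2000000000)*A.G^2*A.T + (-44456961/100000000)*A.G^2*s + (109618887/10000000000)*A.G*A.H^2 + (-7147791/500000000)*A.G*A.H*A.T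 + (7639949/6250000)*A.G*A.H*s + (352089/78125000)*A.G*A.T^2 + (-30406159/50000000)*A.G*A.T*s + (13334243/1250000000)*A.G*A.pqq + (-7208977/500000000)*A.G*A.pqx + (7756971/2500000000)*A.G*A.pxx + (195077089/4000000)*A.G*s^2 + (-2377517/312500000)*A.H^3 + (7572589/500000000)*A.H^2*A.T + (-5712503/6250000)*A.H^2*s + (-12102229/1250000000)*A.H*A.T^2 + (31020707/50000000)*A.H*A.T*s + (-1855633/78125000)*A.H*A.pqq + (6869489/250000000)*A.H*A.pqx + (-14166281/2500000000)*A.H*A.pxx + (4932841/2500000000)*A.T^3 + (10076677/625000000)*A.T*A.pqq + (-1006667/50000000)*A.T*A.pqx + (5305349/1250000000)*A.T*A.pxx + (20584369/625000000)*A.b11 + (-11056669/625000000)*A.b12 + (5938969/2500000000)*A.b22 + (-60655153/1250000000)*A.bc11 + (59611643/1250000000)*A.bc12 + (-8016879/250000000)*A.bc13 + (32580253/2500000000)*A.bc21 + (-32019743/2500000000)*A.bc22 + (4306179/500000000)*A.bc23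 + (178730161/10000000000)*A.c11 + (-175655291/5000000000)*A.c12 + (23623023/1000000000)*A.c13 + (172633321/10000000000)*A.c22 + (-23216613/1000000000)*A.c23 + (3122289/400000000)*A.c33 + (63368279/25000000)*A.pqx*s + (-34037579/50000000)*A.pxx*s

lemma chunk43 (A : Atoms) (s : ℝ) (ht : ∀ a1 a2 a3 a4 a5 a6 a7 b1 b2 b3 b4 b5 b6 b7 c1 c2 c3 c4 c5 c6 c7 d1 d2 d3 d4 d5 d6 d7 : ℝ,
      0 ≤ A.fTens a1 a2 a3 a4 a5 a6 a7 b1 b2 b3 b4 b5 b6 b7 c1 c2 c3 c4 c5 c6 c7 d1 d2 d3 d4 d5 d6 d7)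
    (hv : ∀ z1 z2 z3 z4 z5 z6 z7 : ℝ, 0 ≤ A.fPV z1 z2 z3 z4 z5 z6 z7 z1 z2 z3 z4 z5 z6 z7) :
    0 ≤ nf43 A s := by
  have e : 1 * (A.fPV (4537/25000) (-2437/50000) (-13369/100000) (13139/100000) (-1767/20000) ((2221/50000)*A.T+(-409/6250)*A.H+(2939/100000)*A.G) ((-2177/50000)*A.T+(5813/100000)*A.H+(-3183/100000)*A.G+(13967/2000)*s) (4537/25000) (-2437/50000) (-13369/100000) (13139/100000) (-1767/20000) ((2221/50000)*A.T+(-409/6250)*A.H+(2939/100000)*A.G) ((-2177/50000)*A.T+(5813/100000)*A.H+(-3183/100000)*A.G+(13967/2000)*s)) = nf43 A s := by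
    unfold nf43 Atoms.fPV
    ring
  rw [← e]
  exact mul_nonneg (by norm_num) (hv _ _ _ _ _ _ _)

noncomputable def nf44 (A : Atoms) (s : ℝ) : ℝ :=
  (-35547/1250000000)*A.Aqqx*A.H + (309231243/16670000000000)*A.Aqxx*A.T + (35547/2500000000)*A.G^2*A.T + (2101/125000000)*A.G*A.HH + (2101/312500000)*A.G*A.MM + (12911/10000000000)*A.G*A.NN + (309231243/66680000000000)*A.G*A.T^2 + (309231243/66680000000000)*A.H^2*A.T + (-20859/5000000000)*A.H*A.MM + (-12911/5000000000)*A.H*A.NN + (205927/5000000000)*A.HH*A.T + (-14659/2500000000)*A.HN*A.T + (135819/5000000000)*A.MM*A.T + (9561/1250000000)*A.MN*A.T + (23101129/1333600000000)*A.NN*A.T + (90069/10000000000)*A.T^3 + (-90069/5000000000)*A.T*A.pqq + (-91609/10000000000)*A.b11 + (126109/5000000000)*A.b12 + (-3547/625000000)*A.bc11 + (41971/5000000000)*A.bc12 + (-46373/5000000000)*A.bc21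

lemma chunk44 (A : Atoms) (s : ℝ) (ht : ∀ a1 a2 a3 a4 a5 a6 a7 b1 b2 b3 b4 b5 b6 b7 c1 c2 c3 c4 c5 c6 c7 d1 d2 d3 d4 d5 d6 d7 : ℝ,
      0 ≤ A.fTens a1 a2 a3 a4 a5 a6 a7 b1 b2 b3 b4 b5 b6 b7 c1 c2 c3 c4 c5 c6 c7 d1 d2 d3 d4 d5 d6 d7)
    (hv : ∀ z1 z2 z3 z4 z5 z6 z7 : ℝ, 0 ≤ A.fPV z1 z2 z3 z4 z5 z6 z7 z1 z2 z3 z4 z5 z6 z7) :
    0 ≤ nf44 A s := by
  have e : (14659/5000000000) * (A.fTens 1 0 (-1) 0 0 0 0 0 0 0 0 0 0 0 0 0 0 0 0 0 0 0 0 0 0 0 0 0) +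
    ((90069/10000000000) * (A.fTens 1 0 0 (-1) 0 0 0 0 0 0 0 0 0 0 0 0 0 0 0 0 0 0 0 0 0 0 0 0) +
    ((91609/20000000000) * (A.fTens 1 0 0 0 0 0 0 0 0 0 0 0 0 0 (-1) 0 0 0 0 0 0 0 0 0 0 0 0 0) +
    ((3547/1250000000) * (A.fTens 1 0 0 0 0 0 0 0 0 0 0 0 0 0 0 (-1) 0 0 0 0 0 0 0 0 0 0 0 0) +
    ((126109/10000000000) * (A.fTens 1 0 0 0 0 0 0 0 0 0 0 0 0 0 0 0 0 0 0 0 0 1 0 0 0 0 0 0) +
    ((46373/10000000000) * (A.fTens 1 0 0 0 0 0 0 0 0 0 0 0 0 0 0 0 0 0 0 0 0 0 (-1) 0 0 0 0 0) +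
    ((9561/2500000000) * (A.fTens 0 1 1 0 0 0 0 0 0 0 0 0 0 0 0 0 0 0 0 0 0 0 0 0 0 0 0 0) +
    ((35547/2500000000) * (A.fTens 0 1 0 0 0 0 0 0 0 0 0 0 0 0 0 0 0 0 0 (-1) 0 0 0 0 0 0 0 0) +
    ((20859/10000000000) * (A.fTens 0 1 0 0 0 0 0 0 (-1) 0 0 0 0 0 0 0 0 0 0 0 0 0 0 0 0 0 0 0) +
    ((41971/10000000000) * (A.fTens 0 1 0 0 0 0 0 0 0 0 0 0 0 0 0 0 0 0 0 0 0 1 0 0 0 0 0 0) +
    ((309231243/33340000000000) * (A.fTens 0 0 1 0 1 0 0 0 0 0 0 0 0 0 0 0 0 0 0 0 0 0 0 0 0 0 0 0) +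
    ((12911/10000000000) * (A.fTens 0 0 1 0 0 0 0 0 0 (-1) 0 0 0 0 0 0 0 0 0 0 0 0 0 0 0 0 0 0)))))))))))) = nf44 A s := by
    unfold nf44 Atoms.fTens Atoms.fIP Atoms.fPV
    ring
  rw [← e]
  exact add_nonneg (mul_nonneg (by norm_num) (ht _ _ _ _ _ _ _ _ _ _ _ _ _ _ _ _ _ _ _ _ _ _ _ _ _ _ _ _)) (add_nonneg (mul_nonneg (by norm_num) (ht _ _ _ _ _ _ _ _ _ _ _ _ _ _ _ _ _ _ _ _ _ _ _ _ _ _ _ _)) (add_nonneg (mul_nonneg (by norm_num) (ht _ _ _ _ _ _ _ _ _ _ _ _ _ _ _ _ _ _ _ _ _ _ _ _ _ _ _ _)) (add_nonneg (mul_nonneg (by norm_num) (ht _ _ _ _ _ _ _ _ _ _ _ _ _ _ _ _ _ _ _ _ _ _ _ _ _ _ _ _)) (add_nonneg (mul_nonneg (by norm_num) (ht _ _ _ _ _ _ _ _ _ _ _ _ _ _ _ _ _ _ _ _ _ _ _ _ _ _ _ _)) (add_nonneg (mul_nonneg (by norm_num) (ht _ _ _ _ _ _ _ _ _ _ _ _ _ _ _ _ _ _ _ _ _ _ _ _ _ _ _ _)) (add_nonneg (mul_nonneg (by norm_num) (ht _ _ _ _ _ _ _ _ _ _ _ _ _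 _ _ _ _ _ _ _ _ _ _ _ _ _ _ _)) (add_nonneg (mul_nonneg (by norm_num) (ht _ _ _ _ _ _ _ _ _ _ _ _ _ _ _ _ _ _ _ _ _ _ _ _ _ _ _ _)) (add_nonneg (mul_nonneg (by norm_num) (ht _ _ _ _ _ _ _ _ _ _ _ _ _ _ _ _ _ _ _ _ _ _ _ _ _ _ _ _)) (add_nonneg (mul_nonneg (by norm_num) (ht _ _ _ _ _ _ _ _ _ _ _ _ _ _ _ _ _ _ _ _ _ _ _ _ _ _ _ _)) (add_nonneg (mul_nonneg (by norm_num) (ht _ _ _ _ _ _ _ _ _ _ _ _ _ _ _ _ _ _ _ _ _ _ _ _ _ _ _ _)) (mul_nonneg (by norm_num) (ht _ _ _ _ _ _ _ _ _ _ _ _ _ _ _ _ _ _ _ _ _ _ _ _ _ _ _ _))))))))))))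

noncomputable def nf45 (A : Atoms) (s : ℝ) : ℝ :=
  (66351/5000000000)*A.Aqqq*A.T + (18126113/3334000000000)*A.Aqxx*A.G + (93911/10000000000)*A.G^3 + (197444869/16670000000000)*A.G^2*A.T + (582599/20000000000)*A.G*A.HH + (6193/625000000)*A.G*A.MM + (134129263/33340000000000)*A.G*A.NN + (-18459/1250000000)*A.H*A.HH + (14433/1250000000)*A.H*A.HM + (-72033/10000000000)*A.H*A.pqq + (182519/10000000000)*A.H*A.pqx + (93911/5000000000)*A.H*A.pxx + (600321/20000000000)*A.HH*A.T + (20577/2500000000)*A.HM*A.T + (111597/5000000000)*A.MM*A.T + (177893/10000000000)*A.NN*A.T + (470139/20000000000)*A.T^3 + (24743/1000000000)*A.bc13 + (-57957/5000000000)*A.c12 + (-41131/5000000000)*A.c13 + (13047/5000000000)*A.c23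

lemma chunk45 (A : Atoms) (s : ℝ) (ht : ∀ a1 a2 a3 a4 a5 a6 a7 b1 b2 b3 b4 b5 b6 b7 c1 c2 c3 c4 c5 c6 c7 d1 d2 d3 d4 d5 d6 d7 : ℝ,
      0 ≤ A.fTens a1 a2 a3 a4 a5 a6 a7 b1 b2 b3 b4 b5 b6 b7 c1 c2 c3 c4 c5 c6 c7 d1 d2 d3 d4 d5 d6 d7)
    (hv : ∀ z1 z2 z3 z4 z5 z6 z7 : ℝ, 0 ≤ A.fPV z1 z2 z3 z4 z5 z6 z7 z1 z2 z3 z4 z5 z6 z7) :
    0 ≤ nf45 A s := by
  have e : (13047/10000000000) * (A.fTens 0 0 1 0 0 0 0 0 0 0 0 0 0 0 0 0 0 0 0 0 0 0 0 1 0 0 0 0) +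
    ((72033/20000000000) * (A.fTens 0 0 0 1 0 0 0 (-1) 0 0 0 0 0 0 0 0 0 0 0 0 0 0 0 0 0 0 0 0) +
    ((182519/20000000000) * (A.fTens 0 0 0 0 0 1 0 0 0 0 0 0 0 0 1 0 0 0 0 0 0 0 0 0 0 0 0 0) +
    ((18126113/6668000000000) * (A.fTens 0 0 0 0 0 1 0 0 0 0 0 0 0 0 0 0 0 0 0 0 0 0 0 1 0 0 0 0) +
    ((66351/10000000000) * (A.fTens 0 0 0 0 0 0 (1*A.T) 0 0 0 0 0 0 0 0 1 0 0 0 0 0 0 0 0 0 0 0 0) +
    ((20577/5000000000) * (A.fTens 0 0 0 0 0 0 0 0 0 0 0 0 0 0 1 1 0 0 0 0 0 0 0 0 0 0 0 0) +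
    ((93911/10000000000) * (A.fTens 0 0 0 0 0 0 0 0 0 0 0 0 1 0 1 0 0 0 0 0 0 0 0 0 0 0 0 0) +
    ((18459/2500000000) * (A.fTens 0 0 0 0 0 0 0 0 0 0 0 0 0 0 1 0 0 0 0 0 0 (-1) 0 0 0 0 0 0) +
    ((57957/10000000000) * (A.fTens 0 0 0 0 0 0 0 0 (-1) 0 0 0 0 0 0 1 0 0 0 0 0 0 0 0 0 0 0 0) +
    ((14433/2500000000) * (A.fTens 0 0 0 0 0 0 0 0 0 0 0 0 0 0 0 1 0 0 0 0 0 1 0 0 0 0 0 0) +
    ((24743/2000000000) * (A.fTens 0 0 0 0 0 0 0 1 0 0 0 0 0 0 0 0 1 0 0 0 0 0 0 0 0 0 0 0) +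
    ((41131/10000000000) * (A.fTens 0 0 0 0 0 0 0 0 (-1) 0 0 0 0 0 0 0 1 0 0 0 0 0 0 0 0 0 0 0)))))))))))) = nf45 A s := by
    unfold nf45 Atoms.fTens Atoms.fIP Atoms.fPV
    ring
  rw [← e]
  exact add_nonneg (mul_nonneg (by norm_num) (ht _ _ _ _ _ _ _ _ _ _ _ _ _ _ _ _ _ _ _ _ _ _ _ _ _ _ _ _)) (add_nonneg (mul_nonneg (by norm_num) (ht _ _ _ _ _ _ _ _ _ _ _ _ _ _ _ _ _ _ _ _ _ _ _ _ _ _ _ _)) (add_nonneg (mul_nonneg (by norm_num) (ht _ _ _ _ _ _ _ _ _ _ _ _ _ _ _ _ _ _ _ _ _ _ _ _ _ _ _ _)) (add_nonneg (mul_nonneg (by norm_num) (ht _ _ _ _ _ _ _ _ _ _ _ _ _ _ _ _ _ _ _ _ _ _ _ _ _ _ _ _)) (add_nonneg (mul_nonneg (by norm_num) (ht _ _ _ _ _ _ _ _ _ _ _ _ _ _ _ _ _ _ _ _ _ _ _ _ _ _ _ _)) (add_nonneg (mul_nonneg (by norm_num) (ht _ _ _ _ _ _ _ _ _ _ _ _ _ _ _ _ _ _ _ _ _ _ _ _ _ _ _ _)) (add_nonneg (mul_nonneg (by norm_num) (ht _ _ _ _ _ _ _ _ _ _ _ _ _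 _ _ _ _ _ _ _ _ _ _ _ _ _ _ _)) (add_nonneg (mul_nonneg (by norm_num) (ht _ _ _ _ _ _ _ _ _ _ _ _ _ _ _ _ _ _ _ _ _ _ _ _ _ _ _ _)) (add_nonneg (mul_nonneg (by norm_num) (ht _ _ _ _ _ _ _ _ _ _ _ _ _ _ _ _ _ _ _ _ _ _ _ _ _ _ _ _)) (add_nonneg (mul_nonneg (by norm_num) (ht _ _ _ _ _ _ _ _ _ _ _ _ _ _ _ _ _ _ _ _ _ _ _ _ _ _ _ _)) (add_nonneg (mul_nonneg (by norm_num) (ht _ _ _ _ _ _ _ _ _ _ _ _ _ _ _ _ _ _ _ _ _ _ _ _ _ _ _ _)) (mul_nonneg (by norm_num) (ht _ _ _ _ _ _ _ _ _ _ _ _ _ _ _ _ _ _ _ _ _ _ _ _ _ _ _ _))))))))))))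

noncomputable def nf46 (A : Atoms) (s : ℝ) : ℝ :=
  (37984979/4167500000000)*A.Axxx*A.G + (165497/10000000000)*A.Axxx*A.H + (-317836363/50010000000000)*A.Axxx*A.T + (113954937/8335000000000)*A.G^3 + (496491/20000000000)*A.G*A.H^2 + (33199991/1562812500000)*A.G*A.HH + (-16563/5000000000)*A.G*A.HM + (-129/312500000)*A.G*A.HN + (115991/5000000000)*A.G*A.MM + (16911/1250000000)*A.G*A.MN + (287315753/12502500000000)*A.G*A.NN + (327233523/8335000000000)*A.G*A.T^2 + (-5403/625000000)*A.G*A.pqq + (-4307/1000000000)*A.H*A.HN + (11/500000000)*A.H*A.MN + (4329/2000000000)*A.NN*A.T + (266217/20000000000)*A.T^3 + (88739/10000000000)*A.T*A.pqx + (-846988913/50010000000000)*A.T*A.pxx + (29533/2000000000)*A.c22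

lemma chunk46 (A : Atoms) (s : ℝ) (ht : ∀ a1 a2 a3 a4 a5 a6 a7 b1 b2 b3 b4 b5 b6 b7 c1 c2 c3 c4 c5 c6 c7 d1 d2 d3 d4 d5 d6 d7 : ℝ,
      0 ≤ A.fTens a1 a2 a3 a4 a5 a6 a7 b1 b2 b3 b4 b5 b6 b7 c1 c2 c3 c4 c5 c6 c7 d1 d2 d3 d4 d5 d6 d7)
    (hv : ∀ z1 z2 z3 z4 z5 z6 z7 : ℝ, 0 ≤ A.fPV z1 z2 z3 z4 z5 z6 z7 z1 z2 z3 z4 z5 z6 z7) :
    0 ≤ nf46 A s := by
  have e : (4307/2000000000) * (A.fTens 0 0 0 0 0 0 0 0 0 0 0 0 0 0 0 0 1 0 0 0 0 (-1) 0 0 0 0 0 0) +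
    ((11/1000000000) * (A.fTens 0 0 0 0 0 0 0 0 0 0 0 0 0 0 0 0 1 0 0 0 0 0 1 0 0 0 0 0) +
    ((88739/20000000000) * (A.fTens 0 0 0 0 0 0 0 1 0 0 0 0 0 0 0 0 0 0 0 0 (1*A.T) 0 0 0 0 0 0 0) +
    ((129/625000000) * (A.fTens 0 0 0 0 0 0 0 1 0 (-1) 0 0 0 0 0 0 0 0 0 0 0 0 0 0 0 0 0 0) +
    ((5403/1250000000) * (A.fTens 0 0 0 0 0 0 0 1 0 0 (-1) 0 0 0 0 0 0 0 0 0 0 0 0 0 0 0 0 0) +
    ((846988913/100020000000000) * (A.fTens 0 0 0 0 0 0 0 1 0 0 0 0 0 0 0 0 0 0 0 0 0 0 0 0 0 0 0 ((-1)*A.T)) +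
    ((29533/4000000000) * (A.fTens 0 0 0 0 0 0 0 0 1 0 0 0 0 0 0 0 0 0 0 0 0 0 1 0 0 0 0 0) +
    ((317836363/100020000000000) * (A.fTens 0 0 0 0 0 0 0 0 0 1 0 0 0 0 0 0 0 0 0 0 0 0 0 0 0 0 0 ((-1)*A.T)) +
    ((165497/20000000000) * (A.fTens 0 0 0 0 0 0 0 0 0 1 0 0 0 0 0 0 0 0 0 0 0 0 0 0 0 0 0 (1*A.H)) +
    ((37984979/8335000000000) * (A.fTens 0 0 0 0 0 0 0 0 0 0 0 0 0 (1*A.G) 0 0 0 0 0 0 0 0 0 1 0 0 0 0) +
    ((16563/10000000000) * (A.fTens 0 0 0 0 0 0 0 0 0 0 0 0 0 0 0 0 0 0 0 0 0 1 (-1) 0 0 0 0 0) +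
    ((16911/2500000000) * (A.fTens 0 0 0 0 0 0 0 0 0 0 0 0 0 0 0 0 0 0 0 0 0 0 1 1 0 0 0 0)))))))))))) = nf46 A s := by
    unfold nf46 Atoms.fTens Atoms.fIP Atoms.fPV
    ring
  rw [← e]
  exact add_nonneg (mul_nonneg (by norm_num) (ht _ _ _ _ _ _ _ _ _ _ _ _ _ _ _ _ _ _ _ _ _ _ _ _ _ _ _ _)) (add_nonneg (mul_nonneg (by norm_num) (ht _ _ _ _ _ _ _ _ _ _ _ _ _ _ _ _ _ _ _ _ _ _ _ _ _ _ _ _)) (add_nonneg (mul_nonneg (by norm_num) (ht _ _ _ _ _ _ _ _ _ _ _ _ _ _ _ _ _ _ _ _ _ _ _ _ _ _ _ _)) (add_nonneg (mul_nonneg (by norm_num) (ht _ _ _ _ _ _ _ _ _ _ _ _ _ _ _ _ _ _ _ _ _ _ _ _ _ _ _ _)) (add_nonneg (mul_nonneg (by norm_num) (ht _ _ _ _ _ _ _ _ _ _ _ _ _ _ _ _ _ _ _ _ _ _ _ _ _ _ _ _)) (add_nonneg (mul_nonneg (by norm_num) (ht _ _ _ _ _ _ _ _ _ _ _ _ _ _ _ _ _ _ _ _ _ _ _ _ _ _ _ _)) (add_nonneg (mul_nonneg (by norm_num) (ht _ _ _ _ _ _ _ _ _ _ _ _ _ _ _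 _ _ _ _ _ _ _ _ _ _ _ _ _)) (add_nonneg (mul_nonneg (by norm_num) (ht _ _ _ _ _ _ _ _ _ _ _ _ _ _ _ _ _ _ _ _ _ _ _ _ _ _ _ _)) (add_nonneg (mul_nonneg (by norm_num) (ht _ _ _ _ _ _ _ _ _ _ _ _ _ _ _ _ _ _ _ _ _ _ _ _ _ _ _ _)) (add_nonneg (mul_nonneg (by norm_num) (ht _ _ _ _ _ _ _ _ _ _ _ _ _ _ _ _ _ _ _ _ _ _ _ _ _ _ _ _)) (add_nonneg (mul_nonneg (by norm_num) (ht _ _ _ _ _ _ _ _ _ _ _ _ _ _ _ _ _ _ _ _ _ _ _ _ _ _ _ _)) (mul_nonneg (by norm_num) (ht _ _ _ _ _ _ _ _ _ _ _ _ _ _ _ _ _ _ _ _ _ _ _ _ _ _ _ _))))))))))))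

noncomputable def nf47 (A : Atoms) (s : ℝ) : ℝ :=
  (4399/10000000000)*A.Aqqq*A.G + (15119/10000000000)*A.Aqqq*A.H + (-132425117/50010000000000)*A.Aqqx*A.G + (-40921/10000000000)*A.Aqqx*A.T + (-23671/5000000000)*A.Aqqx*s + (84371/2500000000)*A.Aqxx*s + (529790017/100020000000000)*A.G^3 + (641268829/100020000000000)*A.G^2*A.T + (40921/20000000000)*A.G*A.T^2 + (-61926943/5001000000000)*A.G*A.pqx + (3973649/500100000000)*A.G*A.pxx + (146947/2000000000)*A.G*s^2 + (15119/20000000000)*A.H^2*A.T + (372963/10000000000)*A.b11 + (469312351/16670000000000)*A.b22 + (3721/5000000000)*A.bc22 + (851/625000000)*A.bc23 + (335718949/50010000000000)*A.c11 + (172463/10000000000)*A.c22 + (851/1250000000)*A.c33 + (372963/5000000000)*A.pqx*s + (-169359/5000000000)*A.pxx*s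

lemma chunk47 (A : Atoms) (s : ℝ) (ht : ∀ a1 a2 a3 a4 a5 a6 a7 b1 b2 b3 b4 b5 b6 b7 c1 c2 c3 c4 c5 c6 c7 d1 d2 d3 d4 d5 d6 d7 : ℝ,
      0 ≤ A.fTens a1 a2 a3 a4 a5 a6 a7 b1 b2 b3 b4 b5 b6 b7 c1 c2 c3 c4 c5 c6 c7 d1 d2 d3 d4 d5 d6 d7)
    (hv : ∀ z1 z2 z3 z4 z5 z6 z7 : ℝ, 0 ≤ A.fPV z1 z2 z3 z4 z5 z6 z7 z1 z2 z3 z4 z5 z6 z7) :
    0 ≤ nf47 A s := by
  have e : (372963/10000000000) * (A.fPV 1 0 0 0 0 0 (1*s) 1 0 0 0 0 0 (1*s)) +
    ((3721/10000000000) * (A.fPV 0 1 0 1 0 0 0 0 1 0 1 0 0 0) +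
    ((851/1250000000) * (A.fPV 0 1 0 0 1 0 0 0 1 0 0 1 0 0) +
    ((61926943/10002000000000) * (A.fPV 0 1 0 0 0 ((-1)*A.G) 0 0 1 0 0 0 ((-1)*A.G) 0) +
    ((3973649/1000200000000) * (A.fPV 0 1 0 0 0 0 (1*A.G) 0 1 0 0 0 0 (1*A.G)) +
    ((169359/10000000000) * (A.fPV 0 1 0 0 0 0 ((-1)*s) 0 1 0 0 0 0 ((-1)*s)) +
    ((15119/20000000000) * (A.fPV 0 0 1 0 0 (1*A.H) 0 0 0 1 0 0 (1*A.H) 0) +
    ((4399/20000000000) * (A.fPV 0 0 1 0 0 (1*A.G) 0 0 0 1 0 0 (1*A.G) 0) +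
    ((40921/20000000000) * (A.fPV 0 0 1 0 0 0 ((-1)*A.T) 0 0 1 0 0 0 ((-1)*A.T)) +
    ((132425117/100020000000000) * (A.fPV 0 0 1 0 0 0 ((-1)*A.G) 0 0 1 0 0 0 ((-1)*A.G)) +
    ((23671/10000000000) * (A.fPV 0 0 1 0 0 0 ((-1)*s) 0 0 1 0 0 0 ((-1)*s)) +
    ((84371/5000000000) * (A.fPV 0 0 0 1 0 0 (1*s) 0 0 0 1 0 0 (1*s))))))))))))) = nf47 A s := by
    unfold nf47 Atoms.fPV
    ring
  rw [← e]
  exact add_nonneg (mul_nonneg (by norm_num) (hv _ _ _ _ _ _ _)) (add_nonneg (mul_nonneg (by norm_num) (hv _ _ _ _ _ _ _)) (add_nonneg (mul_nonneg (by norm_num) (hv _ _ _ _ _ _ _)) (add_nonneg (mul_nonneg (by norm_num) (hv _ _ _ _ _ _ _)) (add_nonneg (mul_nonneg (by norm_num) (hv _ _ _ _ _ _ _)) (add_nonneg (mul_nonneg (by norm_num) (hv _ _ _ _ _ _ _)) (add_nonneg (mul_nonneg (by norm_num) (hv _ _ _ _ _ _ _)) (add_nonneg (mul_nonneg (by norm_num) (hv _ _ _ _ _ _ _))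 (add_nonneg (mul_nonneg (by norm_num) (hv _ _ _ _ _ _ _)) (add_nonneg (mul_nonneg (by norm_num) (hv _ _ _ _ _ _ _)) (add_nonneg (mul_nonneg (by norm_num) (hv _ _ _ _ _ _ _)) (mul_nonneg (by norm_num) (hv _ _ _ _ _ _ _))))))))))))

noncomputable def nf48 (A : Atoms) (s : ℝ) : ℝ :=
  (8947/5000000000)*A.Aqxx*A.H + (-133579/5000000000)*A.Axxx*s + (6403875131/16670000000000)*A.G^2*A.T + (2991428757/66680000000000)*A.G*A.T^2 + (133579/10000000000)*A.G*s^2 + (22855047353/66680000000000)*A.H^2*A.T + (2571181/20000000000)*A.HH*A.T + (88923/1250000000)*A.MM*A.T + (533170731/6668000000000)*A.NN*A.T + (7269723/20000000000)*A.T^3 + (71263/5000000000)*A.c33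

lemma chunk48 (A : Atoms) (s : ℝ) (ht : ∀ a1 a2 a3 a4 a5 a6 a7 b1 b2 b3 b4 b5 b6 b7 c1 c2 c3 c4 c5 c6 c7 d1 d2 d3 d4 d5 d6 d7 : ℝ,
      0 ≤ A.fTens a1 a2 a3 a4 a5 a6 a7 b1 b2 b3 b4 b5 b6 b7 c1 c2 c3 c4 c5 c6 c7 d1 d2 d3 d4 d5 d6 d7)
    (hv : ∀ z1 z2 z3 z4 z5 z6 z7 : ℝ, 0 ≤ A.fPV z1 z2 z3 z4 z5 z6 z7 z1 z2 z3 z4 z5 z6 z7) :
    0 ≤ nf48 A s := by
  have e : (8947/10000000000) * (A.fPV 0 0 0 0 1 (1*A.H) 0 0 0 0 0 1 (1*A.H) 0) +
    ((133579/10000000000) * (A.fPV 0 0 0 0 1 0 ((-1)*s) 0 0 0 0 1 0 ((-1)*s)) +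
    ((1247901/20000000000) * (A.fTens 1 0 0 0 0 0 0 0 0 0 0 0 0 0 0 0 0 0 0 0 0 0 0 0 0 0 0 0) +
    ((88923/1250000000) * (A.fTens 0 1 0 0 0 0 0 0 0 0 0 0 0 0 0 0 0 0 0 0 0 0 0 0 0 0 0 0) +
    ((533170731/6668000000000) * (A.fTens 0 0 1 0 0 0 0 0 0 0 0 0 0 0 0 0 0 0 0 0 0 0 0 0 0 0 0 0) +
    ((1727829/20000000000) * (A.fTens 0 0 0 1 0 0 0 0 0 0 0 0 0 0 0 0 0 0 0 0 0 0 0 0 0 0 0 0) +
    ((2991428757/33340000000000) * (A.fTens 0 0 0 0 1 0 0 0 0 0 0 0 0 0 0 0 0 0 0 0 0 0 0 0 0 0 0 0) +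
    ((1452885131/16670000000000) * (A.fTens 0 0 0 0 0 1 0 0 0 0 0 0 0 0 0 0 0 0 0 0 0 0 0 0 0 0 0 0) +
    ((923649/10000000000) * (A.fTens 0 0 0 0 0 0 (1*A.T) 0 0 0 0 0 0 0 0 0 0 0 0 0 0 0 0 0 0 0 0 0) +
    ((99/1000000) * (A.fTens 0 0 0 0 0 0 (1*A.H) 0 0 0 0 0 0 0 0 0 0 0 0 0 0 0 0 0 0 0 0 0) +
    ((99/1000000) * (A.fTens 0 0 0 0 0 0 (1*A.G) 0 0 0 0 0 0 0 0 0 0 0 0 0 0 0 0 0 0 0 0 0) +
    ((16541/250000000) * (A.fTens 0 0 0 0 0 0 0 0 0 0 0 0 0 0 1 0 0 0 0 0 0 0 0 0 0 0 0 0)))))))))))) = nf48 A s := by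
    unfold nf48 Atoms.fTens Atoms.fIP Atoms.fPV
    ring
  rw [← e]
  exact add_nonneg (mul_nonneg (by norm_num) (hv _ _ _ _ _ _ _)) (add_nonneg (mul_nonneg (by norm_num) (hv _ _ _ _ _ _ _)) (add_nonneg (mul_nonneg (by norm_num) (ht _ _ _ _ _ _ _ _ _ _ _ _ _ _ _ _ _ _ _ _ _ _ _ _ _ _ _ _)) (add_nonneg (mul_nonneg (by norm_num) (ht _ _ _ _ _ _ _ _ _ _ _ _ _ _ _ _ _ _ _ _ _ _ _ _ _ _ _ _)) (add_nonneg (mul_nonneg (by norm_num) (ht _ _ _ _ _ _ _ _ _ _ _ _ _ _ _ _ _ _ _ _ _ _ _ _ _ _ _ _)) (add_nonneg (mul_nonneg (by norm_num) (ht _ _ _ _ _ _ _ _ _ _ _ _ _ _ _ _ _ _ _ _ _ _ _ _ _ _ _ _)) (add_nonneg (mul_nonneg (by norm_num) (ht _ _ _ _ _ _ _ _ _ _ _ _ _ _ _ _ _ _ _ _ _ _ _ _ _ _ _ _)) (add_nonneg (mul_nonneg (by norm_num) (ht _ _ _ _ _ _ _ _ _ _ _ _ _ _ _ _ _ _ _ _ _ _ _ _ _ _ _ _)) (add_nonneg (mul_nonneg (by norm_num) (ht _ _ _ _ _ _ _ _ _ _ _ _ _ _ _ _ _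 _ _ _ _ _ _ _ _ _ _ _)) (add_nonneg (mul_nonneg (by norm_num) (ht _ _ _ _ _ _ _ _ _ _ _ _ _ _ _ _ _ _ _ _ _ _ _ _ _ _ _ _)) (add_nonneg (mul_nonneg (by norm_num) (ht _ _ _ _ _ _ _ _ _ _ _ _ _ _ _ _ _ _ _ _ _ _ _ _ _ _ _ _)) (mul_nonneg (by norm_num) (ht _ _ _ _ _ _ _ _ _ _ _ _ _ _ _ _ _ _ _ _ _ _ _ _ _ _ _ _))))))))))))

noncomputable def nf49 (A : Atoms) (s : ℝ) : ℝ :=
  (896089/10000000000)*A.G^3 + (1078203/2500000000)*A.G^2*A.T + (99/2000000)*A.G*A.H^2 + (6537437677/100020000000000)*A.G*A.HH + (311663/4000000000)*A.G*A.MM + (2061077681/25005000000000)*A.G*A.NN + (118347/1250000000)*A.G*A.T^2 + (297/1000000)*A.H^2*A.T + (73843/1000000000)*A.MM*A.T + (803509/10000000000)*A.NN*A.T + (5673783/20000000000)*A.T^3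

lemma chunk49 (A : Atoms) (s : ℝ) (ht : ∀ a1 a2 a3 a4 a5 a6 a7 b1 b2 b3 b4 b5 b6 b7 c1 c2 c3 c4 c5 c6 c7 d1 d2 d3 d4 d5 d6 d7 : ℝ,
      0 ≤ A.fTens a1 a2 a3 a4 a5 a6 a7 b1 b2 b3 b4 b5 b6 b7 c1 c2 c3 c4 c5 c6 c7 d1 d2 d3 d4 d5 d6 d7)
    (hv : ∀ z1 z2 z3 z4 z5 z6 z7 : ℝ, 0 ≤ A.fPV z1 z2 z3 z4 z5 z6 z7 z1 z2 z3 z4 z5 z6 z7) :
    0 ≤ nf49 A s := by
  have e : (73843/1000000000) * (A.fTens 0 0 0 0 0 0 0 0 0 0 0 0 0 0 0 1 0 0 0 0 0 0 0 0 0 0 0 0) +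
    ((803509/10000000000) * (A.fTens 0 0 0 0 0 0 0 0 0 0 0 0 0 0 0 0 1 0 0 0 0 0 0 0 0 0 0 0) +
    ((211953/2500000000) * (A.fTens 0 0 0 0 0 0 0 0 0 0 0 0 0 0 0 0 0 0 0 1 0 0 0 0 0 0 0 0) +
    ((1891261/20000000000) * (A.fTens 0 0 0 0 0 0 0 0 0 0 0 0 0 0 0 0 0 0 0 0 (1*A.T) 0 0 0 0 0 0 0) +
    ((99/1000000) * (A.fTens 0 0 0 0 0 0 0 0 0 0 0 0 0 0 0 0 0 0 0 0 (1*A.H) 0 0 0 0 0 0 0) +
    ((99/1000000) * (A.fTens 0 0 0 0 0 0 0 0 0 0 0 0 0 0 0 0 0 0 0 0 (1*A.G) 0 0 0 0 0 0 0) +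
    ((6537437677/100020000000000) * (A.fTens 0 0 0 0 0 0 0 1 0 0 0 0 0 0 0 0 0 0 0 0 0 0 0 0 0 0 0 0) +
    ((311663/4000000000) * (A.fTens 0 0 0 0 0 0 0 0 1 0 0 0 0 0 0 0 0 0 0 0 0 0 0 0 0 0 0 0) +
    ((2061077681/25005000000000) * (A.fTens 0 0 0 0 0 0 0 0 0 1 0 0 0 0 0 0 0 0 0 0 0 0 0 0 0 0 0 0) +
    ((118347/1250000000) * (A.fTens 0 0 0 0 0 0 0 0 0 0 1 0 0 0 0 0 0 0 0 0 0 0 0 0 0 0 0 0) +
    ((99/1000000) * (A.fTens 0 0 0 0 0 0 0 0 0 0 0 1 0 0 0 0 0 0 0 0 0 0 0 0 0 0 0 0) +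
    ((896089/10000000000) * (A.fTens 0 0 0 0 0 0 0 0 0 0 0 0 1 0 0 0 0 0 0 0 0 0 0 0 0 0 0 0)))))))))))) = nf49 A s := by
    unfold nf49 Atoms.fTens Atoms.fIP Atoms.fPV
    ring
  rw [← e]
  exact add_nonneg (mul_nonneg (by norm_num) (ht _ _ _ _ _ _ _ _ _ _ _ _ _ _ _ _ _ _ _ _ _ _ _ _ _ _ _ _)) (add_nonneg (mul_nonneg (by norm_num) (ht _ _ _ _ _ _ _ _ _ _ _ _ _ _ _ _ _ _ _ _ _ _ _ _ _ _ _ _)) (add_nonneg (mul_nonneg (by norm_num) (ht _ _ _ _ _ _ _ _ _ _ _ _ _ _ _ _ _ _ _ _ _ _ _ _ _ _ _ _)) (add_nonneg (mul_nonneg (by norm_num) (ht _ _ _ _ _ _ _ _ _ _ _ _ _ _ _ _ _ _ _ _ _ _ _ _ _ _ _ _)) (add_nonneg (mul_nonneg (by norm_num) (ht _ _ _ _ _ _ _ _ _ _ _ _ _ _ _ _ _ _ _ _ _ _ _ _ _ _ _ _)) (add_nonneg (mul_nonneg (by norm_num) (ht _ _ _ _ _ _ _ _ _ _ _ _ _ _ _ _ _ _ _ _ _ _ _ _ _ _ _ _)) (add_nonneg (mul_nonneg (by norm_num) (ht _ _ _ _ _ _ _ _ _ _ _ _ _ _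 _ _ _ _ _ _ _ _ _ _ _ _ _ _)) (add_nonneg (mul_nonneg (by norm_num) (ht _ _ _ _ _ _ _ _ _ _ _ _ _ _ _ _ _ _ _ _ _ _ _ _ _ _ _ _)) (add_nonneg (mul_nonneg (by norm_num) (ht _ _ _ _ _ _ _ _ _ _ _ _ _ _ _ _ _ _ _ _ _ _ _ _ _ _ _ _)) (add_nonneg (mul_nonneg (by norm_num) (ht _ _ _ _ _ _ _ _ _ _ _ _ _ _ _ _ _ _ _ _ _ _ _ _ _ _ _ _)) (add_nonneg (mul_nonneg (by norm_num) (ht _ _ _ _ _ _ _ _ _ _ _ _ _ _ _ _ _ _ _ _ _ _ _ _ _ _ _ _)) (mul_nonneg (by norm_num) (ht _ _ _ _ _ _ _ _ _ _ _ _ _ _ _ _ _ _ _ _ _ _ _ _ _ _ _ _))))))))))))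

noncomputable def nf50 (A : Atoms) (s : ℝ) : ℝ :=
  (4837035063/8335000000000)*A.G^3 + (11383509/20000000000)*A.G*A.H^2 + (326127/5000000000)*A.G*A.HH + (314191/4000000000)*A.G*A.MM + (111562629/1333600000000)*A.G*A.NN + (5484948681/8335000000000)*A.G*A.T^2 + (617037/10000000000)*A.b11 + (566459849/8335000000000)*A.b22

lemma chunk50 (A : Atoms) (s : ℝ) (ht : ∀ a1 a2 a3 a4 a5 a6 a7 b1 b2 b3 b4 b5 b6 b7 c1 c2 c3 c4 c5 c6 c7 d1 d2 d3 d4 d5 d6 d7 : ℝ,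
      0 ≤ A.fTens a1 a2 a3 a4 a5 a6 a7 b1 b2 b3 b4 b5 b6 b7 c1 c2 c3 c4 c5 c6 c7 d1 d2 d3 d4 d5 d6 d7)
    (hv : ∀ z1 z2 z3 z4 z5 z6 z7 : ℝ, 0 ≤ A.fPV z1 z2 z3 z4 z5 z6 z7 z1 z2 z3 z4 z5 z6 z7) :
    0 ≤ nf50 A s := by
  have e : (99/1000000) * (A.fTens 0 0 0 0 0 0 0 0 0 0 0 0 0 (1*A.T) 0 0 0 0 0 0 0 0 0 0 0 0 0 0) +
    ((99/1000000) * (A.fTens 0 0 0 0 0 0 0 0 0 0 0 0 0 (1*A.H) 0 0 0 0 0 0 0 0 0 0 0 0 0 0) +
    ((787180021/8335000000000) * (A.fTens 0 0 0 0 0 0 0 0 0 0 0 0 0 (1*A.G) 0 0 0 0 0 0 0 0 0 0 0 0 0 0) +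
    ((326127/5000000000) * (A.fTens 0 0 0 0 0 0 0 0 0 0 0 0 0 0 0 0 0 0 0 0 0 1 0 0 0 0 0 0) +
    ((314191/4000000000) * (A.fTens 0 0 0 0 0 0 0 0 0 0 0 0 0 0 0 0 0 0 0 0 0 0 1 0 0 0 0 0) +
    ((111562629/1333600000000) * (A.fTens 0 0 0 0 0 0 0 0 0 0 0 0 0 0 0 0 0 0 0 0 0 0 0 1 0 0 0 0) +
    ((99/1000000) * (A.fTens 0 0 0 0 0 0 0 0 0 0 0 0 0 0 0 0 0 0 0 0 0 0 0 0 1 0 0 0) +
    ((728096227/8335000000000) * (A.fTens 0 0 0 0 0 0 0 0 0 0 0 0 0 0 0 0 0 0 0 0 0 0 0 0 0 0 0 (1*A.T)) +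
    ((1814503/20000000000) * (A.fTens 0 0 0 0 0 0 0 0 0 0 0 0 0 0 0 0 0 0 0 0 0 0 0 0 0 0 0 (1*A.H)) +
    ((99/1000000) * (A.fTens 0 0 0 0 0 0 0 0 0 0 0 0 0 0 0 0 0 0 0 0 0 0 0 0 0 0 0 (1*A.G)) +
    ((617037/10000000000) * (A.fPV 1 0 0 0 0 0 0 1 0 0 0 0 0 0) +
    ((566459849/8335000000000) * (A.fPV 0 1 0 0 0 0 0 0 1 0 0 0 0 0)))))))))))) = nf50 A s := by
    unfold nf50 Atoms.fTens Atoms.fIP Atoms.fPV
    ring
  rw [← e]
  exact add_nonneg (mul_nonneg (by norm_num) (ht _ _ _ _ _ _ _ _ _ _ _ _ _ _ _ _ _ _ _ _ _ _ _ _ _ _ _ _)) (add_nonneg (mul_nonneg (by norm_num) (ht _ _ _ _ _ _ _ _ _ _ _ _ _ _ _ _ _ _ _ _ _ _ _ _ _ _ _ _)) (add_nonneg (mul_nonneg (by norm_num) (ht _ _ _ _ _ _ _ _ _ _ _ _ _ _ _ _ _ _ _ _ _ _ _ _ _ _ _ _)) (add_nonneg (mul_nonneg (by norm_num) (ht _ _ _ _ _ _ _ _ _ _ _ _ _ _ _ _ _ _ _ _ _ _ _ _ _ _ _ _)) (add_nonneg (mul_nonneg (by norm_num)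 (ht _ _ _ _ _ _ _ _ _ _ _ _ _ _ _ _ _ _ _ _ _ _ _ _ _ _ _ _)) (add_nonneg (mul_nonneg (by norm_num) (ht _ _ _ _ _ _ _ _ _ _ _ _ _ _ _ _ _ _ _ _ _ _ _ _ _ _ _ _)) (add_nonneg (mul_nonneg (by norm_num) (ht _ _ _ _ _ _ _ _ _ _ _ _ _ _ _ _ _ _ _ _ _ _ _ _ _ _ _ _)) (add_nonneg (mul_nonneg (by norm_num) (ht _ _ _ _ _ _ _ _ _ _ _ _ _ _ _ _ _ _ _ _ _ _ _ _ _ _ _ _)) (add_nonneg (mul_nonneg (by norm_num) (ht _ _ _ _ _ _ _ _ _ _ _ _ _ _ _ _ _ _ _ _ _ _ _ _ _ _ _ _)) (add_nonneg (mul_nonneg (by norm_num) (ht _ _ _ _ _ _ _ _ _ _ _ _ _ _ _ _ _ _ _ _ _ _ _ _ _ _ _ _)) (add_nonneg (mul_nonneg (by norm_num) (hv _ _ _ _ _ _ _)) (mul_nonneg (by norm_num) (hv _ _ _ _ _ _ _))))))))))))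

noncomputable def nf51 (A : Atoms) (s : ℝ) : ℝ :=
  (9372189983/100020000000000)*A.G^3 + (9260711171/100020000000000)*A.G^2*A.T + (99/1000000)*A.G*A.H^2 + (1939079/20000000000)*A.G*A.T^2 + (60843/5000000000)*A.G*s^2 + (1946987/20000000000)*A.H^2*A.T + (99/1000000)*A.T^3 + (926608921/10002000000000)*A.c11 + (817537/10000000000)*A.c22 + (216569/2500000000)*A.c33

lemma chunk51 (A : Atoms) (s : ℝ) (ht : ∀ a1 a2 a3 a4 a5 a6 a7 b1 b2 b3 b4 b5 b6 b7 c1 c2 c3 c4 c5 c6 c7 d1 d2 d3 d4 d5 d6 d7 : ℝ,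
      0 ≤ A.fTens a1 a2 a3 a4 a5 a6 a7 b1 b2 b3 b4 b5 b6 b7 c1 c2 c3 c4 c5 c6 c7 d1 d2 d3 d4 d5 d6 d7)
    (hv : ∀ z1 z2 z3 z4 z5 z6 z7 : ℝ, 0 ≤ A.fPV z1 z2 z3 z4 z5 z6 z7 z1 z2 z3 z4 z5 z6 z7) :
    0 ≤ nf51 A s := by
  have e : (926608921/10002000000000) * (A.fPV 0 0 1 0 0 0 0 0 0 1 0 0 0 0) +
    ((817537/10000000000) * (A.fPV 0 0 0 1 0 0 0 0 0 0 1 0 0 0) +
    ((216569/2500000000) * (A.fPV 0 0 0 0 1 0 0 0 0 0 0 1 0 0) +
    ((99/1000000) * (A.fPV 0 0 0 0 0 (1*A.T) 0 0 0 0 0 0 (1*A.T) 0) +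
    ((1946987/20000000000) * (A.fPV 0 0 0 0 0 (1*A.H) 0 0 0 0 0 0 (1*A.H) 0) +
    ((9260711171/100020000000000) * (A.fPV 0 0 0 0 0 (1*A.G) 0 0 0 0 0 0 (1*A.G) 0) +
    ((1939079/20000000000) * (A.fPV 0 0 0 0 0 0 (1*A.T) 0 0 0 0 0 0 (1*A.T)) +
    ((99/1000000) * (A.fPV 0 0 0 0 0 0 (1*A.H) 0 0 0 0 0 0 (1*A.H)) +
    ((9372189983/100020000000000) * (A.fPV 0 0 0 0 0 0 (1*A.G) 0 0 0 0 0 0 (1*A.G)) +
    ((60843/5000000000) * (A.fPV 0 0 0 0 0 0 (1*s) 0 0 0 0 0 0 (1*s))))))))))) = nf51 A s := by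
    unfold nf51 Atoms.fPV
    ring
  rw [← e]
  exact add_nonneg (mul_nonneg (by norm_num) (hv _ _ _ _ _ _ _)) (add_nonneg (mul_nonneg (by norm_num) (hv _ _ _ _ _ _ _)) (add_nonneg (mul_nonneg (by norm_num) (hv _ _ _ _ _ _ _)) (add_nonneg (mul_nonneg (by norm_num) (hv _ _ _ _ _ _ _)) (add_nonneg (mul_nonneg (by norm_num) (hv _ _ _ _ _ _ _)) (add_nonneg (mul_nonneg (by norm_num) (hv _ _ _ _ _ _ _)) (add_nonneg (mul_nonneg (by norm_num) (hv _ _ _ _ _ _ _)) (add_nonneg (mul_nonneg (by norm_num) (hv _ _ _ _ _ _ _)) (add_nonneg (mul_nonneg (by norm_num) (hv _ _ _ _ _ _ _)) (mul_nonneg (by norm_num) (hv _ _ _ _ _ _ _))))))))))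

lemma key (A : Atoms) (s : ℝ) :
    psi A s = (1/2000) * (A.T + A.G) ^ 3 + rem A s + (nf0 A s + nf1 A s + nf2 A s + nf3 A s + nf4 A s + nf5 A s + nf6 A s + nf7 A s + nf8 A s + nf9 A s + nf10 A s + nf11 A s + nf12 A s + nf13 A s + nf14 A s + nf15 A s + nf16 A s + nf17 A s + nf18 A s + nf19 A s + nf20 A s + nf21 A s + nf22 A s + nf23 A s + nf24 A s + nf25 A s + nf26 A s + nf27 A s + nf28 A s + nf29 A s + nf30 A s + nf31 A s + nf32 A s + nf33 A s + nf34 A s + nf35 A s + nf36 A s + nf37 A s + nf38 A s + nf39 A s + nf40 A s + nf41 A s + nf42 A s + nf43 A s + nf44 A s + nf45 A s + nf46 A s + nf47 A s + nf48 A s + nf49 A s + nf50 A s + nf51 A s) := by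
  unfold psi rem nf0 nf1 nf2 nf3 nf4 nf5 nf6 nf7 nf8 nf9 nf10 nf11 nf12 nf13 nf14 nf15 nf16 nf17 nf18 nf19 nf20 nf21 nf22 nf23 nf24 nf25 nf26 nf27 nf28 nf29 nf30 nf31 nf32 nf33 nf34 nf35 nf36 nf37 nf38 nf39 nf40 nf41 nf42 nf43 nf44 nf45 nf46 nf47 nf48 nf49 nf50 nf51
  ring

/-- The certificate. -/
lemma main (A : Atoms) (s : ℝ) (ht : ∀ a1 a2 a3 a4 a5 a6 a7 b1 b2 b3 b4 b5 b6 b7 c1 c2 c3 c4 c5 c6 c7 d1 d2 d3 d4 d5 d6 d7 : ℝ,
      0 ≤ A.fTens a1 a2 a3 a4 a5 a6 a7 b1 b2 b3 b4 b5 b6 b7 c1 c2 c3 c4 c5 c6 c7 d1 d2 d3 d4 d5 d6 d7)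
    (hv : ∀ z1 z2 z3 z4 z5 z6 z7 : ℝ, 0 ≤ A.fPV z1 z2 z3 z4 z5 z6 z7 z1 z2 z3 z4 z5 z6 z7) :
    (1/2000) * (A.T + A.G) ^ 3 + rem A s ≤ psi A s := by
  rw [key]
  exact le_add_of_nonneg_right (add_nonneg (add_nonneg (add_nonneg (add_nonneg (add_nonneg (add_nonneg (add_nonneg (add_nonneg (add_nonneg (add_nonneg (add_nonneg (add_nonneg (add_nonneg (add_nonneg (add_nonneg (add_nonneg (add_nonneg (add_nonneg (add_nonneg (add_nonneg (add_nonneg (add_nonneg (add_nonneg (add_nonneg (add_nonneg (add_nonneg (add_nonneg (add_nonneg (add_nonneg (add_nonneg (add_nonneg (add_nonneg (add_nonneg (add_nonneg (add_nonneg (add_nonneg (add_nonneg (add_nonneg (add_nonneg (add_nonneg (add_nonneg (add_nonneg (add_nonneg (add_nonneg (add_nonneg (add_nonneg (add_nonneg (add_nonneg (add_nonneg (add_nonneg (add_nonneg (chunk0 A s ht hv) (chunk1 A s ht hv)) (chunk2 A s ht hv)) (chunk3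 A s ht hv)) (chunk4 A s ht hv)) (chunk5 A s ht hv)) (chunk6 A s ht hv)) (chunk7 A s ht hv)) (chunk8 A s ht hv)) (chunk9 A s ht hv)) (chunk10 A s ht hv)) (chunk11 A s ht hv)) (chunk12 A s ht hv)) (chunk13 A s ht hv)) (chunk14 A s ht hv)) (chunk15 A s ht hv)) (chunk16 A s ht hv)) (chunk17 A s ht hv)) (chunk18 A s ht hv)) (chunk19 A s ht hv)) (chunk20 A s ht hv)) (chunk21 A s ht hv)) (chunk22 A s ht hv)) (chunk23 A s ht hv)) (chunk24 A s ht hv)) (chunk25 A s ht hv)) (chunk26 A s ht hv)) (chunk27 A s ht hv)) (chunk28 A s ht hv)) (chunk29 A s ht hv)) (chunk30 A s ht hv)) (chunk31 A s ht hv)) (chunk32 A s ht hv)) (chunk33 A s ht hv)) (chunk34 A s ht hv)) (chunk35 A s ht hv)) (chunk36 A s ht hv)) (chunk37 A s ht hv)) (chunk38 A s ht hv)) (chunk39 A s ht hv)) (chunk40 A s ht hv)) (chunk41 A s ht hv)) (chunk42 A s ht hv)) (chunk43 A s ht hv)) (chunk44 A s ht hv))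 (chunk45 A s ht hv)) (chunk46 A s ht hv)) (chunk47 A s ht hv)) (chunk48 A s ht hv)) (chunk49 A s ht hv)) (chunk50 A s ht hv)) (chunk51 A s ht hv))

lemma rem_bound (A : Atoms) (s : ℝ) (hs : 0 ≤ s) (hT : 0 ≤ A.T) (hG : 0 ≤ A.G)
    (hH : A.H ^ 2 ≤ A.T * A.G) :
    (17/50000) * (A.T + A.G) ^ 3 - 15872591754 * s ^ 3 ≤ (1/2000) * (A.T + A.G) ^ 3 + rem A s := by
  obtain ⟨hY0, hTa, hGa, hHa⟩ := scal_bounds A.T A.H A.G hT hG hH
  generalize A.T + A.G = Y at *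
  have b1 := bnd2 A.H A.T Y s hHa hTa hs
  have b2 := bnd2 A.T A.T Y s hTa hTa hs
  have b3 := bnd2 A.G A.T Y s hGa hTa hs
  have b4 := bnd2 A.H A.H Y s hHa hHa hs
  have b5 := bnd2 A.G A.H Y s hGa hHa hs
  have b6 := bnd2 A.G A.G Y s hGa hGa hs
  have b7 := bnd1 A.G Y s hGa hs
  have b8 := bnd3 A.T A.T A.T Y hTa hTa hTa
  have b9 := bnd3 A.H A.T A.T Y hHa hTa hTa
  have b10 := bnd3 A.G A.T A.T Y hGa hTa hTa
  have b11 := bnd3 A.G A.H A.T Y hGa hHa hTa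
  have b12 := bnd3 A.H A.H A.T Y hHa hHa hTa
  have b13 := bnd3 A.G A.H A.H Y hGa hHa hHa
  have b14 := bnd3 A.G A.G A.T Y hGa hGa hTa
  have b15 := bnd3 A.G A.G A.H Y hGa hGa hHa
  have b17 := bnd3 A.H A.H A.H Y hHa hHa hHa
  have y1 := young1 Y s 85948 (1/20000) hY0 hs (by norm_num) (by norm_num)
  have y2 := young2 Y s 572 (1/20000) hY0 hs (by norm_num) (by norm_num)
  have p1 : 0 ≤ s * Y ^ 2 := by positivity
  have p2 : 0 ≤ s ^ 2 * Y := by positivity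
  have p3 : 0 ≤ s ^ 3 := by positivity
  have p4 : 0 ≤ Y ^ 3 := by positivity
  unfold rem
  linarith [b1.1, b1.2, b2.1, b2.2, b3.1, b3.2, b4.1, b4.2, b5.1, b5.2, b6.1, b6.2, b7.1, b7.2, b8.1, b8.2, b9.1, b9.2, b10.1, b10.2, b11.1, b11.2, b12.1, b12.2, b13.1, b13.2, b14.1, b14.2, b15.1, b15.2, (pow_nonneg hG 3), b17.1, b17.2]

/-- The certificate with the scalar remainder absorbed. -/
lemma final (A : Atoms) (s : ℝ) (hs : 0 ≤ s) (hT : 0 ≤ A.T) (hG : 0 ≤ A.G)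
    (hH : A.H ^ 2 ≤ A.T * A.G) (ht : ∀ a1 a2 a3 a4 a5 a6 a7 b1 b2 b3 b4 b5 b6 b7 c1 c2 c3 c4 c5 c6 c7 d1 d2 d3 d4 d5 d6 d7 : ℝ,
      0 ≤ A.fTens a1 a2 a3 a4 a5 a6 a7 b1 b2 b3 b4 b5 b6 b7 c1 c2 c3 c4 c5 c6 c7 d1 d2 d3 d4 d5 d6 d7)
    (hv : ∀ z1 z2 z3 z4 z5 z6 z7 : ℝ, 0 ≤ A.fPV z1 z2 z3 z4 z5 z6 z7 z1 z2 z3 z4 z5 z6 z7) :
    (17/50000) * (A.T + A.G) ^ 3 - 15872591754 * s ^ 3 ≤ psi A s :=
  (rem_bound A s hs hT hG hH).trans (main A s ht hv)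

end CertR21

end Vale.Agent.Lib.P252
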