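import Vale.Agent.Lib.P252.Hess10

/-!
Positivity of the inner product on three-index arrays, its expansion on the arrays
`a ⊗ Z` and `Z ⊗ a`, and the contraction of symmetric matrices with covectors.
-/

open scoped ContDiff Matrix Kronecker
open MeasureTheory

namespace Vale.Agent.Lib.P252

variable {n : ℕ} {Ω : Set (Fin n → ℝ)} {u : (Fin n → ℝ) → ℝ} {x₀ : Fin n → ℝ}

/-- The inner product on three-index arrays. -/
noncomputable def IP3 (u : (Fin n → ℝ) → ℝ) (x : Fin n → ℝ) (Θ Θ' : Fin n → Fin n → Fin n → ℝ) : ℝ :=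
  ∑ i, ∑ i', ∑ j, ∑ j', ∑ k, ∑ k', Ui u x i i' * Ui u x j j' * Ui u x k k' * Θ i j k * Θ' i' j' k'

/-- The contraction `Z_{jk} b^k`. -/
noncomputable def Cn (u : (Fin n → ℝ) → ℝ) (x : Fin n → ℝ) (Z : Fin n → Fin n → ℝ)
    (b : Fin n → (Fin n → ℝ) → ℝ) (j : Fin n) : ℝ := ∑ k, Z j k * ra u b k x

/-- The pairing of two covectors at a point. -/
noncomputable def PV (u : (Fin n → ℝ) → ℝ) (x : Fin n → ℝ) (v w : Fin n → ℝ) : ℝ :=
  ∑ i, ∑ j, Ui u x i j * v i * w j

lemma IP3_add_left (x : Fin n → ℝ) (Θ₁ Θ₂ Θ' : Fin n → Fin n → Fin n → ℝ) :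
    IP3 u x (fun i j k => Θ₁ i j k + Θ₂ i j k) Θ' = IP3 u x Θ₁ Θ' + IP3 u x Θ₂ Θ' := by
  unfold IP3
  simp only [mul_add, add_mul, Finset.sum_add_distrib]

lemma IP3_add_right (x : Fin n → ℝ) (Θ Θ₁ Θ₂ : Fin n → Fin n → Fin n → ℝ) :
    IP3 u x Θ (fun i j k => Θ₁ i j k + Θ₂ i j k) = IP3 u x Θ Θ₁ + IP3 u x Θ Θ₂ := by
  unfold IP3
  simp only [mul_add, Finset.sum_add_distrib]

lemma pa_eq_sum (a b : Fin n → (Fin n → ℝ) → ℝ) (x : Fin n → ℝ) :
    pa u a b x = ∑ i, ∑ i', Ui u x i i' * a i x * b i' x := by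
  unfold pa ra
  refine Finset.sum_congr rfl fun i _ => ?_
  rw [Finset.mul_sum]
  exact Finset.sum_congr rfl fun i' _ => by ring

lemma sum_factor (F : Fin n → Fin n → ℝ) (G : Fin n → Fin n → Fin n → Fin n → ℝ) :
    (∑ i, ∑ i', F i i') * (∑ j, ∑ k, ∑ j', ∑ k', G j k j' k') =
      ∑ i, ∑ i', ∑ j, ∑ k, ∑ j', ∑ k', F i i' * G j k j' k' := by
  simp only [Finset.sum_mul]
  simp only [Finset.mul_sum]

/-- `a ⊗ Z` paired with `b ⊗ W`. -/
lemma IP3_aa (x : Fin n → ℝ) (a b : Fin n → (Fin n → ℝ) → ℝ) (Z W : Fin n → Fin n → ℝ) :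
    IP3 u x (fun i j k => a i x * Z j k) (fun i j k => b i x * W j k) = pa u a b x * IP u x Z W := by
  rw [pa_eq_sum]
  unfold IP3 IP
  rw [sum_factor]
  refine Finset.sum_congr rfl fun i _ => Finset.sum_congr rfl fun i' _ => ?_
  calc ∑ j, ∑ j', ∑ k, ∑ k', Ui u x i i' * Ui u x j j' * Ui u x k k' * (a i x * Z j k) *
        (b i' x * W j' k')
      = ∑ j, ∑ k, ∑ j', ∑ k', Ui u x i i' * Ui u x j j' * Ui u x k k' * (a i x * Z j k) *
        (b i' x * W j' k') := Finset.sum_congr rfl fun j _ => Finset.sum_comm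
    _ = _ := by
        refine Finset.sum_congr rfl fun j _ => Finset.sum_congr rfl fun k _ =>
          Finset.sum_congr rfl fun j' _ => Finset.sum_congr rfl fun k' _ => ?_
        ring

/-- `Z ⊗ a` paired with `W ⊗ b`. -/
lemma IP3_bb (x : Fin n → ℝ) (a b : Fin n → (Fin n → ℝ) → ℝ) (Z W : Fin n → Fin n → ℝ) :
    IP3 u x (fun i j k => Z i j * a k x) (fun i j k => W i j * b k x) = pa u a b x * IP u x Z W := by
  rw [pa_eq_sum]
  unfold IP3 IP
  rw [sum_factor]
  calc ∑ i, ∑ i', ∑ j, ∑ j', ∑ k, ∑ k', Ui u x i i' * Ui u x j j' * Ui u x k k' * (Z i j * a k x) *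
        (W i' j' * b k' x)
      = ∑ i, ∑ j, ∑ i', ∑ j', ∑ k, ∑ k', Ui u x i i' * Ui u x j j' * Ui u x k k' * (Z i j * a k x) *
        (W i' j' * b k' x) := Finset.sum_congr rfl fun i _ => Finset.sum_comm
    _ = ∑ i, ∑ j, ∑ k, ∑ k', ∑ i', ∑ j', Ui u x i i' * Ui u x j j' * Ui u x k k' *
        (Z i j * a k x) * (W i' j' * b k' x) := by
        refine Finset.sum_congr rfl fun i _ => Finset.sum_congr rfl fun j _ => ?_
        rw [sum4_swap]
    _ = ∑ k, ∑ k', ∑ i, ∑ j, ∑ i', ∑ j', Ui u x i i' * Ui u x j j' * Ui u x k k' *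
        (Z i j * a k x) * (W i' j' * b k' x) := sum4_swap
    _ = _ := by
        refine Finset.sum_congr rfl fun k _ => Finset.sum_congr rfl fun k' _ =>
          Finset.sum_congr rfl fun i _ => Finset.sum_congr rfl fun j _ =>
          Finset.sum_congr rfl fun i' _ => Finset.sum_congr rfl fun j' _ => ?_
        ring

/-- `a ⊗ Z` paired with `W ⊗ b`, where `W` is symmetric and `U` is symmetric. -/
lemma IP3_ab (x : Fin n → ℝ) (hU : ∀ i j, Ui u x i j = Ui u x j i)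
    (a b : Fin n → (Fin n → ℝ) → ℝ) (Z W : Fin n → Fin n → ℝ) (hW : ∀ i j, W i j = W j i) :
    IP3 u x (fun i j k => a i x * Z j k) (fun i j k => W i j * b k x) =
      PV u x (Cn u x Z b) (Cn u x W a) := by
  have e1 : ∀ j, Cn u x Z b j = ∑ k, ∑ k', Z j k * (Ui u x k k' * b k' x) := by
    intro j
    unfold Cn ra
    exact Finset.sum_congr rfl fun k _ => Finset.mul_sum _ _ _
  have e2 : ∀ j', Cn u x W a j' = ∑ i, ∑ i', (Ui u x i i' * a i x) * W i' j' := by
    intro j'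
    unfold Cn ra
    simp only [Finset.mul_sum]
    rw [Finset.sum_comm]
    refine Finset.sum_congr rfl fun i _ => Finset.sum_congr rfl fun i' _ => ?_
    rw [hW j' i', hU i' i]
    ring
  unfold PV
  simp only [e1, e2]
  unfold IP3
  calc ∑ i, ∑ i', ∑ j, ∑ j', ∑ k, ∑ k', Ui u x i i' * Ui u x j j' * Ui u x k k' * (a i x * Z j k) *
        (W i' j' * b k' x)
      = ∑ i, ∑ j, ∑ i', ∑ j', ∑ k, ∑ k', Ui u x i i' * Ui u x j j' * Ui u x k k' * (a i x * Z j k) *
        (W i' j' * b k' x) := Finset.sum_congr rfl fun i _ => Finset.sum_comm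
    _ = ∑ j, ∑ i, ∑ i', ∑ j', ∑ k, ∑ k', Ui u x i i' * Ui u x j j' * Ui u x k k' * (a i x * Z j k) *
        (W i' j' * b k' x) := Finset.sum_comm
    _ = ∑ j, ∑ j', ∑ i, ∑ i', ∑ k, ∑ k', Ui u x i i' * Ui u x j j' * Ui u x k k' * (a i x * Z j k) *
        (W i' j' * b k' x) := by
        refine Finset.sum_congr rfl fun j _ => ?_
        calc ∑ i, ∑ i', ∑ j', ∑ k, ∑ k', Ui u x i i' * Ui u x j j' * Ui u x k k' *
              (a i x * Z j k) * (W i' j' * b k' x)
            = ∑ i, ∑ j', ∑ i', ∑ k, ∑ k', Ui u x i i' * Ui u x j j' * Ui u x k k' *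
              (a i x * Z j k) * (W i' j' * b k' x) :=
              Finset.sum_congr rfl fun i _ => Finset.sum_comm
          _ = _ := Finset.sum_comm
    _ = _ := by
        refine Finset.sum_congr rfl fun j _ => Finset.sum_congr rfl fun j' _ => ?_
        have hfac : ∀ (c : ℝ) (F G : Fin n → Fin n → ℝ),
            c * (∑ k, ∑ k', F k k') * (∑ i, ∑ i', G i i') =
              ∑ i, ∑ i', ∑ k, ∑ k', c * F k k' * G i i' := by
          intro c F G
          have h1 : ∀ i i', ∑ k, ∑ k', c * F k k' * G i i' = c * (∑ k, ∑ k', F k k') * G i i' := by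
            intro i i'
            simp only [Finset.mul_sum, Finset.sum_mul]
          simp only [h1]
          simp only [← Finset.mul_sum]
        rw [hfac]
        refine Finset.sum_congr rfl fun i _ => Finset.sum_congr rfl fun i' _ =>
          Finset.sum_congr rfl fun k _ => Finset.sum_congr rfl fun k' _ => ?_
        ring

lemma IP3_comm (x : Fin n → ℝ) (hU : ∀ i j, Ui u x i j = Ui u x j i)
    (Θ Θ' : Fin n → Fin n → Fin n → ℝ) : IP3 u x Θ Θ' = IP3 u x Θ' Θ := by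
  unfold IP3
  rw [Finset.sum_comm]
  refine Finset.sum_congr rfl fun i _ => Finset.sum_congr rfl fun i' _ => ?_
  rw [Finset.sum_comm]
  refine Finset.sum_congr rfl fun j _ => Finset.sum_congr rfl fun j' _ => ?_
  rw [Finset.sum_comm]
  refine Finset.sum_congr rfl fun k _ => Finset.sum_congr rfl fun k' _ => ?_
  rw [hU i' i, hU j' j, hU k' k]
  ring

lemma sum6_reorder (f : Fin n → Fin n → Fin n → Fin n → Fin n → Fin n → ℝ) :
    ∑ i, ∑ j, ∑ k, ∑ i', ∑ j', ∑ k', f i j k i' j' k' =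
      ∑ i, ∑ i', ∑ j, ∑ j', ∑ k, ∑ k', f i j k i' j' k' := by
  refine Finset.sum_congr rfl fun i _ => ?_
  calc ∑ j, ∑ k, ∑ i', ∑ j', ∑ k', f i j k i' j' k'
      = ∑ j, ∑ i', ∑ k, ∑ j', ∑ k', f i j k i' j' k' :=
        Finset.sum_congr rfl fun j _ => Finset.sum_comm
    _ = ∑ i', ∑ j, ∑ k, ∑ j', ∑ k', f i j k i' j' k' := Finset.sum_comm
    _ = _ := Finset.sum_congr rfl fun i' _ => Finset.sum_congr rfl fun j _ => Finset.sum_comm

namespace IsAffineMaximal

variable (hs : IsAffineMaximal Ω u)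
include hs

/-- Positivity of the inner product on three-index arrays. -/
lemma IP3_self_nonneg {x : Fin n → ℝ} (hx : x ∈ Ω) (Θ : Fin n → Fin n → Fin n → ℝ) :
    0 ≤ IP3 u x Θ Θ := by
  classical
  have hU : ((hess u x)⁻¹).PosSemidef := (hs.posDef x hx).inv.posSemidef
  have hK := (hU.kronecker hU).kronecker hU
  have h := hK.dotProduct_mulVec_nonneg (fun p : (Fin n × Fin n) × Fin n => Θ p.1.1 p.1.2 p.2)
  have e : star (fun p : (Fin n × Fin n) × Fin n => Θ p.1.1 p.1.2 p.2) ⬝ᵥ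
      (((hess u x)⁻¹ ⊗ₖ (hess u x)⁻¹ ⊗ₖ (hess u x)⁻¹) *ᵥ
        fun p : (Fin n × Fin n) × Fin n => Θ p.1.1 p.1.2 p.2) = ∑ i, ∑ j, ∑ k, ∑ i', ∑ j', ∑ k',
          Ui u x i i' * Ui u x j j' * Ui u x k k' * Θ i j k * Θ i' j' k' := by
    simp only [dotProduct, Matrix.mulVec, Fintype.sum_prod_type, Matrix.kroneckerMap_apply,
      Pi.star_apply, star_trivial, Ui, Finset.mul_sum]
    refine Finset.sum_congr rfl fun i _ => Finset.sum_congr rfl fun j _ =>
      Finset.sum_congr rfl fun k _ => Finset.sum_congr rfl fun i' _ =>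
      Finset.sum_congr rfl fun j' _ => Finset.sum_congr rfl fun k' _ => ?_
    ring
  rw [e] at h
  refine h.trans_eq ?_
  unfold IP3
  exact sum6_reorder _

end IsAffineMaximal

end Vale.Agent.Lib.P252
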